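import Crest.Agent.X212.Nd18.Fj
import Crest.Agent.X212.Pte3.Out
import Crest.Agent.X212.Rd78.Bas

/-! Row 212, A-MD (helper88): the model of a part on which the wall `a` is broken. -/

set_option autoImplicit false
set_option linter.unusedSectionVars false
noncomputable section
open scoped Manifold ContDiff Topology InnerProductSpace
open MeasureTheory Set Function Filter

namespace Crest.Agent.X212.Sw88.Amd
open An M Nd18 Mod61 Nk89 Cht98 Rf65 Pte3 Fk18

variable {Wi : Type} {X : Mf 4} {A κ lam : Type} [Fintype A] [Fintype κ] [Fintype lam]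
  [DecidableEq lam] {M : Mark X A κ} {W : World M} {N : ML M lam} {Λ : Lns W N}
  {A' h : Type} [Fintype A'] [DecidableEq A'] [Fintype h] {r n : ℕ}
  {J : Job Wi Λ A' h r n} {c : M.Cl} {a : A}

theorem lim_eq {p : Prt A A' h} {b : Bp J c} {δ : ℝ} (E : EC b p Empty δ) (i : Ed c)
    (t : Tq p Empty) : E.lim i t = E.β i := by
  have e : E.μ i = none := (E.μ i).casesOn rfl fun u => u.elim
  rw [EC.lim, EC.lm, e, Option.elim_none, zero_smul, Rd78.bh_zero]

theorem lmC {σ : Cel A'} {δ₀ δ : ℝ} {p : Prt A A' h} {b : Bp J c} {E : EC b p Empty δ}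
    (g : GA a σ δ₀ b δ E) : LmC E := fun i hi t =>
  (lim_eq E i t).symm ▸ ⟨(g.crit i hi).sol.toAdm, (g.crit i hi).tmp⟩

variable (J c a) in
/-- **A-MD** -/
theorem mdA : MdA J c a := fun _ _ _ _ _ H =>
  ⟨H.mdl, H.out fun _ _ _ g => lmC g, fun q y ha S o => by
    obtain ⟨b, δ', E, x, ψ, h1, h2, h3, h4⟩ := H.ex q y ha S
    obtain rfl := h2.eq
    exact ⟨⟨⟨b, _, E⟩, h2⟩, ⟨(), x, ψ⟩, ⟨h3, h4⟩, o b E (H.cg h2) x ψ h2 h1 h3⟩⟩

end Crest.Agent.X212.Sw88.Amd
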