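import Crest.Agent.X212.Sw88.Lip
import Crest.Agent.X212.Spn45.Eqs
import Crest.Agent.X212.Rf65.Ec
import Crest.Agent.X212.Tl47.Un
import Crest.Agent.X212.Dec35.El
import Crest.Agent.X212.Dgr80.Chh

/-!
# Row 212, A-DEC (helper88): exponential convergence with a given rate
-/

set_option autoImplicit false
set_option linter.unusedSectionVars false
noncomputable section
open scoped Manifold ContDiff Topology InnerProductSpace
open MeasureTheory Set Function Filter Real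

namespace Crest.Agent.X212.Sw88.Elr
open An Nd18 Cyf70 Rdc90 Eqv71 Pj41
open Tmp64 (AdmOn admOn_univ Eq0)
open Bki64 (Cl win win_op cl_of_cls)

variable {E3 : Type} [NormedAddCommGroup E3] [NormedSpace ℝ E3] [FiniteDimensional ℝ E3]
  [MeasurableSpace E3] [BorelSpace E3]
  {H3 : Type} [TopologicalSpace H3] {I3 : ModelWithCorners ℝ E3 H3} [I3.Boundaryless]
  {Y : Type} [TopologicalSpace Y] [ChartedSpace H3 Y] [IsManifold I3 ∞ Y] [T2Space Y]
  [MeasurableSpace Y] [BorelSpace Y] [SecondCountableTopology Y] [CompactSpace Y]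
  {κ : Type} [Fintype κ] {lam : Type} [Fintype lam] {D : YD I3 Y κ lam} {β : YC Y κ lam}
  {N : ND Y lam} {r n : ℕ} {d : ℝ} {ζ : Circle} {l : Filter ℝ}

theorem side (hl : l = atTop ∨ l = atBot) : ∃ σ : ℝ, (σ = 1 ∨ σ = -1) ∧
    ∀ S, S ∈ l ↔ ∃ T, {s | T < σ * s} ⊆ S := by
  rcases hl with rfl | rfl
  · exact ⟨1, .inl rfl, fun S => (atTop_basis_Ioi.mem_iff).trans (by simp [Ioi])⟩
  · refine ⟨-1, .inr rfl, fun S => (atBot_basis_Iio.mem_iff).trans
      ⟨fun ⟨a, _, h⟩ => ⟨-a, fun s hs => h ?_⟩, fun ⟨a, h⟩ => ⟨-a, trivial, fun s hs => h ?_⟩⟩⟩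
    · simpa using hs
    · simpa [lt_neg] using hs

theorem ev_exp (C : ℝ) : ∀ᶠ R in atTop, exp (-R) * C < 1 := by
  have := tendsto_exp_neg_atTop_nhds_zero.mul_const C
  rw [zero_mul] at this
  exact this.eventually (gt_mem_nhds one_pos)

open An.Pre Sob92 Wz78 in
/-- critical points on a wall of positive scalar curvature (as `Wl34.bs`) -/
theorem bs (hD : D.OK) (h3 : Module.finrank ℝ E3 = 3) (hN : Ink3.Nil N) {b : ℕ} (py : Rf65.PY D b)
    (h : N.Crit D β) : Bs D β := by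
  obtain ⟨c, c0, hc⟩ := py.ps
  have A := Dgr80.adm_crit h
  have s := (hN.crit.1 h).1
  have q : Eqs D (cy β) (univ ×ˢ univ) := fun x _ =>
    ⟨(sub_zero _).symm.trans (s.D x), sub_eq_zero.1 ((sub_zero _).symm.trans (s.C x))⟩
  have e := (Rd78.cvp _ _ _ _ D c hD hc _ A.adm).2.2 univ isOpen_univ q 0 trivial
  rw [show GP D (cy β) = fun _ => ∫ y, ‖β.Φ y‖ ^ 2 ∂D.F.μ from rfl] at e
  simp only [deriv_const'] at e
  have n : 0 ≤ NP D (cy β) 0 := integral_nonneg fun _ => by positivity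
  have := openPos D.F.toPre
  have k : Continuous fun y => ‖β.Φ y‖ ^ 2 := (sm_slice_fst A.adm.sm 0).continuous.norm.pow 2
  have i0 : ∫ y, ‖β.Φ y‖ ^ 2 ∂D.F.μ ≤ 0 := by nlinarith
  have i1 := (k.ae_eq_iff_eq D.F.μ continuous_zero).1 ((integral_eq_zero_iff_of_nonneg
    (fun _ => sq_nonneg _) (k.integrable_of_hasCompactSupport (.of_compactSpace _))).1
      (i0.antisymm (integral_nonneg fun _ => sq_nonneg _)))
  have z : ∀ y, β.Φ y = 0 := fun y => by simpa using congrFun i1 y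
  refine ⟨hD, h3, A, z, fun x => ?_⟩
  have := Spn45.norm_Fg hD A x
  rw [(q x ⟨trivial, trivial⟩).2, show (cy β).Φ x = 0 from z _] at this
  simpa [Md.mu, Md.q, rk1, ← Pi.zero_def] using this

/-- `Rd3.ends` with the rate of `DR` -/
theorem endsR (hb : Bs D β) (hd : 0 < d) (de : Tl47.DR D β d) {c : Cfg (Y × ℝ) (Option κ) lam r}
    {σ T : ℝ} (hσ : σ = 1 ∨ σ = -1) (ha : AdmOn c D.B D.G (univ ×ˢ {s | T < σ * s}))
    (he : Eqs D c (univ ×ˢ {s | T < σ * s})) (hl : ∃ u, ∀ k, ∀ η > 0, ∃ T',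
      Cl D.Z c (cy β) u (fun _ => ζ) (univ ×ˢ {s | T' < σ * s}) k η) : ∃ u, ∀ k, ∃ C, ∀ s,
      T + 2 ≤ σ * s → Cl D.Z c (cy β) u (fun _ => ζ) (win Y s 1) k (C * exp (-d * |s|)) := by
  refine Cay24.outg D β hb.ok hb.adm r c σ d T ζ hσ hd ha (fun k => ?_) hl
  obtain ⟨η, hη, de⟩ := de k 1 one_pos
  obtain ⟨u, hu⟩ := hl
  obtain ⟨T₁, h1⟩ := hu ⌈η⁻¹⌉₊ η hη
  obtain ⟨a, a0, a1, a2⟩ : ∃ a : ℝ, 0 ≤ a ∧ T + η⁻¹ ≤ a ∧ T₁ + η⁻¹ ≤ a :=
    ⟨max 0 (max (T + η⁻¹) (T₁ + η⁻¹)), le_max_left _ _,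
      (le_max_left _ _).trans (le_max_right _ _), (le_max_right _ _).trans (le_max_right _ _)⟩
  have e1 : 1 ≤ exp (d * a) := one_le_exp (by positivity)
  refine ⟨exp (d * a), a, fun s hs => ?_⟩
  obtain ⟨h, n1, n2, -, -, v, hv⟩ := de r c (s - (σ * s - a)) (s + (σ * s - a)) (by linarith)
    fun t ht => by
      have sub : ∀ T', T' + η⁻¹ ≤ a → win Y t η⁻¹ ⊆ univ ×ˢ {s | T' < σ * s} := fun T' h =>
        prod_mono_right fun x hx => show T' < σ * x by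
          rcases hσ with rfl | rfl <;> linarith [ht.1, ht.2, hx.1, hx.2]
      exact ⟨ha.mono (sub T a1), fun x hx => he x (sub T a1 hx), u, ζ, Bki64.Cl.cls hb.adm isOpen_Ioo
        (ha.mono (sub T a1)) (h1.mono (win_op _ _) (sub T₁ a2) le_rfl le_rfl)⟩
  refine ⟨h, 0, v, 1, n1.toFo, ⟨contMDiff_const, fun x => map_zero _⟩,
    fun i => Sob92.CB_mono (n2 i) e1,
    Sob92.CB_mono (Sob92.CB_const k 0) (by simpa using e1.trans' zero_le_one),
    (hv s ⟨by linarith, by linarith⟩).mono (win_op s 1) Subset.rfl le_rfl (le_of_eq ?_)⟩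
  rw [sub_sub_cancel, add_sub_cancel_left, min_self, one_mul, ← exp_add,
    show |s| = σ * s by
      rcases hσ with rfl | rfl
      · rw [abs_of_nonneg (by linarith), one_mul]
      · rw [abs_of_nonpos (by linarith), neg_one_mul]]
  congr 1
  ring

/-- `Nck90.elim_psc` with the rate of `DR` -/
theorem elimR (hβ : Bs D β) (hd : 0 < d) (de : Tl47.DR D β d) {c : Cfg (Y × ℝ) (Option κ) lam r}
    {J S₀ : Set ℝ} (hl : l = atTop ∨ l = atBot) (hS : S₀ ∈ l) (ha : AdmOn c D.B D.G (univ ×ˢ J))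
    (hs : Eqs D c (univ ×ˢ S₀)) (H : ∃ u, ∀ k, ∀ η > 0, ∃ S ∈ l, S ⊆ J ∧ D.Cls c β u ζ S k η) :
    ∃ u, ∃ S ∈ l, S ⊆ J ∧ D.Cls c β u ζ S 0 1 ∧ ∀ k, ∃ C, ∀ s, Ioo (s - 1) (s + 1) ⊆ S →
      D.Cls c β u ζ (Ioo (s - 1) (s + 1)) k (C * exp (-d * |s|)) := by
  obtain ⟨u, H⟩ := H
  obtain ⟨σ, hσ, e⟩ := side hl
  obtain ⟨S₁, a1, a2, -⟩ := H 0 1 one_pos
  obtain ⟨T, hT⟩ := (e _).1 (inter_mem hS a1)
  have hJ := (hT.trans inter_subset_right).trans a2
  have ha' := ha.mono (prod_mono_right hJ)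
  have op : ∀ T : ℝ, IsOpen {s : ℝ | T < σ * s} := fun T => isOpen_lt (by fun_prop) (by fun_prop)
  obtain ⟨v, hv⟩ := endsR (ζ := ζ) hβ hd de hσ ha' (fun x hx => hs x ⟨trivial, (hT hx.2).1⟩)
    ⟨u, fun k η p => let ⟨S, b1, b2, b3⟩ := H k η p; let ⟨T', b4⟩ := (e _).1 b1
    ⟨T', (cl_of_cls hβ.adm (ha.mono (prod_mono_right b2)) b3).mono (isOpen_univ.prod (op _))
      (prod_mono_right b4) le_rfl le_rfl⟩⟩
  obtain ⟨C, hC⟩ := hv 0
  obtain ⟨R, r1, r2⟩ := ((eventually_ge_atTop (T + 2)).and (eventually_forall_ge_atTop.2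
    ((tendsto_id.const_mul_atTop hd).eventually (ev_exp C)))).exists
  have sub : {s | R < σ * s} ⊆ {s | T < σ * s} := fun s (hs : R < σ * s) => show T < _ by linarith
  refine ⟨v, _, (e _).2 ⟨R, Subset.rfl⟩, sub.trans hJ, Bki64.Cl.cls hβ.adm (op R)
    (ha'.mono (prod_mono_right sub)) (.of_local (isOpen_univ.prod (op R)) fun x hx => ?_),
    fun k => (hv k).imp fun C h s hs => ?_⟩
  · have : R < σ * x.2 := hx.2
    have k := hC x.2 (by linarith)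
    refine ⟨win Y x.2 1, v, _, ⟨trivial, by simp⟩, .rfl, .rfl, k.mono k.op Subset.rfl le_rfl ?_⟩
    have := r2 |x.2| (this.le.trans (by rcases hσ with rfl | rfl <;> simp [le_abs_self, neg_le_abs]))
    rw [neg_mul, mul_comm]
    exact this.le
  · have : R < σ * s := hs ⟨by simp, by simp⟩
    exact Bki64.Cl.cls hβ.adm isOpen_Ioo (ha'.mono (prod_mono_right (hs.trans sub)))
      (h s (by linarith))

section neck
variable {E : Type} [NormedAddCommGroup E] [NormedSpace ℝ E] [FiniteDimensional ℝ E]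
  [MeasurableSpace E] [BorelSpace E]
  {HM : Type} [TopologicalSpace HM] {I : ModelWithCorners ℝ E HM} [I.Boundaryless]
  {Z : Type} [TopologicalSpace Z] [ChartedSpace HM Z] [IsManifold I ∞ Z]
  [MeasurableSpace Z] [T2Space Z] [BorelSpace Z] [SecondCountableTopology Z]
  {B : Base Z (Option κ) lam} {G : Geo I Z (Option κ) lam} {K : Nk D B G}
  {c x : Cfg Z (Option κ) lam r} {q : YW I3 Y →₀ ℝ} {S : Set ℝ}

variable (K N q n c S) in
/-- the equations of the neck hold at the times `S` -/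
def EqN : Prop := ∀ z, K.tm z ∈ S → c.eD G (N.pt K q : Pt _ _ _ r n) z = 0 ∧
  c.eC B G (N.pt K q : Pt _ _ _ r n) z = 0

theorem EqN.eqs (hN : Ink3.Nil N) (h : EqN N n K c 0 S) (e : S ⊆ K.J) :
    Eqs D (K.pb c) (univ ×ˢ S) := fun z hz => by
  have hs := K.mem_src.2 (e hz.2)
  obtain ⟨h1, h2⟩ := h (K.ψ z) (K.tm_ψ z hs ▸ hz.2)
  have e1 : (K.pb c).m.Fg D.Z (K.pb c).W z = c.m.Fg G.F c.W (K.ψ z) := K.rel.Fg hs c.W
  have e2 : D.B.sd z = B.sd (K.ψ z) := by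
    funext s t
    simp only [Base.sd, Base.st, Base.a2, K.o _ _ _ _ z hs, K.P _ _ z hs]
  have e3 : (K.pb c).m.p2 D.B z = c.m.p2 B (K.ψ z) := congrArg (idx · _) e2
  rw [hN.pt] at h1 h2
  replace h1 := (sub_zero _).symm.trans h1
  replace h2 := sub_eq_zero.1 ((sub_zero _).symm.trans h2)
  refine ⟨(K.rel.dir hs (fun _ => rfl) (fun _ => rfl) (.of_forall fun _ => rfl)).trans h1, ?_⟩
  rw [Md.mu, e1, e3]
  exact h2

/-- ends of positive scalar curvature -/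
theorem elP (hN : Ink3.Nil N) (hβ : Bs D β) (hd : 0 < d) (de : Tl47.DR D β d) (hc : c.Adm B G)
    (hl : l = atTop ∨ l = atBot) (hS : S ∈ l) (e : S ⊆ K.J) (h : EqN N n K c 0 S)
    (H : K.Lim c β ζ l) : K.ELim d c β ζ l :=
  elimR hβ hd de hl hS (K.src ▸ (nk_gRel K).admOn_iff.2 ((admOn_univ.2 hc).mono (subset_univ _))) (h.eqs hN e) H

/-- ends with nondegenerate critical points -/
theorem elC [PreconnectedSpace Y] (hD : D.OK) (hN : N.OK D) (C : N.CD D)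
    (hE : ∀ i, Dec35.ElN D (C.β i) N d) {O : Set Z} (hO : IsClopen O) (hK : K.ψ.target ⊆ O)
    (hc : c.Adm B G) (h0 : ∀ z ∉ O, c.Φ z = 0) (hx : Dgr80.Gd B G x) {u : Z → CL c.m.V x.m.V}
    (e : Eq0 G.F c x O u) (e' : ∀ z, x.Φ z = u z (c.Φ z)) (hw : Dec35.Wk K)
    (hl : l = atTop ∨ l = atBot) (hS : S ∈ l) (e₀ : S ⊆ K.J) (h : EqN N n K c q S)
    (hβ : N.Crit D β) (H : K.Lim c β ζ l) : K.ELim d c β ζ l := by
  obtain ⟨i, k⟩ := C.cov β hβ
  have a := Dgr80.adm_crit hβ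
  have a' := Dgr80.adm_crit (C.crit i)
  obtain ⟨g, ξ, k⟩ := Dgr80.stb_of_eqv hD a a' k
  have k' : Mod61.EqOn D.B D.Z univ (cy β) (cy (C.β i)) (fun x => g x.1) ξ :=
    ⟨k.iso.mEq (OK.on a.adm.ok _) (OK.on a'.adm.ok _),
      (par0_iff ((IsConn.on a'.adm.conn _).proj' hD.B)).1 fun x _ a => k.par a x,
      fun x _ => (k.Φ x.1).symm, Subsingleton.elim _ _⟩
  have A := (admOn_univ.2 hc).mono (subset_univ O)
  have A' := (admOn_univ.2 hx.adm).mono (subset_univ O)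
  have cr : CR0 B G B G O O id _ B.l c x u 1 := ⟨ad0 hc, ad0 hx.adm, h0,
    fun z hz => by rw [e', h0 z hz, map_zero], e.cEq hx.hB A A'⟩
  have p := pt_nat1 (r := r) (n := n) K hx.hB hx.hG hx.tame hO hN q
  have lg := lg_refl hx.hB hx.hG hO.2
  have h1 := hE i ⟨B, G⟩ K r n x x q l _ hx hx.adm (isoOn_refl hx.hB hx.hG isOpen_univ (ad0 hx.adm))
    hw hl (mem_of_superset hS fun s hs z hz => by
      have m : z ∈ O := hK (K.tgt ▸ e₀ (hz ▸ hs))
      obtain ⟨b1, b2⟩ := h z (hz ▸ hs)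
      exact ⟨(p.eD lg cr m).trans (by rw [b1, map_zero, ← csL_apply, map_zero]),
        (p.eC lg cr m).trans (by rw [b2, map_zero])⟩)
    (lim_pre hx.hB hO.2 hK a' (ad0 hx.adm) (ad0 hc) ((e.symm A A').cEq hx.hB A' A)
      (Dgr80.lim_stb a a' (ad0 hc) k H))
  simpa using Pnt66.elim_post K hD a' a (ceq_symm_id hD.B hD.G isOpen_univ (ad0 a.adm)
    (ad0 a'.adm) k') (admOn_pb _ (ad0 hc) subset_rfl)
    (elim_pre hx.hB hO.2 hK a' (ad0 hc) (ad0 hx.adm) cr.e h1)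

end neck

end Crest.Agent.X212.Sw88.Elr
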