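import Crest.Agent.X212.Sw88.Aex
import Crest.Agent.X212.Sw88.Elr
import Crest.Agent.X212.Nfo63.Loc
import Crest.Agent.X212.Pat85.Fj
import Crest.Agent.X212.M.Wu
import Crest.Agent.X212.Tl47.Lj

/-! Row 212, A-DEC and A-EX (helper88): one rate of decay on parts with the wall `a` broken. -/

set_option autoImplicit false
set_option linter.unusedSectionVars false
noncomputable section
open scoped Manifold ContDiff Topology InnerProductSpace
open MeasureTheory Set Function Filter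

namespace Crest.Agent.X212.Sw88.Dea
open An M Nd18 Mod61 Nk89 Cht98 Rf65 Pte3 Fk18 Eqv71 Rdc90 Elr
open An.Job (SolOn isClopen_un)

variable {Wi : Type} {X : Mf 4} {A κ lam : Type} [Fintype A] [Fintype κ] [Fintype lam]
  [DecidableEq lam] {M : Mark X A κ} {W : World M} {N : ML M lam} {Λ : Lns W N}
  {A' h : Type} [Fintype A'] [DecidableEq A'] [Fintype h] {r n : ℕ}
  {J : Job Wi Λ A' h r n} {c : M.Cl} {a : A} {σ : Cel A'} {p : Prt A A' h} {q : Wi →₀ ℝ}
  {y : J.Obc c}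

section wts
open Fin37 Job
variable {s : A' → ℝ}

/-- as in `Fin37/Apj` -/
theorem dW_quarter (a : A) : dW A κ ≤ 1 / 4 := by
  have h1 : 1 ≤ cτ := by
    have := (bd_dtf.choose_spec none none).2 1 0 zero_le_one 0
    rw [show tf none none = id from funext fun s => by simp [tf]] at this
    exact (by simpa using this : (1 : ℝ) ≤ _).trans (le_abs_self _)
  have h2 : 1 ≤ nN A := Nat.one_le_cast.2 (Fintype.card_pos_iff.2 ⟨(a, none)⟩)
  have h3 : 1 ≤ cW A κ := one_le_mul_of_one_le_of_one_le h2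
    (le_add_of_nonneg_of_le (by positivity) (h1.trans (le_abs_self _)))
  have h4 := dW_le (A := A) (κ := κ) (s := 1) (by linarith)
  have h5 := dW_pos (A := A) (κ := κ)
  have h6 := mul_le_mul_of_nonneg_left h3 h5.le
  nlinarith [mul_nonneg (Nat.cast_nonneg (α := ℝ) (Fintype.card (Option κ)))
    (mul_nonneg h5.le (zero_le_one.trans h3))]

theorem tau_const (dj : DJ J) (p : Pm J c s) {i j : Fin37.Ix J c s} (e : i ≠ j) {x z : (W.Z c).M}
    (hx : x ∈ (nk J i).ψ.target) (hz : z ∈ (nk J i).ψ.target) : (nk J j).τ z = (nk J j).τ x := by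
  have := conn_xs J i.1.1
  refine (preconn_nk (nk J i)).constant_of_mapsTo (T := {(nk J j).p.getD 0, (nk J j).q.getD 0})
    (toFinite _).isDiscrete (nk J j).sm_τ.continuous.continuousOn (fun y hy => ?_) hz hx
  exact ((tf_bd (nk J j).len _).2.2 fun k => disjoint_left.1 (dj c s p e) hy
    ((nk J j).tgt.ge k)).imp (fun k => by rw [Option.mem_def.1 k]; rfl)
      fun k => by rw [Option.mem_def.1 k]; rfl

theorem wx_low (dj : DJ J) (p : Pm J c s) (i : Fin37.Ix J c s) {x z : (W.Z c).M}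
    (hx : x ∈ (nk J i).dp 1) (hz : z ∈ (nk J i).dp 1) :
    Real.exp (-(√(1 + ((nk J i).tm z - (nk J i).tm x) ^ 2) / 4)) ≤ J.wx c s x z := by
  classical
  have e : J.ux c (J.Θ s) x z = sa ((nk J i).tm z - (nk J i).tm x) :=
    (Finset.sum_eq_single i.1 (fun j _ e => dite_eq_right_iff.2 fun hj => by
      beta_reduce
      rw [tau_const dj p (j := ⟨j, hj⟩) (fun e' => e (congrArg Subtype.val e').symm)
        (Nk.dp_sub _ one_pos hx) (Nk.dp_sub _ one_pos hz)]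
      simp [sa]) (by simp)).trans ((dif_pos i.2).trans (by rw [← Nk.τ_eq _ hx, ← Nk.τ_eq _ hz]))
  refine Real.exp_le_exp.2 (neg_le_neg ?_)
  rw [e, add_zero]
  linarith [mul_le_mul_of_nonneg_right (dW_quarter (κ := κ) i.1.1)
    (sa_nonneg ((nk J i).tm z - (nk J i).tm x)), show sa ((nk J i).tm z - (nk J i).tm x) =
      √(1 + ((nk J i).tm z - (nk J i).tm x) ^ 2) - 1 from rfl]

end wts

section one
variable (H : PG J c σ p) (S : SolOn p σ q y)
include H S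

/-- bounded representatives of the solutions on a part -/
theorem lit : ∃ (x : Cfg (W.Z c).M (Option κ) (lam ⊕ lam) r) (u : (W.Z c).M → CL y.x.m.V x.m.V),
    Dgr80.Gd (J.B c) (J.G c y.s) x ∧ Tmp64.Eq0 (J.G c y.s).F y.x x (W.un c p.P) u ∧
      ∀ z, x.Φ z = u z (y.x.Φ z) :=
  Lip.litO (H.ends Empty ⟨y.s, H.ok.memBr H.mem S.ov, H.ok.memO H.mem S.ov⟩ dl0_pos le_rfl)
    (isClopen_un H.pok.pc) S.adm (fun z hz => S.off z fun k => hz (un_sub H.pok k))
    (Ac := fun i : Ed c => i ∈ EdP c p.P) (fun _ k => H.ok.end_sub _ H.pok.pc k)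
    (fun _ k => Aex.end_off H.ok H.pok.pc k _) (β₀ := fun i : Ed c => y.β i.1 i.2)
    (ζ := fun i : Ed c => y.ζ i.1 i.2) fun i k =>
      ⟨Dgr80.adm_crit (S.crit _ i.1.2 _ k), by
        obtain ⟨a, _ | _⟩ := i
        exacts [S.lim _ false _ k, S.lim _ true _ k]⟩

variable {i : Ed c} (hi : i ∈ EdP c p.P) (ha : Act J.m c i.1 (some i.2) (J.Θ y.s))
include hi

/-- far out on an end of the part the equations of the neck hold -/
theorem eqN : ∃ T ∈ dr i.2, T ⊆ (J.K c i.1 _ _ ha).J ∧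
    EqN (J.xs i.1).N n (J.K c i.1 _ _ ha) y.x ((J.xs i.1).q q) T := by
  have hJ := H.ok
  have h1 : (J.Θ y.s).2 i.1 = 1 := S.inf.ge ha.2.2.2
  obtain ⟨a', e1, e2⟩ := hJ.inf σ H.mem _ (J.cl_dom S.cell) _ h1
  obtain ⟨s₀, k1, k2⟩ := hJ.lin
  obtain ⟨d, hd⟩ := Nfo63.loc (l := pure ()) (s := fun _ => y.s) hJ H.mem
    (fun _ => ⟨S.cell, S.inf⟩) tendsto_const_nhds S.cell h1 (fun _ => ha) (Pat85.dj hJ)
    (fun _ => (k2 a' _ e1 _ (e2 ▸ k1.le)).2 ha.1) (q := fun _ => q) (T := q.support)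
    fun _ hw _ => Finsupp.notMem_support_iff.1 hw
  have d0 : 0 < max d 1 := by positivity
  refine ⟨Dp _ _ (max d 1), ?_, Dp_sub d0, fun z hz => ?_⟩
  · rw [(hJ.nk _ _ _ _ ha).lo, (hJ.nk _ _ _ _ ha).hi]
    cases i.2
    · exact mem_of_superset (Ici_mem_atTop (max d 1)) fun s hs => by simpa [Dp] using hs
    · exact mem_of_superset (Iic_mem_atBot (-max d 1)) fun s hs => by simpa [Dp] using hs
  obtain ⟨b1, b2⟩ := eventually_pure.1 hd y.x z (Dp_mono (le_max_left d 1) hz)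
  have t := (J.K c i.1 _ _ ha).dp_sub d0 hz
  have pc := fun π k => H.pok.pc π (H.pok.sub k)
  refine ⟨(congrArg (_ - ·) b1).symm.trans ?_,
    (congrArg (_ - ·) b2).symm.trans (S.C z (hJ.end_sub ha H.pok.pc hi t))⟩
  by_cases k : i ∈ EdP c p.P'
  · exact S.D z (hJ.end_sub ha pc k t)
  · exact Lip.D0 (Λ.B_ok _ _) (hJ.G_ok H.mem S.ov) (hJ.τ_nat H.mem S.ov isClopen_univ q)
      (isClopen_un pc).compl S.adm S.off (Aex.end_off hJ pc k ha t)

omit hi in
theorem wk : Dec35.Wk (J.K c i.1 _ _ ha) :=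
  have m : Fin37.Pm J c y.s := ⟨σ, H.mem, S.cell, S.inf⟩
  let ⟨s, h0, hs⟩ := Pat85.l4U H.ok
  let ⟨v, hw⟩ := Job.wu H.ok (Pat85.volJ H.ok) h0 hs
  ⟨_, s, v, hw.wts c _ m, hw.le c _, hw.int c _ m, fun _ hx _ hz =>
    wx_low (Pat85.dj H.ok) m ⟨(i.1, some i.2), ha⟩ hx hz⟩

end one

theorem dr_or (b : Bool) : dr b = atTop ∨ dr b = atBot := by cases b; exacts [.inl rfl, .inr rfl]

theorem ev_lt {d : ℝ} (hd : 0 < d) : ∀ᶠ δ in 𝓝[>] (0 : ℝ), 2 * δ < d :=
  mem_of_superset (Ioo_mem_nhdsGT (half_pos hd)) fun _ k => show _ < d by linarith [k.2]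

/-- **A-DEC** -/
theorem deA (hI : MJ J c a → ∃ C : (J.xs a).N.CD (J.xs a).D, ∀ i,
      Dec35.Ipt (J.xs a).D (C.β i) (J.xs a).N) : DeA J c a := fun hM => by
  obtain ⟨C, hI⟩ := hI hM
  have hx := hM.ok.xs
  have := J.conn_xs
  choose d d0 hd using fun i => Dec35.elN (hx a).1.yd (hx a).2 (C.crit i) (C.irr i) (hI i)
  choose! e e0 he using fun x hc k => Tl47.deceU (hM.py x hc k)
  filter_upwards [eventually_all.2 fun i => ev_lt (mul_pos (by norm_num : (0 : ℝ) < 2 / 3) (d0 i)),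
    eventually_all.2 fun x => eventually_all.2 fun hc => eventually_all.2 fun k =>
      ev_lt (e0 x hc k), self_mem_nhdsWithin] with δ h1 h2 h3
  refine .of fun _ σ p H q y _ S i hi ha => ?_
  obtain ⟨T, t1, t2, t3⟩ := eqN H S hi ha
  have cr := S.crit _ i.1.2 _ hi
  by_cases k : i.1.1 = a
  · obtain ⟨⟨a, k'⟩, b⟩ := i
    obtain rfl : a = _ := k
    obtain ⟨x, u, x1, x2, x3⟩ := lit H S
    exact ⟨3 * δ, by linarith [show 0 < δ from h3], elC (hx _).1.yd (hx _).2 C (fun j X K r n x c q l ζ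
      a1 a2 a3 a4 a5 a6 a7 => Dgr80.elim_mono (hd j X K r n x c q l ζ a1 a2 a3 a4 a5 a6 a7)
        (by linarith [h1 j])) (isClopen_un H.pok.pc) (H.ok.end_sub ha H.pok.pc hi) S.adm
      (fun z hz => S.off z fun k => hz (un_sub H.pok k)) x1 x2 x3 (wk H S ha) (dr_or _) t1 t2 t3 cr
      (S.lim _ _ ha hi)⟩
  · have nl := hM.nil _ k
    have bs := Elr.bs (hx _).1.yd (J.xs i.1).Y.dim nl.1 (hM.py _ i.1.2 k) cr
    rw [show (J.xs i.1).q q = 0 by simp [Xs.q, nl.2]] at t3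
    exact ⟨_, h2 _ i.1.2 k, elP nl.1 bs (e0 _ i.1.2 k) (he _ i.1.2 k _ bs) S.adm (dr_or _) t1 t2 t3
      (S.lim _ _ ha hi)⟩

/-- **A-EX** -/
theorem exA (hD : DeA J c a) : ExA J c a :=
  Aex.exA' (fun hM x hc k _ cr => have := J.conn_xs x
    (Elr.bs (hM.ok.xs _).1.yd (J.xs x).Y.dim (hM.nil _ k).1 (hM.py _ hc k) cr).zr) hD

end Crest.Agent.X212.Sw88.Dea
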