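import Crest.Agent.X212.Sw88.Ub
import Crest.Agent.X212.Sw88.Dea
import Crest.Agent.X212.Tla99.Defs
import Crest.Agent.X212.Mcg32.LinCl

/-! Row 212, A-TL (helper88): uniform approximate solutions on the ends of the wall `a`. -/

set_option autoImplicit false
set_option linter.unusedSectionVars false
noncomputable section
open scoped Manifold ContDiff Topology InnerProductSpace
open MeasureTheory Set Function Filter

namespace Crest.Agent.X212.Sw88.Ua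
open An Nd18 Cyf70 Eqv71 Pj41 Elr Ub
open Tmp64 (AdmOn admOn_univ Eq0)

/-- as `Nck90.inB_ev` -/
theorem inB {W α : Type} {l : Filter α} {q : α → W →₀ ℝ} {q₀ : W →₀ ℝ} (h : St.Cv l q q₀) :
    ∃ T Q, ∀ᶠ i in l, Dec35.InB T Q (q i) := by
  classical
  obtain ⟨T, h1, h2⟩ := h
  obtain ⟨Q, hQ⟩ := (eventually_all_finite q₀.finite_range).2
    (fun x _ => eventually_ge_atTop (|x| + 1)) |>.exists
  refine ⟨T ∪ q₀.support, Q, ((eventually_all_finset T).2 fun w _ =>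
    Metric.tendsto_nhds.1 (h2 w) 1 one_pos).mono fun i hi => ⟨fun w hw => ?_, fun w => ?_⟩⟩
  · by_cases e : w ∈ T
    · exact Finset.mem_union_left _ e
    · exact Finset.mem_union_right _ (by simpa [h1 i w e] using hw)
  · refine le_trans ?_ (hQ _ ⟨w, rfl⟩)
    by_cases e : w ∈ T
    · linarith [abs_sub_abs_le_abs_sub (q i w) (q₀ w), show |q i w - q₀ w| < 1 from hi w e]
    · simp [h1 i w e]

section neck
variable {E3 : Type} [NormedAddCommGroup E3] [NormedSpace ℝ E3] [FiniteDimensional ℝ E3]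
  [MeasurableSpace E3] [BorelSpace E3]
  {H3 : Type} [TopologicalSpace H3] {I3 : ModelWithCorners ℝ E3 H3} [I3.Boundaryless]
  {Y : Type} [TopologicalSpace Y] [ChartedSpace H3 Y] [IsManifold I3 ∞ Y] [T2Space Y]
  [MeasurableSpace Y] [BorelSpace Y] [SecondCountableTopology Y] [CompactSpace Y]
  {κ : Type} [Fintype κ] {lam : Type} [Fintype lam] {D : YD I3 Y κ lam} {N : ND Y lam} {r n : ℕ}
  {E : Type} [NormedAddCommGroup E] [NormedSpace ℝ E] [FiniteDimensional ℝ E]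
  [MeasurableSpace E] [BorelSpace E]
  {HM : Type} [TopologicalSpace HM] {I : ModelWithCorners ℝ E HM} [I.Boundaryless]
  {Z : Type} [TopologicalSpace Z] [ChartedSpace HM Z] [IsManifold I ∞ Z]
  [MeasurableSpace Z] [T2Space Z] [BorelSpace Z] [SecondCountableTopology Z]
  {B : Base Z (Option κ) lam} {G : Geo I Z (Option κ) lam} {K : Nk D B G}
  {c x : Cfg Z (Option κ) lam r} {q : YW I3 Y →₀ ℝ} {S : Set ℝ}

theorem eqN_eq0 [PreconnectedSpace Y] (hN : N.OK D) {O : Set Z} (hO : IsClopen O) (hK : K.ψ.target ⊆ O)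
    (hc : c.Adm B G) (h0 : ∀ z ∉ O, c.Φ z = 0) (hx : Dgr80.Gd B G x) (h0' : ∀ z ∉ O, x.Φ z = 0)
    {u : Z → CL c.m.V x.m.V} (e : Eq0 G.F c x O u) (e₀ : S ⊆ K.J) (h : EqN N n K c q S) :
    EqN N n K x q S := fun z hz => by
  have cr : CR0 B G B G O O id _ B.l c x u 1 := ⟨ad0 hc, ad0 hx.adm, h0, h0', e.cEq hx.hB
    ((admOn_univ.2 hc).mono (subset_univ O)) ((admOn_univ.2 hx.adm).mono (subset_univ O))⟩
  have p := pt_nat1 (r := r) (n := n) K hx.hB hx.hG hx.tame hO hN q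
  have lg := lg_refl hx.hB hx.hG hO.2
  have m : z ∈ O := hK (K.tgt ▸ e₀ hz)
  obtain ⟨b1, b2⟩ := h z hz
  exact ⟨(p.eD lg cr m).trans (by rw [b1, map_zero, ← csL_apply, map_zero]),
    (p.eC lg cr m).trans (by rw [b2, map_zero])⟩

end neck

open M Mod61 Nk89 Cht98 Rf65 Pte3 Fk18
open An.Job (SolOn StrOn isClopen_un)

variable {Wi : Type} {X : Mf 4} {A κ lam : Type} [Fintype A] [Fintype κ] [Fintype lam]
  [DecidableEq lam] {M : Mark X A κ} {W : World M} {N : ML M lam} {Λ : Lns W N}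
  {A' h : Type} [Fintype A'] [DecidableEq A'] [Fintype h] {r n : ℕ}
  {J : Job Wi Λ A' h r n} {c : M.Cl} {a : A} {σ : Cel A'} {p : Prt A A' h}
  {α : Type} {l : Filter α} {q : α → Wi →₀ ℝ} {y : α → J.Obc c} {q₀ : Wi →₀ ℝ} {y₀ : J.Obc c}
  (H : PG J c σ p)
include H

theorem act {q : Wi →₀ ℝ} {y : J.Obc c} (S : SolOn p σ q y) (ha : a ∈ cylW c) (b : Bool) :
    Act J.m c a (some b) (J.Θ y.s) :=
  ⟨ha.2, H.ok.memBr H.mem S.ov, H.ok.memO H.mem S.ov, ha.1⟩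

variable (hy : ∀ᶠ k in l, SolOn p σ (q k) (y k)) (h0 : SolOn p σ q₀ y₀) (st : StrOn p l y y₀)
include hy h0 st

/-- uniform bounds on the part -/
theorem pbU [l.NeBot] :
    ∃ C, ∀ᶠ k in l, ∀ z ∈ W.un c p.P, Pb (J.G c (y k).s).F (y k).x z C := by
  have hJ := H.ok
  let P := H.ends Empty ⟨y₀.s, hJ.memBr H.mem h0.ov, hJ.memO H.mem h0.ov⟩ dl0_pos le_rfl
  have key : ∀ i : Ed c, ∃ T C, ∀ᶠ k in l, ∀ z ∈ (J.K c i.1 _ _ (act H h0 i.1.2 i.2)).ψ.target,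
      T ≤ -pm i.2 * (J.K c i.1 _ _ (act H h0 i.1.2 i.2)).tm z → z ∈ W.un c p.P →
        Pb (J.G c (y k).s).F (y k).x z C := fun i => by
    by_cases hi : i ∈ EdP c p.P
    · obtain ⟨T, h1⟩ := st.tail _ _ hi 1 one_pos
      obtain ⟨C, h2⟩ := pb_near (r := r) (B := J.B c) (I := (W.Z c).I) (hJ.xs i.1).1.yd
        (Dgr80.adm_crit (h0.crit _ i.1.2 _ hi))
      refine ⟨T, C, (hy.and h1).mono fun k ⟨S, b⟩ z hz ht _ => ?_⟩
      have e := hJ.end_eq (act H h0 i.1.2 i.2) (act H S i.1.2 i.2)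
      exact h2 _ _ _ S.adm z (e.tgt ▸ hz) (b _ _ (e.tm hz ▸ ht))
    · exact ⟨0, 0, .of_forall fun k z hz _ m => (Aex.end_off hJ H.pok.pc hi _ hz m).elim⟩
  choose T C key using key
  obtain ⟨T₀, hT⟩ := (finite_range T).bddAbove
  obtain ⟨C₀, hC⟩ := (finite_range C).bddAbove
  obtain ⟨u, ζ, hu, -⟩ := st.lim
  have o := isClopen_un (W := W) H.pok.pc
  obtain ⟨C', h1⟩ := pb_cpt (Mcg32.bub_job hJ o.2 hu st.s ⟨ad0 h0.adm, hJ.memO H.mem h0.ov⟩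
    (hy.mono fun _ S => ⟨ad0 S.adm, hJ.memO H.mem S.ov⟩)) (hy.mono fun _ S => S.adm) hu.Φ
    ((P.cov' T₀).inter_right o.1) inter_subset_right
  refine ⟨max C₀ C', (h1.and (eventually_all.2 key)).mono fun k ⟨b1, b2⟩ z hz => ?_⟩
  by_cases m : z ∈ ⋃ i, (P.P i).U T₀
  · obtain ⟨i, m1, m2⟩ := mem_iUnion.1 m
    refine (b2 i z m1 ((hT ⟨i, rfl⟩).trans (le_of_lt (lt_of_lt_of_eq m2 ?_))) hz).mono
      ((hC ⟨i, rfl⟩).trans (le_max_left _ _))
    obtain ⟨_, _ | _⟩ := i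
    · exact congrArg (· * _) (show (1 : ℝ) = -pm false by simp [pm])
    · exact congrArg (· * _) (show (-1 : ℝ) = -pm true by simp [pm])
  · exact (b1 z ⟨m, hz⟩).mono (le_max_right _ _)

/-- the equations of the neck hold above one height -/
theorem eqU (hq : St.Cv l q q₀) (ha : a ∈ cylW c) {b : Bool} (hb : p.En a b) : ∃ d, ∀ᶠ k in l,
    ∀ h : Act J.m c a (some b) (J.Θ (y k).s), {s | d < -pm b * s} ⊆ (J.K c a _ _ h).J ∧
      EqN (J.xs a).N n (J.K c a _ _ h) (y k).x ((J.xs a).q (q k)) {s | d < -pm b * s} := by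
  classical
  have hJ := H.ok
  obtain ⟨T, hT, -⟩ := hq
  obtain ⟨d, hd⟩ := Nfo63.loc (l := comap (Subtype.val : {k // SolOn p σ (q k) (y k)} → α) l)
    (s := fun k => (y k.1).s) hJ H.mem (fun k => ⟨k.2.cell, k.2.inf⟩) (st.s.comp tendsto_comap)
    h0.cell (h0.inf.ge ha.1) (fun k => act H k.2 ha b) (Pat85.dj hJ)
    (fun k => hJ.ν_end H.mem k.2.ov ha) (q := fun k => q k.1) (T := T ∪ q₀.support)
    fun w hw k => (hT _ w fun e => hw (Finset.mem_union_left _ e)).trans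
      (Finsupp.notMem_support_iff.1 fun e => hw (Finset.mem_union_right _ e))
  have d0 : 0 < max d 1 := by positivity
  refine ⟨max d 1, (hy.and (eventually_comap.1 hd)).mono fun k ⟨S, hk⟩ h => ?_⟩
  have sub : {s | max d 1 < -pm b * s} ⊆ Dp (J.K c a _ _ h).p (J.K c a _ _ h).q (max d 1) := by
    rw [(hJ.nk _ _ _ _ h).lo, (hJ.nk _ _ _ _ h).hi]
    cases b
    · exact fun s hs => by simpa [Dp, pm] using le_of_lt hs.out
    · exact fun s hs => by simpa [Dp, pm, le_neg] using le_of_lt hs.out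
  refine ⟨sub.trans (Dp_sub d0), fun z hz => ?_⟩
  obtain ⟨b1, b2⟩ := hk ⟨k, S⟩ rfl (y k).x z (Dp_mono (le_max_left d 1) (sub hz))
  have t := (J.K c a _ _ h).dp_sub d0 (sub hz)
  have pc := fun π k => H.pok.pc π (H.pok.sub k)
  refine ⟨(congrArg (_ - ·) b1).symm.trans ?_,
    (congrArg (_ - ·) b2).symm.trans (S.C z (hJ.end_sub h H.pok.pc hb t))⟩
  by_cases k : (⟨⟨a, ha⟩, b⟩ : Ed c) ∈ EdP c p.P'
  · exact S.D z (hJ.end_sub h pc k t)
  · exact Lip.D0 (Λ.B_ok _ _) (hJ.G_ok H.mem S.ov) (hJ.τ_nat H.mem S.ov isClopen_univ _)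
      (isClopen_un pc).compl S.adm S.off (Aex.end_off hJ pc k h t)

omit H hy h0 st

/-- **UA** -/
theorem ua : Tla99.UA J c a := by
  intro σ p H β γ hβ p1 hγ lc α 𝒰 q y q₀ y₀ hq hy h0 st b ha hb
  have hJ := H.ok
  have hx := hJ.xs a
  have := J.conn_xs a
  have o := isClopen_un (W := W) H.pok.pc
  have hp := (hJ.sm.continuous.tendsto _).comp st.s
  have k1 := fun z => (W.isOpen_Ω (c := c)).mem_nhds (Mark.mem_Ω _ (hJ.memO H.mem h0.ov) z)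
  have k2 : ∀ᶠ i in (𝒰 : Filter α), ∀ z, (J.Θ (y i).s, z) ∈ M.Ω c.1 (W.φ c) :=
    hy.mono fun _ S => Mark.mem_Ω _ (hJ.memO H.mem S.ov)
  obtain ⟨C1, h1⟩ := pbU H hy h0 st
  obtain ⟨x₀, -, g0, -⟩ := Dea.lit H h0
  obtain ⟨C2, h2⟩ := Tla99.ref (G := fun k => J.G c (y k).s) g0
    (isCompact_thk W.toCaps c (J.Θ y₀.s) one_pos (by norm_num))
    (Lay.fcv _ hp k1 k2) (fun a => LLay.cv_a _ hp k1 k2 a) (hy.mono fun k S =>
      ⟨hJ.G_ok H.mem S.ov, let ⟨_, _, g, _⟩ := Dea.lit H S; g.tame,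
        agr_thk Λ (hJ.memO H.mem h0.ov) (hJ.memO H.mem S.ov)⟩)
  obtain ⟨s, s0, hs⟩ := Pat85.l4U hJ
  obtain ⟨v, hw⟩ := Job.wu hJ (Pat85.volJ hJ) s0 hs
  obtain ⟨C, hC⟩ := bnd (D := (J.xs a).D) (B := J.B c) (r := r) (I := (W.Z c).I) (max C1 C2) v
  obtain ⟨T, Q, h3⟩ := inB (Nfo63.cv_q (J.xs a) hq)
  obtain ⟨k', Kc, h4⟩ := Dec35.asol hx.1.yd hx.2 hβ p1 hγ lc T Q s C
  obtain ⟨d, h5⟩ := eqU H hy h0 st hq ha hb
  refine ⟨T, Q, k', Kc, d, ?_⟩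
  filter_upwards [hy, h1, h2, h3, h5] with k S b1 b2 b3 b4 h
  obtain ⟨b4, b5⟩ := b4 h
  obtain ⟨x₁, u, g1, e1, -⟩ := Dea.lit H S
  obtain ⟨x₂, g2, z2, p2, f2⟩ := b2 x₁.z g1.adm.z
  obtain ⟨x, u₁, u₂, g, e2, e3⟩ := Tla99.pat o g1 g2 z2
  have e := e1.trans e2
  have m : Fin37.Pm J c (y k).s := ⟨σ, H.mem, S.cell, S.inf⟩
  have a1 := fun O => (admOn_univ.2 S.adm).mono (subset_univ O)
  have a2 := fun O => (admOn_univ.2 g2.adm).mono (subset_univ O)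
  have a3 := fun O => (admOn_univ.2 g.adm).mono (subset_univ O)
  have t := hJ.end_sub h H.pok.pc hb
  have sr : univ ×ˢ {s | d < -pm b * s} ⊆ (J.K c a _ _ h).ψ.source := fun z hz =>
    (J.K c a _ _ h).mem_src.2 (b4 hz.2)
  refine ⟨_, ⟨_, b3, rfl⟩, asol_eq0 ((eq0_rel (J.K c a _ _ h).rel
    (fun z hz => t ((J.K c a _ _ h).ψ.map_source hz)) (e.symm (a1 _) (a3 _))).mono sr)
    (h4 ⟨J.B c, J.G c _⟩ (J.K c a _ _ h) r n x x _ _ _ g g.adm
      (isoOn_refl g.hB g.hG isOpen_univ (ad0 g.adm)) (hC _ _ x _ _ g (hw.wts c _ m) (hw.le c _)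
        (hw.int c _ m) (fun _ hx _ hz => Dea.wx_low (Pat85.dj hJ) m ⟨(a, some b), h⟩ hx hz)
          fun z => ?_) b3 b4 (eqN_eq0 hx.2 o t S.adm (fun z hz => S.off z fun k =>
            hz (un_sub H.pok k)) g (fun z hz => by rw [e3.Φ z hz, p2, map_zero]) e b4 b5))⟩
  by_cases hz : z ∈ W.un c p.P
  · exact ((b1 z hz).eq0 e o.2 (a1 _) (a3 _) hz).mono (le_max_left _ _)
  · exact ((pb_zero p2 (f2 z)).eq0 e3 o.compl.2 (a2 _) (a3 _) hz).mono (le_max_right _ _)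

end Crest.Agent.X212.Sw88.Ua
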