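import Crest.Agent.X212.Win22.Ob

/-!
# Row 212, layer AN-S (helper88): a map that commutes with `U` and vanishes in high degree is
killed by a power of `U`
-/

set_option autoImplicit false

open Function

namespace Crest.Agent.X212.Sw88
open Win22
open Bor5 (K)

theorem U_pow_mem {L : Type} (X : Hf L) (k : ℕ) {s : L} {x : ℚ} {y : X.H} (hy : y ∈ X.gr s x) :
    (X.U ^ k) y ∈ X.gr s (x - 2 * k) := by
  induction k with
  | zero => simpa using hy
  | succ k ih =>
    rw [pow_succ', Module.End.mul_apply, show x - 2 * ((k + 1 : ℕ) : ℚ) = x - 2 * k - 2 by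
      push_cast; ring]
    exact X.U_mem _ _ _ ih

theorem kil_pow {L V : Type} [AddCommGroup V] [Module K V] (X : Hf L) (f : X.H →ₗ[K] V)
    (U' : V →ₗ[K] V) (hU : ∀ y, f (X.U y) = U' (f y)) (s : L)
    (off : ∀ s' x, s' ≠ s → ∀ y ∈ X.gr s' x, f y = 0) (n : ℚ)
    (hi : ∀ x, n ≤ x → ∀ y ∈ X.gr s x, f y = 0) : ∃ k : ℕ, ∀ y, f ((X.U ^ k) y) = 0 := by
  have hc : ∀ (k : ℕ) y, f ((X.U ^ k) y) = (U' ^ k) (f y) := fun k => by
    induction k with
    | zero => exact fun _ => rfl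
    | succ k ih => intro y; rw [pow_succ', pow_succ', Module.End.mul_apply, hU, ih]; rfl
  obtain ⟨k, hk⟩ := exists_nat_ge ((n - X.w s) / 2)
  refine ⟨k, fun y => ?_⟩
  have hy : y ∈ ⨆ z : L × ℚ, X.gr z.1 z.2 := X.top ▸ Submodule.mem_top
  induction hy using Submodule.iSup_induction' with
  | zero => rw [map_zero, map_zero]
  | add y z _ _ h1 h2 => rw [map_add, map_add, h1, h2, add_zero]
  | mem z y hy =>
    obtain ⟨s', x⟩ := z
    by_cases e : s' = s
    · subst e
      by_cases hx : n ≤ x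
      · rw [hc, hi x hx y hy, map_zero]
      · have h0 : X.gr s' (x - 2 * k) = ⊥ := X.gr_lat fun ⟨j, hj⟩ => by
          have : (0 : ℚ) ≤ j := Nat.cast_nonneg j
          linarith [not_le.1 hx]
        have := U_pow_mem X k hy
        rw [h0, Submodule.mem_bot] at this
        rw [this, map_zero]
    · rw [hc, off s' x e y hy, map_zero]

/-- the form for a submodule on which `U` is onto -/
theorem kil_on {L V : Type} [AddCommGroup V] [Module K V] (X : Hf L) (f : X.H →ₗ[K] V)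
    (U' : V →ₗ[K] V) (hU : ∀ y, f (X.U y) = U' (f y)) (s : L)
    (off : ∀ s' x, s' ≠ s → ∀ y ∈ X.gr s' x, f y = 0) (n : ℚ)
    (hi : ∀ x, n ≤ x → ∀ y ∈ X.gr s x, f y = 0) (R : Set X.H)
    (hR : ∀ y ∈ R, ∃ y' ∈ R, X.U y' = y) : ∀ y ∈ R, f y = 0 := by
  obtain ⟨k, hk⟩ := kil_pow X f U' hU s off n hi
  have : ∀ j : ℕ, ∀ y ∈ R, ∃ y' ∈ R, (X.U ^ j) y' = y := fun j => by
    induction j with
    | zero => exact fun y hy => ⟨y, hy, rfl⟩
    | succ j ih =>
      intro y hy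
      obtain ⟨y₁, h1, rfl⟩ := ih y hy
      obtain ⟨y₂, h2, rfl⟩ := hR y₁ h1
      exact ⟨y₂, h2, by rw [pow_succ, Module.End.mul_apply]⟩
  intro y hy
  obtain ⟨y', -, rfl⟩ := this k y hy
  exact hk y'

end Crest.Agent.X212.Sw88
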