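import Crest.Agent.X212.Sw.Cyl
import Crest.Agent.X212.Idg99.Chr
import Crest.Agent.X212.Taub88.Qp
import Crest.Agent.X212.Mp86.OY
import Crest.Agent.X212.Int54.Link

/-!
# Row 212, layer AN-S (helper88): pointwise algebra and the Weitzenboeck formula for `Sw.Bg`
-/

set_option autoImplicit false
set_option linter.unusedSectionVars false
noncomputable section
open scoped Manifold ContDiff Topology InnerProductSpace
open MeasureTheory Finset Filter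

namespace Crest.Agent.X212.Sw88
open An Wz78 Sob92
open Sw (Bg F2)
open Taub88 (P8 PC)

variable {κ lam ν : Type} [Fintype κ] [Fintype lam] [Fintype ν] [DecidableEq ν]
  {E : Type} [NormedAddCommGroup E] [NormedSpace ℝ E] [FiniteDimensional ℝ E]
  [MeasurableSpace E] [BorelSpace E]
  {HM : Type} [TopologicalSpace HM] {I : ModelWithCorners ℝ E HM}
  {M : Type} [TopologicalSpace M] [ChartedSpace HM M] [IsManifold I ∞ M] [MeasurableSpace M]
  {nc : ℕ} {b : Bg I M κ lam ν nc} {c c' : Sw.Cfg M κ ν} {x : M} {u v : Eu ν} {ψ : M → Eu ν}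

theorem p2_apply (η : F2 κ) (s : Option κ × Option κ) : b.p2 x η s = ∑ t, b.B.sd x s t * η t := by
  simp [Bg.p2]

theorem inner_F2 (η ζ : F2 κ) : ⟪η, ζ⟫_ℝ = ∑ i, ∑ j, η (i, j) * ζ (i, j) := by
  simp [PiLp.inner_apply, Fintype.sum_prod_type, mul_comm]

theorem qd_smul (r t : ℝ) (u v : Eu ν) : b.qd x (r • u) (t • v) = (r * t) • b.qd x u v := by
  ext s
  simp only [Bg.qd, map_smul, real_inner_smul_left, real_inner_smul_right, PiLp.smul_apply,
    smul_eq_mul]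
  ring

theorem vol_eq : b.vol x = omA (fun i j k l => b.B.o i j k l x) fun i => b.m.ρ i x := rfl

/-- the scalar curvature -/
abbrev sc (b : Bg I M κ lam ν nc) : M → ℝ := scal I b.F.e b.F.c b.F.Gam

/-- a bound of the scalar curvature -/
def kS (n K : ℝ) : ℝ := n * (n * (12 * |K| + n * (72 * |K| ^ 2) + n * (6 * |K| ^ 2)))

theorem sum_abs_le {ι : Type} [Fintype ι] {f : ι → ℝ} {K : ℝ} (h : ∀ i, |f i| ≤ K) :
    |∑ i, f i| ≤ Fintype.card ι * K :=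
  (abs_sum_le_sum_abs _ _).trans ((sum_le_card_nsmul _ _ _ fun i _ => h i).trans
    (by rw [nsmul_eq_mul, card_univ]))

theorem cb_Gam {ι : Type} [Fintype ι] {F : Fr I M ι} {C : ℕ → ℝ} (h : F.Tame C) (n : ℕ)
    (i j k : ι) : F.CB n (F.Gam i j k) (6 * |C (n + 1)|) := by
  have s := fun i j k => F.sm_D (F.P_sm j k) i
  have t := F.c_sm
  have p := fun i j k => CB_abs (CB_D ((h.P j k).2 (n + 1)) i)
  have q := fun i j k => CB_abs (CB_of_le ((h.c i j k).2 (n + 1)) n.le_succ)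
  have e := CB_clm ((1 / 2 : ℝ) • ContinuousLinearMap.id ℝ ℝ)
    ((((((s i j k).add (s j i k)).add (s k i j).neg).add (t i j k)).add (t i k j).neg).add
      (t j k i).neg)
    (CB_add (((((s _ _ _).add (s _ _ _)).add (s _ _ _).neg).add (t _ _ _)).add (t _ _ _).neg)
      (t _ _ _).neg (CB_add ((((s _ _ _).add (s _ _ _)).add (s _ _ _).neg).add (t _ _ _))
      (t _ _ _).neg (CB_add (((s _ _ _).add (s _ _ _)).add (s _ _ _).neg) (t _ _ _)
      (CB_add ((s _ _ _).add (s _ _ _)) (s _ _ _).neg (CB_add (s _ _ _) (s _ _ _) (p i j k) (p j i k))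
      (CB_neg (s _ _ _) (p k i j))) (q i j k)) (CB_neg (t _ _ _) (q i k j)))
      (CB_neg (t _ _ _) (q j k i)))
  convert CB_mono e (C' := 6 * |C (n + 1)|) ?_ using 1
  · funext x
    simp only [Fr.Gam, smul_apply, ContinuousLinearMap.id_apply, Pi.add_apply,
      smul_eq_mul]
    ring
  · have : ‖(1 / 2 : ℝ) • ContinuousLinearMap.id ℝ ℝ‖ ≤ 1 := by
      rw [norm_smul, ContinuousLinearMap.norm_id]; norm_num
    rw [abs_abs]
    nlinarith [abs_nonneg (C (n + 1))]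

theorem scal_le {ι : Type} [Fintype ι] {F : Fr I M ι} {C : ℕ → ℝ} (h : F.Tame C) (x : M) :
    |scal I F.e F.c F.Gam x| ≤ kS (Fintype.card ι) (C 2) := by
  have g := fun i j k => CB_bound (cb_Gam h 1 i j k) x
  have d := fun a i j k => CB_bound (CB_D (cb_Gam h 1 i j k) a) x
  have c := fun i j k => CB_bound (CB_abs ((h.c i j k).2 2)) x
  simp only [Real.norm_eq_abs, Pre.D_def, one_add_one_eq_two] at g d c
  have m : ∀ {r s A B : ℝ}, |r| ≤ A → |s| ≤ B → |r * s| ≤ A * B := fun h k => by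
    rw [abs_mul]; exact mul_le_mul h k (abs_nonneg _) ((abs_nonneg _).trans h)
  refine sum_abs_le fun i => sum_abs_le fun j => (abs_sub _ _).trans (add_le_add
    ((abs_add_le _ _).trans (add_le_add ((abs_sub _ _).trans ?_) (sum_abs_le fun k =>
      (abs_sub _ _).trans ?_))) (sum_abs_le fun k => ?_))
  · linarith [d i j j i, d j i j i]
  · linarith [m (g i j k) (g j i k), m (g j j k) (g i i k)]
  · linarith [m (c i j k) (g k j i)]

/-! ### locality -/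

section loc
variable (ha : ∀ i, c.a i =ᶠ[𝓝 x] c'.a i) (hΦ : c.Φ =ᶠ[𝓝 x] c'.Φ)
include ha

theorem W_congr (i : Option κ) : b.W c i =ᶠ[𝓝 x] b.W c' i :=
  (ha i).mono fun y h => by simp only [Bg.W, h]

theorem fc_congr : b.fc c x = b.fc c' x := by
  simp only [Bg.fc, curv, fun i j => dv_congr (e := b.F.e j) (W_congr (b := b) ha i),
    fun i => (W_congr (b := b) ha i).self_of_nhds]

include hΦ

theorem nab_congr' (i : Option κ) :
    nab I b.F.e (b.W c) i c.Φ x = nab I b.F.e (b.W c') i c'.Φ x := by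
  simp only [nab, dv_congr hΦ, hΦ.self_of_nhds, (W_congr (b := b) ha i).self_of_nhds]

theorem eD_congr : b.eD c x = b.eD c' x := by
  simp only [Bg.eD, dir, nab_congr' ha hΦ, hΦ.self_of_nhds]

theorem eC_congr : b.eC c x = b.eC c' x := by
  simp only [Bg.eC, fc_congr ha, hΦ.self_of_nhds]

end loc

variable (hb : b.OK)
include hb

theorem p8 (x : M) : P8 (fun i j => b.B.P i j x) (fun i j k l => b.B.o i j k l x) (b.m.p x) b.m.J
    fun i => b.m.ρ i x :=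
  ⟨⟨hb.B.pr x, b_on hb.B x, hb.m.cl x trivial, hb.m.psym x trivial, fun a => hb.m.ρsk a x trivial,
    hb.m.Jsk, fun a => hb.m.Jρ a x trivial, hb.m.Jp x trivial, by rw [hb.m.Jsq, neg_one_mul]⟩,
    hb.m.prk x trivial⟩

theorem p_of (hv : b.pp x v = v) : b.m.p x v = v := (p8 hb x).p_of hv

theorem p2_p2 (η : F2 κ) : b.p2 x (b.p2 x η) = b.p2 x η := by
  simp only [Bg.p2, idx_idx, sd_sd hb.B]
  rfl

theorem inner_p2 (η ζ : F2 κ) : ⟪b.p2 x η, ζ⟫_ℝ = ⟪η, b.p2 x ζ⟫_ℝ :=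
  inner_idx (sd_symm hb.B x) (fun _ _ => rfl) η ζ

theorem norm_p2 (η : F2 κ) : ‖b.p2 x η‖ ≤ ‖η‖ := by
  have h := real_inner_le_norm η (b.p2 x η)
  rw [← p2_p2 hb η, ← inner_p2 hb, p2_p2 hb, real_inner_self_eq_norm_sq] at h
  nlinarith [norm_nonneg (b.p2 x η), norm_nonneg η]

theorem sd_rho (s : Option κ × Option κ) : ∑ t, b.B.sd x s t • (b.m.ρ t.1 x * b.m.ρ t.2 x) =
    (b.m.ρ s.1 x * b.m.ρ s.2 x + b.B.P s.1 s.2 x • b.m.p x) * b.pp x := by
  obtain ⟨U, h⟩ := b_on hb.B x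
  have C := hb.m.cl x trivial
  have h1 := h.star C s.1 s.2
  have h4 : ∀ i j, ∑ k, ∑ l, (b.B.P i k x * b.B.P j l x) • (b.m.ρ k x * b.m.ρ l x) =
      b.m.ρ i x * b.m.ρ j x := fun i j => by rw [← rr_mul, C.proj, C.proj]
  have h5 := h4 s.2 s.1
  simp only [mul_comm (b.B.P s.2 _ x)] at h5
  have h6 : b.m.ρ s.1 x * b.m.ρ s.2 x + b.B.P s.1 s.2 x • b.m.p x =
      (1 / 2 : ℝ) • (b.m.ρ s.1 x * b.m.ρ s.2 x - b.m.ρ s.2 x * b.m.ρ s.1 x) := by
    rw [C.swap s.1 s.2]; module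
  simp only [Base.sd, Base.a2, Base.st, Fintype.sum_prod_type, div_eq_inv_mul, mul_smul (2⁻¹ : ℝ),
    ← smul_sum, add_smul, sub_smul, sum_add_distrib, sum_sub_distrib, h4, h5, h1, h6, Bg.pp,
    smul_mul_assoc, mul_smul_comm, mul_sub, sub_mul, mul_assoc, C.pr, mul_one, vol_eq]
  module

theorem p2_qd (hv : b.pp x v = v) (u : Eu ν) (s : Option κ × Option κ) :
    b.p2 x (b.qd x u v) s = b.qd x u v s + b.B.P s.1 s.2 x * ⟪b.m.J v, u⟫_ℝ / 8 := by
  have e := congrArg (fun T : En ν => ⟪b.m.J (T v), u⟫_ℝ) (sd_rho hb (x := x) s)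
  simp only [_root_.sum_apply, smul_apply, mul_apply_eq_comp, add_apply, hv, p_of hb hv, map_sum,
    map_smul, map_add, sum_inner, inner_add_left, real_inner_smul_left] at e
  simp only [p2_apply, Bg.qd, mul_left_comm _ (1 / 8 : ℝ), ← mul_sum, e]
  ring

theorem p2_qd_self (hv : b.pp x v = v) : b.p2 x (b.qd x v v) = b.qd x v v := by
  ext s
  rw [p2_qd hb hv, (p8 hb x).inner_J, mul_zero, zero_div, add_zero]

theorem norm_qd (hv : b.pp x v = v) : ‖b.qd x v v‖ = ‖v‖ ^ 2 / 4 := by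
  have e := (p8 hb x).fierz hv hv
  rw [← pow_left_inj₀ (norm_nonneg _) (by positivity) two_ne_zero, ← real_inner_self_eq_norm_sq,
    inner_F2]
  simp only [Bg.qd, mul_mul_mul_comm (1 / 8 : ℝ), ← mul_sum, real_inner_comm v, e,
    real_inner_self_eq_norm_sq]
  ring

theorem jp_skw (x : M) : Skw (b.jp x) := fun v w => by
  rw [Bg.jp, mul_apply_eq_comp, hb.m.Jsk, hb.m.psym x trivial, hb.m.Jp x trivial, mul_apply_eq_comp]

theorem jp_comm {T : En ν} (h1 : b.m.J * T = T * b.m.J) (h2 : b.m.p x * T = T * b.m.p x) :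
    b.jp x * T = T * b.jp x := by
  rw [Bg.jp, mul_assoc, h2, ← mul_assoc, h1, mul_assoc]

theorem p_ms (x : M) : b.m.p x * b.ms x = b.ms x := by
  rw [← hb.msp x, ← mul_assoc, ← mul_assoc]
  exact congrArg (· * _ * _) (p8 hb x).p_pm

theorem ms_p (x : M) : b.ms x * b.m.p x = b.ms x := by
  rw [← hb.msp x, mul_assoc, Bg.pp, smul_mul_assoc, sub_mul, (p8 hb x).p_p]
  exact congrArg (fun T => _ * (1 / 2 : ℝ) • (_ - T)) (p8 hb x).om_p

/-- the curvature equation paired with the moment map -/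
theorem inner_fc_qd (hv : b.pp x (c.Φ x) = c.Φ x) : ⟪b.fc c x, b.qd x (c.Φ x) (c.Φ x)⟫_ℝ =
    ⟪b.eC c x + b.om x, b.qd x (c.Φ x) (c.Φ x)⟫_ℝ + b.w * ‖c.Φ x‖ ^ 4 / 16 := by
  rw [Bg.eC, sub_add_cancel, inner_p2 hb, p2_qd_self hb hv, inner_sub_left, real_inner_smul_left,
    real_inner_self_eq_norm_sq, norm_qd hb hv]
  ring

theorem inner_fc_qd_ge (hv : b.pp x (c.Φ x) = c.Φ x) : b.w * ‖c.Φ x‖ ^ 4 / 4 -
    ‖b.eC c x + b.om x‖ * ‖c.Φ x‖ ^ 2 ≤ 4 * ⟪b.fc c x, b.qd x (c.Φ x) (c.Φ x)⟫_ℝ := by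
  have := abs_real_inner_le_norm (b.eC c x + b.om x) (b.qd x (c.Φ x) (c.Φ x))
  rw [norm_qd hb hv, abs_le] at this
  rw [inner_fc_qd hb hv]
  linarith [this.1]

variable (hc : b.Adm c)
include hc

theorem cm : Idg99.Cm b.F b.m.p b.m.ρ (b.W c) b.m.J := by
  have C := hb.cc
  have P := p8 hb
  refine ⟨hb.G.P ▸ ⟨⟨fun i x => (C.sm i x).add (SA.smul (hc.sa i x)
    (SA.mul contMDiffAt_const (C.sp x))), fun i x => ?_⟩, C.sp, C.sρ, C.cl, fun i x => ?_,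
    fun i j x => ?_⟩, fun i x v w => ?_, fun i x => hb.m.ρsk i x trivial, hb.m.Jsq, hb.m.Jsk,
    fun x => hb.m.Jp x trivial, fun i x => hb.m.Jρ i x trivial, fun i x => ?_⟩
  · simp only [Bg.W, smul_add, sum_add_distrib, C.proj, smul_smul, ← sum_smul, hc.pa]
  · rw [← C.par i x, Bg.W, add_mul, mul_add, smul_mul_assoc, mul_smul_comm,
      jp_comm hb (P x).Jp rfl, add_sub_add_right_eq_sub]
  · rw [← C.comp i j x, Bg.W, add_mul, mul_add, smul_mul_assoc, mul_smul_comm,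
      jp_comm hb ((P x).Jρ j) (((P x).cl.pl j).trans ((P x).cl.pr j).symm), add_sub_add_right_eq_sub]
  · simp only [Bg.W, add_apply, smul_apply, inner_add_left, inner_add_right, real_inner_smul_left,
      real_inner_smul_right, hb.sk i x v w, jp_skw hb x v w]
    ring
  · rw [Bg.W, mul_add, add_mul, hb.AJ, mul_smul_comm, smul_mul_assoc,
      jp_comm hb rfl (P x).Jp.symm]

theorem mc (x : M) : Mp86.MC I (b.W c) x :=
  ⟨fun i => ((cm hb hc).cc.sm i x).of_le (by simp), fun i => .of_forall ((cm hb hc).sk i)⟩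

theorem nabE_ms (i : Option κ) (x : M) : b.W c i x * b.ms x - b.ms x * b.W c i x =
    b.A i x * b.ms x - b.ms x * b.A i x := by
  rw [Bg.W, add_mul, mul_add, smul_mul_assoc, mul_smul_comm,
    jp_comm hb (hb.msJ x) ((p_ms hb x).trans (ms_p hb x).symm), add_sub_add_right_eq_sub]

variable [T2Space M] [BorelSpace M] [SecondCountableTopology M] [I.Boundaryless]

theorem tw_eq (i j : Option κ) (x : M) :
    tw I b.F.e b.F.c b.F.Gam b.m.p b.m.ρ (b.W c) i j x = b.fc c x (i, j) • b.jp x := by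
  have h4 : Module.finrank ℝ E = 4 := by
    have := Int54.fr_rk b.F x
    rw [hb.G.P, hb.B.rk] at this
    exact_mod_cast this.symm
  rw [(cm hb hc).tw8 (Num57.OK.of_base h4 hb.B hb.G) (hb.m.prk x trivial), Idg99.kf]
  simp only [Bg.fc, inner_hsL_skw (jp_skw hb x), trE_eq, Ind95.trL_apply]
  congr 1
  rw [Bg.jp]
  ring

theorem inner_wK (hu : b.m.p x u = u) (v : Eu ν) : ⟪wK I b.F.e b.F.c b.m.ρ (b.W c) x u, v⟫_ℝ =
    sc b x / 4 * ⟪u, v⟫_ℝ + 4 * ⟪b.fc c x, b.qd x v u⟫_ℝ := by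
  simp only [(cm hb hc).cc.lich (lc_gam _) (frm _) (sep _), tw_eq hb hc, add_apply, smul_apply,
    _root_.sum_apply, mul_apply_eq_comp, map_smul, Bg.jp, hu, inner_add_left, sum_inner,
    real_inner_smul_left, inner_F2, Bg.qd, (p8 hb x).J_ρ, mul_sum]
  exact congrArg _ (sum_congr rfl fun _ _ => sum_congr rfl fun _ _ => by ring)

/-- **Weitzenboeck formula** -/
theorem weitz (hψ : SA I ψ x) (hp : ∀ᶠ y in 𝓝 x, b.m.p y (ψ y) = ψ y) (v : Eu ν) :
    ⟪dir I b.F.e b.m.ρ (b.W c) (dir I b.F.e b.m.ρ (b.W c) ψ) x, v⟫_ℝ =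
      ⟪lap I b.F.e b.F.dv (b.W c) ψ x, v⟫_ℝ + sc b x / 4 * ⟪ψ x, v⟫_ℝ +
        4 * ⟪b.fc c x, b.qd x v (ψ x)⟫_ℝ := by
  rw [(cm hb hc).cc.weitz (lc_gam _) (frm _) (dv_gam hb.G.vol x) hψ hp, inner_add_left,
    inner_wK hb hc hp.self_of_nhds, add_assoc]

/-- Bochner inequality for solutions of `(D + ms) ψ = 0` -/
theorem boch {K : ℝ} (hψ : SA I ψ x) (hp : ∀ᶠ y in 𝓝 x, b.m.p y (ψ y) = ψ y)
    (hD : ∀ᶠ y in 𝓝 x, dir I b.F.e b.m.ρ (b.W c) ψ y + b.ms y (ψ y) = 0) (h1 : ‖b.ms x‖ ≤ K)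
    (h2 : ∀ i, ‖b.F.D i b.ms x + (b.A i x * b.ms x - b.ms x * b.A i x)‖ ≤ K) :
    8 * ⟪b.fc c x, b.qd x (ψ x) (ψ x)⟫_ℝ - (|sc b x| / 2 + Fintype.card (Option κ) *
      (2 * K + K ^ 2 / 2)) * ‖ψ x‖ ^ 2 ≤ Mp86.Lop I b.F.e b.F.dv (fun y => ‖ψ y‖ ^ 2) x := by
  have D := cm hb hc
  have sm : SA I b.ms x := hb.cms.choose_spec.1 x
  have e := weitz hb hc hψ hp (ψ x)
  have k : ∀ i, ⟪b.m.ρ i x (nab I b.F.e (b.W c) i (dir I b.F.e b.m.ρ (b.W c) ψ) x), ψ x⟫_ℝ ≤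
      ‖nab I b.F.e (b.W c) i ψ x‖ ^ 2 + (K + K ^ 2 / 4) * ‖ψ x‖ ^ 2 := fun i => by
    have e1 := nab_congr (I := I) (e := b.F.e) (A := b.W c) (v := fun _ => 0) i hD
    rw [nab_add i (D.cc.dir_sm (frm _) hψ) (SA.app sm hψ), nab_app i sm hψ, nabE_ms hb hc,
      show nab I b.F.e (b.W c) i (fun _ => 0) x = 0 by simp [nab, dv_const],
      add_eq_zero_iff_eq_neg] at e1
    have n1 := ((real_inner_le_norm _ (ψ x)).trans (mul_le_mul_of_nonneg_right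
      ((p8 hb x).norm_ρ i (nab I b.F.e (b.W c) i (dir I b.F.e b.m.ρ (b.W c) ψ) x)) (norm_nonneg _)))
    have n2 : ‖nab I b.F.e (b.W c) i (dir I b.F.e b.m.ρ (b.W c) ψ) x‖ ≤
        K * ‖ψ x‖ + K * ‖nab I b.F.e (b.W c) i ψ x‖ := by
      rw [e1, norm_neg]
      exact (norm_add_le _ _).trans (add_le_add (ContinuousLinearMap.le_of_opNorm_le _ (h2 i) _)
        (ContinuousLinearMap.le_of_opNorm_le _ h1 _))
    nlinarith [mul_le_mul_of_nonneg_right n2 (norm_nonneg (ψ x)),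
      sq_nonneg (‖nab I b.F.e (b.W c) i ψ x‖ - K * ‖ψ x‖ / 2)]
  have k' := sum_le_sum fun i (_ : i ∈ univ) => k i
  rw [← sum_inner, sum_add_distrib, sum_const, card_univ, nsmul_eq_mul] at k'
  rw [Mp86.Lop_normSq (A := b.W c) (Mp86.vf b.F.toPre x) (mc hb hc x).sm (mc hb hc x).sk
    (hψ.of_le Mp86.two_le), show Mp86.LA I b.F.e b.F.dv (b.W c) ψ x =
      -lap I b.F.e b.F.dv (b.W c) ψ x from (neg_neg _).symm, inner_neg_left]
  rw [real_inner_self_eq_norm_sq] at e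
  change ⟪dir _ _ _ _ _ x, _⟫_ℝ ≤ ∑ i, ‖Mp86.cd I (b.F.e i) (b.W c i) ψ x‖ ^ 2 + _ at k'
  nlinarith [mul_le_mul_of_nonneg_right (neg_abs_le (sc b x)) (sq_nonneg ‖ψ x‖)]

/-- **integrated Weitzenboeck formula** -/
theorem int_weitz (hψ : Sm I ψ) (hp : ∀ x, b.m.p x (ψ x) = ψ x) (hk : HasCompactSupport ψ) :
    ∫ x, ‖dir I b.F.e b.m.ρ (b.W c) ψ x‖ ^ 2 ∂b.F.μ =
      ∫ x, ∑ i, ‖nab I b.F.e (b.W c) i ψ x‖ ^ 2 ∂b.F.μ +
        ∫ x, (sc b x / 4 * ‖ψ x‖ ^ 2 + 4 * ⟪b.fc c x, b.qd x (ψ x) (ψ x)⟫_ℝ) ∂b.F.μ := by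
  have D := cm hb hc
  simpa only [real_inner_self_eq_norm_sq, inner_wK hb hc (hp _)] using
    integral_weitz D.cc (lc_gam _) (riem_of_vol hb.G.vol) D.sk D.ρsk hψ hψ hp hk

end Crest.Agent.X212.Sw88
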