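import Crest.Agent.X212.Sw88.Wz
import Crest.Agent.X212.Nd18.Api

/-!
# Row 212, layer AN-S (helper88): slice integrals, cut-off configurations, the radial mass
-/

set_option autoImplicit false
set_option linter.unusedSectionVars false
noncomputable section
open scoped Manifold ContDiff Topology InnerProductSpace
open MeasureTheory Set Filter

namespace Crest.Agent.X212.Sw88
open An Wz78 Sob92 Cyf70
open Sw (Bg F2 En3 Nk)
open M (Mf)
open Nd18 (Jv Dp ct tf)

section gen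
variable {E : Type} [NormedAddCommGroup E] [NormedSpace ℝ E] [FiniteDimensional ℝ E]
  [MeasurableSpace E] [BorelSpace E]
  {HM : Type} [TopologicalSpace HM] {I : ModelWithCorners ℝ E HM}
  {M : Type} [TopologicalSpace M] [ChartedSpace HM M] [IsManifold I ∞ M] [MeasurableSpace M]
  {ι : Type} [Fintype ι] {N : Type} [NormedAddCommGroup N] [NormedSpace ℝ N]

theorem smOn_D (F : Pre I M ι) {O : Set M} (hO : IsOpen O) {u : M → N}
    (hu : ContMDiffOn I 𝓘(ℝ, N) ∞ u O) (a : ι) : ContMDiffOn I 𝓘(ℝ, N) ∞ (F.D a u) O :=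
  fun x hx => (Mp86.cm_dv (hu.contMDiffAt (hO.mem_nhds hx)) (F.sm a x) le_rfl).contMDiffWithinAt

theorem sm_cut {O : Set M} (hO : IsOpen O) {φ : M → ℝ} (hφ : Sm I φ) (hs : tsupport φ ⊆ O)
    {u : M → N} (hu : ContMDiffOn I 𝓘(ℝ, N) ∞ u O) : Sm I fun x => φ x • u x :=
  contMDiff_of_tsupport fun x hx =>
    (hφ x).smul (hu.contMDiffAt (hO.mem_nhds (hs (tsupport_smul_subset_left _ _ hx))))

variable [I.Boundaryless] [T2Space M] [BorelSpace M] [SecondCountableTopology M] [CompactSpace M]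
  [CompleteSpace N] (F : Pre I M ι) {J : Set ℝ} (hJ : IsOpen J) {g : M × ℝ → N}
include hJ

omit hJ in
theorem int_sl (hg : ContinuousOn g (univ ×ˢ J)) {t : ℝ} (ht : t ∈ J) :
    Integrable (fun y => g (y, t)) F.μ :=
  (hg.comp_continuous (by fun_prop) fun _ => ⟨trivial, ht⟩).integrable_of_hasCompactSupport
    (.of_compactSpace _)

theorem der_sl (hg : ContMDiffOn (IC I) 𝓘(ℝ, N) ∞ g (univ ×ˢ J)) {t : ℝ} (ht : t ∈ J) :
    HasDerivAt (fun s => ∫ y, g (y, s) ∂F.μ) (∫ y, (cylP F).D none g (y, t) ∂F.μ) t := by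
  have hO := isOpen_univ.prod hJ (X := M)
  have h1 := (smOn_D (cylP F) hO hg none).continuousOn
  obtain ⟨K, hK, h2, h3⟩ := exists_compact_subset hJ ht
  obtain ⟨C, hC⟩ := (isCompact_univ.prod hK).exists_bound_of_continuousOn
    (h1.mono (prod_mono_right h3))
  refine (hasDerivAt_integral_of_dominated_loc_of_deriv_le (s := K)
    (F' := fun s y => (cylP F).D none g (y, s)) (bound := fun _ => C)
    (mem_interior_iff_mem_nhds.1 h2) ((hJ.eventually_mem ht).mono fun s hs =>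
      (int_sl F hg.continuousOn hs).1) (int_sl F hg.continuousOn ht) (int_sl F h1 ht).1
    (.of_forall fun y s hs => hC _ ⟨trivial, hs⟩)
    (continuous_const.integrable_of_hasCompactSupport (.of_compactSpace _))
    (.of_forall fun y s hs => ?_)).2
  have h4 := (hg.contMDiffAt (hO.mem_nhds (x := (y, s)) ⟨trivial, h3 hs⟩)).mdifferentiableAt
    (by simp)
  rw [D_none_at F h4]
  exact (diff_slice_snd h4).hasDerivAt

/-- slice integrals of smooth functions are smooth -/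
theorem cd_sl (hg : ContMDiffOn (IC I) 𝓘(ℝ, N) ∞ g (univ ×ˢ J)) :
    ContDiffOn ℝ ∞ (fun s => ∫ y, g (y, s) ∂F.μ) J := by
  refine contDiffOn_infty.2 fun n => ?_
  induction n generalizing g with
  | zero => exact contDiffOn_zero.2 fun t ht => (der_sl F hJ hg ht).continuousAt.continuousWithinAt
  | succ n ih =>
    exact (contDiffOn_succ_iff_deriv_of_isOpen (n := n) hJ).2
      ⟨fun t ht => (der_sl F hJ hg ht).differentiableAt.differentiableWithinAt, by simp,
        (ih (smOn_D (cylP F) (isOpen_univ.prod hJ) hg none)).congr fun t ht =>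
          (der_sl F hJ hg ht).deriv⟩

end gen

variable {κ lam ν : Type} [Fintype κ] [Fintype lam] [Fintype ν] [DecidableEq ν]

section cut
variable {E : Type} [NormedAddCommGroup E] [NormedSpace ℝ E] [FiniteDimensional ℝ E]
  [MeasurableSpace E] [BorelSpace E]
  {HM : Type} [TopologicalSpace HM] {I : ModelWithCorners ℝ E HM}
  {M : Type} [TopologicalSpace M] [ChartedSpace HM M] [IsManifold I ∞ M] [MeasurableSpace M]
  {nc : ℕ} {b : Bg I M κ lam ν nc} {c : Sw.Cfg M κ ν} {φ : M → ℝ} {O : Set M} {x : M}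

/-- the product with a function -/
def cut (φ : M → ℝ) (c : Sw.Cfg M κ ν) : Sw.Cfg M κ ν :=
  ⟨fun i x => φ x • c.a i x, fun x => φ x • c.Φ x⟩

theorem adm_cut (hO : IsOpen O) (h : b.AdmOn c O) (hφ : Sm I φ) (hs : tsupport φ ⊆ O) :
    b.Adm (cut φ c) := by
  have k : ∀ x, φ x = 0 ∨ x ∈ O := fun x =>
    (em _).imp_right fun h => hs (subset_tsupport _ h)
  refine ⟨fun i => sm_cut hO hφ hs (h.sa i), sm_cut hO hφ hs h.sΦ, fun i x => ?_, fun x => ?_⟩
  · rcases k x with e | e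
    · simp [cut, e]
    · simp only [cut, smul_eq_mul, mul_left_comm _ (φ x), ← Finset.mul_sum, h.pa i x e]
  · rcases k x with e | e
    · simp [cut, e]
    · simp only [cut, map_smul, h.pΦ x e]

theorem cut_a (h : ∀ᶠ y in 𝓝 x, φ y = 1) (i : Option κ) : (cut φ c).a i =ᶠ[𝓝 x] c.a i :=
  h.mono fun y e => by simp [cut, e]

theorem cut_Φ (h : ∀ᶠ y in 𝓝 x, φ y = 1) : (cut φ c).Φ =ᶠ[𝓝 x] c.Φ :=
  h.mono fun y e => by simp [cut, e]

end cut

variable {e : En3 κ lam ν}

theorem nm_nonneg (v : e.YC) : 0 ≤ En3.nm v := integral_nonneg fun _ => sq_nonneg _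

theorem cd_nm {c : e.ZC} {J : Set ℝ} (hJ : IsOpen J)
    (h : ContMDiffOn (IC e.Y.I) 𝓘(ℝ, Eu ν) ∞ c.Φ (univ ×ˢ J)) :
    ContDiffOn ℝ ∞ (fun t => En3.nm (En3.sl c t)) J :=
  cd_sl e.D.F.toPre hJ (g := fun x => ‖c.Φ x‖ ^ 2)
    ((contDiff_norm_sq ℝ).contMDiff.comp_contMDiffOn h)

theorem b_le (he : e.OK) : ∃ B, ∀ r, 0 ≤ r → e.b r ≤ B := by
  obtain ⟨B, hB⟩ := (isCompact_Icc (a := (0 : ℝ)) (b := 1)).exists_bound_of_continuousOn
    he.sb.continuous.continuousOn
  refine ⟨|B|, fun r hr => (le_total r 1).elim (fun h => ?_) fun h => ?_⟩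
  · exact (le_abs_self _).trans ((hB r ⟨hr, h⟩).trans (le_abs_self B))
  · rw [he.b1 r h]; exact abs_nonneg B

variable {X : Mf 4} {nc : ℕ} {b : Bg X.I X.M κ lam ν nc} (K : Nk e b) (c : Sw.Cfg X.M κ ν)

/-- the radial mass as a function of the time -/
def β (t : ℝ) : ℝ := K.cut 1 t * e.b (En3.nm (En3.sl (K.pb c) t))

/-- its integral -/
def γ (t : ℝ) : ℝ := ∫ s in (0 : ℝ)..t, β K c s

variable {c}

theorem smOn_pb {N : Type} [NormedAddCommGroup N] [NormedSpace ℝ N] {f : X.M → N} (h : Sm X.I f) :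
    ContMDiffOn (IC e.Y.I) 𝓘(ℝ, N) ∞ (fun x => f (K.ψ x)) (univ ×ˢ K.J) :=
  h.comp_contMDiffOn (K.src ▸ K.iso.sm)

variable (he : e.OK) (h : Sm X.I c.Φ)
include he h

theorem cd_β : ContDiff ℝ ∞ (β K c) :=
  contMDiff_iff_contDiff.1 (sm_cut Nd18.isOpen_Jv (contMDiff_iff_contDiff.2 Nd18.contDiff_ct)
    (Nd18.tsupport_ct.trans (Nd18.Dp_sub one_pos)) (contMDiffOn_iff_contDiffOn.2
      (he.sb.comp_contDiffOn (cd_nm (c := K.pb c) Nd18.isOpen_Jv (smOn_pb K h)))))

theorem der_γ (t : ℝ) : HasDerivAt (γ K c) (β K c t) t :=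
  ((cd_β K he h).continuous.integral_hasStrictDerivAt 0 t).hasDerivAt

theorem cd_γ : ContDiff ℝ ∞ (γ K c) :=
  contDiff_infty_iff_deriv.2 ⟨fun t => (der_γ K he h t).differentiableAt,
    funext (fun t => (der_γ K he h t).deriv) ▸ cd_β K he h⟩

theorem γ_lip {B : ℝ} (hB : ∀ r, 0 ≤ r → e.b r ≤ B) (s t : ℝ) :
    |γ K c s - γ K c t| ≤ B * |s - t| :=
  convex_univ.norm_image_sub_le_of_norm_hasDerivWithin_le (f' := β K c)
    (fun t _ => (der_γ K he h t).hasDerivWithinAt) (fun t _ => by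
      rw [β, Real.norm_eq_abs, abs_of_nonneg (mul_nonneg Nd18.ct_mem.1 (he.b0 _))]
      exact (mul_le_of_le_one_left (he.b0 _) Nd18.ct_mem.2).trans (hB _ (nm_nonneg _)))
    trivial trivial

theorem sm_γτ : Sm X.I fun x => γ K c (K.τ x) := (cd_γ K he h).contMDiff.comp K.sm_τ

/-- the radial mass is Clifford multiplication by an exact form -/
theorem rad_eq (x : X.M) :
    K.rad c x = ∑ i, b.F.D i (fun x => γ K c (K.τ x)) x • b.m.ρ i x (c.Φ x) := by
  have d : ∀ i, b.F.D i (fun x => γ K c (K.τ x)) x = b.F.D i K.τ x * β K c (K.τ x) := fun i =>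
    Mp86.dv_comp (der_γ K he h _).hasFDerivAt ((K.sm_τ x).mdifferentiableAt (by simp))
  simp only [d, Fintype.sum_option, K.D_τ_some, K.D_τ_none, Pi.zero_apply, zero_mul, zero_smul,
    Finset.sum_const_zero, add_zero]
  change β K c (K.tm x) • _ = _
  congr 1
  by_cases k : K.cut 1 (K.tm x) = 0
  · simp only [β, K.cut_τ le_rfl, k, zero_mul, mul_zero]
  · have k' : tf K.p K.q =ᶠ[𝓝 (K.tm x)] id :=
      (Nd18.contDiff_ct.continuous.continuousAt.eventually_ne k).mono fun s hs =>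
        Nd18.tf_eq (by_contra fun n => hs (Nd18.ct_zero n))
    rw [k'.deriv_eq, deriv_id, one_mul, Nd18.Nk.τ, k'.self_of_nhds, id]

end Crest.Agent.X212.Sw88
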