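import Crest.Agent.X212.Sw88.Gd
import Crest.Agent.X212.Lvo97.Main
import Crest.Agent.X212.Pb50.Pt
import Crest.Agent.X212.Sw21.Cc
import Crest.Agent.X212.Ell97.Est
import Crest.Agent.X212.Mp86.En2

/-!
# Row 212, layer AN-S (helper88): LV-BND, energies, labels and lifts
-/

set_option autoImplicit false
set_option linter.unusedSectionVars false
noncomputable section
open scoped Manifold ContDiff Topology InnerProductSpace
open MeasureTheory Set Function Filter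

namespace Crest.Agent.X212.Sw88
open An Cyf70 Sw Sw.En3 Flo2 Sob92
open M (Mf)

variable {κ lam ν : Type} [Fintype κ] [Fintype lam] [Fintype ν] [DecidableEq ν]

theorem small_zero {d : Dt κ lam ν} {X : Mf 4} {nc : ℕ} {N : Type} [Fintype N] {ty : N → d.𝓔}
    {P : Pc d X nc ty} {k : ℕ} {η : ℝ} {q : d.W →₀ ℝ} (h : P.Small k η q) : P.Small 0 η q :=
  let ⟨s, h1, h2⟩ := h
  ⟨s, h1, fun w hw => let ⟨a, b, c, d, e⟩ := h2 w hw
    ⟨a, CB_of_le b k.zero_le, c, d, fun i T hT j hj r =>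
      CB_of_le (e i T hT j (hj.trans k.zero_le) r) k.zero_le⟩⟩

theorem bd_mono {X : Mf 4} {nc : ℕ} {b : Bg X.I X.M κ lam ν nc} {C C' : ℕ → ℝ} (h : b.Bd C)
    (k : ∀ j, C j ≤ C' j) (w : ℝ) : ({ b with w := w } : Bg X.I X.M κ lam ν nc).Bd C' :=
  ⟨Ell97.Tame_mono h.tame k, fun x => (h.ms x).trans (k 0), fun i x => (h.dms i x).trans (k 0),
    fun x => (h.om x).trans (k 0)⟩

theorem exists_bd {X : Mf 4} {nc : ℕ} {b : Bg X.I X.M κ lam ν nc} (h : b.OK) : ∃ C, b.Bd C := by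
  obtain ⟨C, hC⟩ := h.tame
  obtain ⟨C1, h1⟩ := h.cms
  obtain ⟨C2, h2⟩ := h.com
  have m := ContinuousLinearMap.mul ℝ (En ν)
  obtain ⟨C3, h3⟩ := Prm93.Cb_unif fun i => Cb_add (Cb_D h.cms i)
    (Cb_sub (Cb_bil (.mul ℝ _) (h.cA i) h.cms) (Cb_bil (.mul ℝ _) h.cms (h.cA i)))
  refine ⟨fun j => max (C j) (max (C1 0) (max (C2 0) (C3 0))),
    Ell97.Tame_mono hC fun _ => le_max_left _ _, fun x => ?_, fun i x => ?_, fun x => ?_⟩
  · exact (CB_bound (h1.2 0) x).trans (by simp)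
  · exact (CB_bound ((h3 i).2 0) x).trans (by simp)
  · exact (CB_bound (h2.2 0) x).trans (by simp)

open Classical in
theorem sum_ite_le {N : Type} [Fintype N] {c : N → Bool → Prop} {a : N → Bool → ℝ} {r : ℝ}
    (hr : 0 ≤ r) (h : ∀ i s, c i s → |a i s| ≤ r) :
    |∑ i, ∑ s, if c i s then a i s else 0| ≤ 2 * Fintype.card N * r := by
  have k : ∀ i, |∑ s, if c i s then a i s else 0| ≤ 2 * r := fun i => by
    refine (Finset.abs_sum_le_sum_abs _ _).trans ((Finset.sum_le_card_nsmul _ _ r fun s _ => ?_).trans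
      (by simp))
    split_ifs with e
    exacts [h i s e, by simpa using hr]
  refine (Finset.abs_sum_le_sum_abs _ _).trans ((Finset.sum_le_card_nsmul _ _ _ fun i _ => k i).trans
    (le_of_eq ?_))
  rw [nsmul_eq_mul, Finset.card_univ]
  ring

theorem en_le {E : ENNReal} {ε k a b m : ℝ} (hε : 0 < ε) (hE : E ≠ ⊤) (hm : 0 ≤ m)
    (h : ε * E.toReal + k ≤ a) (hk : -k ≤ b * (1 + m)) :
    E ≤ ENNReal.ofReal ((|a| + |b|) / ε * (1 + m)) := by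
  refine (ENNReal.le_ofReal_iff_toReal_le hE (by positivity)).2 ?_
  rw [div_mul_eq_mul_div, le_div_iff₀' hε]
  nlinarith [le_abs_self a, le_abs_self b, abs_nonneg a]

theorem ζ_cy {ε ε' : Ty κ lam ν} (h : ε = ε') (y : ε'.en.Y.M) :
    ε.en.ζ (Lvo97.cy h y) = ε'.en.ζ y := by subst h; rfl

/-- the constants of a base -/
def cst (b : Bs κ lam ν) (r : ℝ) (j : ℕ) : ℝ := max (b.C j) (max r (Fintype.card b.N))

section lev
variable {𝓔 : Type} [Fintype 𝓔] {ty : 𝓔 → Ty κ lam ν} {Sl : Type} [Fintype Sl] {g : Gc κ lam ν}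
  (p : Plc ty Sl g) (l : Lv 𝓔) {nc : ℕ} {P : Pz g.X nc fun i => (g.ty i).en}

open Classical in
theorem sum_lev (a : 𝓔 × Sl → Bool → ℝ) :
    (∑ j, ∑ s, if (p.lev l P).Inf j s then a j s else 0) =
      ∑ i, ∑ s, if P.Inf i s then a (p.ι i) s else 0 :=
  (Fintype.sum_of_injective p.ι p.inj _ _ (fun j hj => Finset.sum_eq_zero fun s _ =>
    if_neg fun h => let ⟨i, e, _⟩ := Lvo97.inf_lev p l h; hj ⟨i, e⟩) fun i => by
      simp only [Lvo97.lev_inf]).symm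

theorem some_lev {j : 𝓔 × Sl} (h : ((p.lev l P).nk j).isSome) : ∃ i, p.ι i = j := by
  by_contra k
  simp [Lvo97.lev_none p l k] at h

theorem tf_lev {η : g.X.M → F2 κ} {r : g.N → ℝ} {B : ℝ} (h : TF P η r B) (hB : 0 ≤ B) :
    TF (p.lev l P) η (extend p.ι r 0) B where
  sm := h.sm
  bd := h.bd
  rb j := by
    by_cases e : ∃ i, p.ι i = j
    · obtain ⟨i, rfl⟩ := e
      rw [p.inj.extend_apply]
      exact h.rb i
    · simpa [extend_apply' _ _ _ e] using hB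
  cl := h.cl
  nk := (Lvo97.all_lev p l (C := fun j K => ∀ y, ∀ s ∈ K.deep 1, ∀ a a', η (K.ψ (y, s)) (a, a') =
      if a.isSome ∧ a'.isSome then extend p.ι r 0 j * (l.e ty j.1).ζ y (a, a') else 0)).2
    fun i K k y s hs a a' => by
      rw [Lvo97.lk_deep] at hs
      rw [Lvo97.lk_ψ, h.nk i K k _ s hs, p.inj.extend_apply, ζ_cy]

open Classical in
theorem hs_lev (r : g.N → ℝ) (β : Plc.BC (ty := ty) (Sl := Sl) l) :
    hs (p.lev l P) (extend p.ι r 0) β =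
      ∑ i, ∑ s, if P.Inf i s then M.pm s * r i * hol (β (p.ι i) s) else 0 := by
  rw [hs, sum_lev]
  simp only [p.inj.extend_apply]

theorem kd_ι (i : g.N) : (ty (p.ι i).1).1.kd = (g.en i).kd := congrArg (·.1.kd) (p.ty i)

variable {l} (hg : g.OK) (t : Tk g.k)
include hg

theorem mem_Q : t ∈ g.𝓕.Q := hg.Q ▸ mem_univ t

theorem inf_P (i : g.N) (s : Bool) : (g.P t).Inf i s ↔ g.s.Inf i s :=
  Pb50.inf_iff hg.fam (mem_Q hg t) i s

theorem wd_P (f η : g.X.M → F2 κ) : g.wd t f η = wd (g.P t).bg f η := by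
  rw [Bs.wd, wd, ← hg.G t, ← hg.B, ← hg.fam.B t (mem_Q hg t)]

theorem tf_P (e : g.Tf) {B : ℝ} (h1 : ∀ t ∈ g.dom, ∀ x, ‖e.e t x‖ ≤ B) (h2 : ∀ i, |e.r i| ≤ B)
    (ht : t ∈ g.dom) : TF (g.P t) (e.e t) e.r B where
  sm := e.sm t ht
  bd := h1 t ht
  rb := h2
  cl a k1 k2 := by
    have : dd (g.P t).bg a = g.dd t a := by
      funext x
      rw [dd, Bs.dd, ← hg.G t]
    rw [← wd_P hg, this]
    refine e.cl t ht a k1 ?_
    rwa [← hg.B, ← hg.fam.B t (mem_Q hg t)]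
  nk i K k := e.nk t ht i K.ng (hg.ng t i ▸ Option.mem_map_of_mem _ k)

theorem uni_lev {Γ : l.Cx ty} {r : ℝ} (h : ∀ i, Gd1 r (ty (p.ι i).1).1.kd (Γ.g (p.ι i).1))
    (h0 : 0 < l.w) (h1 : l.w ≤ 1) (ht : t ∈ g.dom) : Uni (p.lev l (g.P t)) (cst g.toBs r) where
  bd := bd_mono (hg.bd t ht).1 (fun _ => le_max_left _ _) _
  nn := by
    refine le_max_of_le_right (le_max_of_le_right (Nat.cast_le.2 ?_))
    refine (ncard_le_ncard (t := p.ι '' univ) (fun j hj => ?_)).trans ((ncard_image_le).trans ?_)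
    · simpa using some_lev p l hj
    · rw [ncard_univ, Nat.card_eq_fintype_card]
  nb j hj := by
    obtain ⟨i, rfl⟩ := some_lev p l hj
    exact nb_mono (h i).nb (le_max_of_le_right (le_max_left _ _))
  w0 := h0
  w1 := h1
  vol := by
    rw [Lvo97.lev_thick]
    exact (hg.bd t ht).2.trans (ENNReal.ofReal_le_ofReal (le_max_left _ _))

end lev

variable {G : Flo2.Gr κ lam ν} {mk : Mk κ lam ν}

/-- the a priori bounds at a level -/
structure Cor (G : Flo2.Gr κ lam ν) (mk : Mk κ lam ν) (r C : ℝ) {g : Gc κ lam ν} {𝓔 : Type}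
    [Fintype 𝓔] {ty : 𝓔 → Ty κ lam ν} {Sl : Type} [Fintype Sl] (p : Plc ty Sl g) (l : Lv 𝓔)
    (Γ : l.Cx ty) {W : Type} (yt : l.YT ty W) (τ : Tm g W) (q : W →₀ ℝ) : Prop where
  hty : ∀ ε, (ty ε).1.OK mk
  gd : ∀ i, Gd1 r (ty (p.ι i).1).1.kd (Γ.g (p.ι i).1)
  ok : ∀ t ∈ g.dom, (p.lev l (g.P t)).OK ∧ Uni (p.lev l (g.P t)) (cst g.toBs r)
  sol : ∀ β, p.InV Γ β → ∀ y ∈ p.M l yt τ β q, (p.lev l (g.P y.1.1)).Cr β ∧
    (∀ x, ‖(p.lev l (g.P y.1.1)).bg.eC y.1.2 x - (p.lev l (g.P y.1.1)).p0.C y.1.2 x‖ ≤ 1) ∧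
    (p.lev l (g.P y.1.1)).ean y.1.2 ≤ ENNReal.ofReal (C * (1 + max 0 (-(G.dg g : ℝ))))

theorem gev_mono {g : Gc κ lam ν}
    {Q Q' : ∀ {𝓔 : Type} [Fintype 𝓔] {ty : 𝓔 → Ty κ lam ν} {Sl : Type} [Fintype Sl]
      (_ : Plc ty Sl g) (l : Lv 𝓔) (_ : l.Cx ty) {W : Type} (_ : l.YT ty W) (_ : Tm g W)
      (_ : W →₀ ℝ), Prop} (h : g.Ev mk Q)
    (k : ∀ (𝓔 : Type) [Fintype 𝓔] (ty : 𝓔 → Ty κ lam ν) (Sl : Type) [Fintype Sl] (p : Plc ty Sl g)
      l Γ W yt τ (q : W →₀ ℝ), Q p l Γ yt τ q → Q' p l Γ yt τ q) : g.Ev mk Q' :=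
  fun 𝓔 _ ty Sl _ p hty => (h 𝓔 ty Sl p hty).mono fun l Γ ⟨η, h0, a⟩ =>
    ⟨η, h0, fun W yt τ b q c => k _ _ _ p l Γ W yt τ q (a W yt τ b q c)⟩

theorem core (hA : AprStmt κ lam ν) (hG : GpwStmt κ lam ν) (hM : MkP mk) (hT : TowStmt G mk)
    (hI : IndStmt G mk) (b : Bs κ lam ν) : ∃ r > 0, ∃ C ≥ 0, ∀ g : Gc κ lam ν, g.toBs = b →
      g.Gd mk → g.Ev mk fun p l Γ _ yt τ q => Cor G mk r C p l Γ yt τ q := by
  obtain ⟨r, hr, h0⟩ := ((gdn_base hG hM hT b).and (eventually_gt_atTop 0)).exists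
  obtain ⟨ε, hε, C', hC⟩ := hA (cst b r)
  obtain ⟨Ck, hk⟩ := hI.k2 b
  refine ⟨r, h0, (|C'| * (1 + 2 * Fintype.card b.N * r) + |Ck|) / ε, by positivity,
    fun g e hg 𝓔 _ ty Sl _ p hty => ((gdn_plc p (hr g e hg)).and (ev_w one_pos)).mono
      fun l Γ ⟨gd, w1, _⟩ => ?_⟩
  subst e
  obtain ⟨η, hη, C'', h⟩ := hC 𝓔 (l.e ty) (𝓔 × Sl) Prod.fst (fun i => ⟨_, Γ.ok i.1⟩) l.w
  refine ⟨η, hη, fun W yt τ hτ q hq => ?_⟩
  have ok := fun t => (Lvo97.lev κ lam ν g hg.1 𝓔 ty Sl p l W yt τ (fun ε => (Γ.ok ε).ok) Γ.w0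
    hτ).ok t trivial
  have un := fun t ht => uni_lev p hg.1 t gd Γ.w0 w1 ht
  refine ⟨hty, gd, fun t ht => ⟨(ok t).toOK, un t ht⟩, fun β hβ ⟨⟨t, c⟩, y⟩ hy => ?_⟩
  have cr : (p.lev l (g.P t)).Cr β := fun j s k => by
    obtain ⟨i, rfl, a⟩ := Lvo97.inf_lev p l k
    exact ((Γ.rs _).gd _ (hβ i s ((inf_P hg.1 t i s).1 a))).crit
  obtain ⟨-, a2, a3, a4⟩ := h W yt _ _ _ (ok t) (un t hy.2) rfl q (small_zero (hq t)) β c cr y.2
    hy.1.1.2.eq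
  have nd : ∀ i s, g.s.Inf i s → (g.en i).kd ≠ .dead := fun i s a k =>
    let ⟨x, _⟩ := hβ i s a; ((gd i).dead ((kd_ι p i).trans k)).false x.2
  have lv : (p.lev l (g.P t)).lev β ≤ 2 * Fintype.card g.N * r := by
    rw [Pz.lev, sum_lev]
    refine (le_abs_self _).trans (sum_ite_le h0.le fun i s a => ?_)
    obtain ⟨x, e⟩ := hβ i s ((inf_P hg.1 t i s).1 a)
    rw [abs_abs, ← e, L_lf Γ (hty _)]
    exact ((gd i).lv _).1
  refine ⟨cr, a2, ?_⟩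
  have := en_le (a := |C'| * (1 + 2 * Fintype.card g.N * r)) hε a3 (le_max_left _ _) (a4.trans ?_)
    (hk g rfl hg (fun i a => nd i _ ((hg.1.inn i).2 a))
      (fun i a => nd i _ ((hg.1.out i).2 (.inr a))) t hy.2)
  · rwa [abs_of_nonneg (by positivity)] at this
  · have : 0 ≤ (p.lev l (g.P t)).lev β := Finset.sum_nonneg fun _ _ => Finset.sum_nonneg fun _ _ => by
      split_ifs <;> positivity
    exact mul_le_mul (le_abs_self _) (add_le_add le_rfl lv) (add_nonneg zero_le_one this)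
      (abs_nonneg _)

/-- the constants of a test form -/
structure LB (b : Bs κ lam ν) (r : ℝ) (e : b.Tf) (B C' : ℝ) : Prop where
  B0 : 0 ≤ B
  C0 : 0 ≤ C'
  bd : ∀ t ∈ b.dom, ∀ x, ‖e.e t x‖ ≤ B
  rb : ∀ i, |e.r i| ≤ B
  lb : ∀ (N : Type) [Fintype N] (en : N → En3 κ lam ν) (X : Mf 4) (nc : ℕ) (P : Pz X nc en), P.OK →
    Uni P (cst b r) → (∀ i, (P.nk i).isSome → Gp (en i) r⁻¹ r) → ∀ η ρ, TF P η ρ B → ∀ y c, P.Cr y →
    P.As y c → (∀ x, ‖P.bg.eC c x - P.p0.C c x‖ ≤ 1) → P.ean c ≠ ⊤ →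
    |wd P.bg (P.bg.fc ⟨0, 0⟩) η + hs P ρ y / 2| ≤ C' * (1 + (P.ean c).toReal)

theorem exists_LB (hL : LabStmt κ lam ν) (b : Bs κ lam ν) {r : ℝ} (h0 : 0 < r) (e : b.Tf) :
    ∃ B C', LB b r e B C' := by
  obtain ⟨B, hB⟩ := e.bd
  obtain ⟨B', hB'⟩ := (finite_range fun i => |e.r i|).bddAbove
  obtain ⟨C', h⟩ := hL (cst b r) r⁻¹ r (max 0 (max B B')) (inv_pos.2 h0) h0
  exact ⟨_, |C'|, le_max_left _ _, abs_nonneg _, fun t ht x => (hB t ht x).trans (by simp),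
    fun i => (hB' ⟨i, rfl⟩).trans (by simp), fun N _ en X nc P a1 a2 a3 η ρ a4 y c a5 a6 a7 a8 =>
      (h N en X nc P a1 a2 a3 η ρ a4 y c a5 a6 a7 a8).trans
        (mul_le_mul_of_nonneg_right (le_abs_self _) (by positivity))⟩

section cor
variable {r C B C' : ℝ} {g : Gc κ lam ν} {𝓔 : Type} [Fintype 𝓔] {ty : 𝓔 → Ty κ lam ν} {Sl : Type}
  [Fintype Sl] {p : Plc ty Sl g} {l : Lv 𝓔} {Γ : l.Cx ty} {W : Type} {yt : l.YT ty W} {τ : Tm g W}
  {q : W →₀ ℝ} (h : Cor G mk r C p l Γ yt τ q) (hg : g.Gd mk) {e : g.Tf} (he : LB g.toBs r e B C')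
  {β : Plc.BC (ty := ty) (Sl := Sl) l} (hβ : p.InV Γ β) {y : (p.cel l yt τ β).Pnt}
  (hy : y ∈ p.M l yt τ β q)
include h

theorem Cor.qhs {i : g.N} (k : (g.en i).kd = .qhs) (s : Bool) : hol (β (p.ι i) s) = 0 :=
  hol_zero (e := l.e ty _) ((h.hty _).qhs ((kd_ι p i).trans k)).2.2.1 _

theorem Cor.hol_lf (i : g.N) (n : ℤ) (x : (Γ.g (p.ι i).1).ι) :
    |hol (Γ.lf _ n x) - per (g.ty i) n| ≤ r := by
  rw [Sw88.hol_lf Γ (h.hty _), p.ty i, add_sub_cancel_right]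
  exact ((h.gd i).lv x).2

include hg he hβ hy

open Classical in
theorem Cor.lab {E : ℝ} (hE : 0 ≤ E) (k : (p.lev l (g.P y.1.1)).ean y.1.2 ≤ ENNReal.ofReal E) :
    |wd (g.P y.1.1).bg ((g.P y.1.1).bg.fc ⟨0, 0⟩) (e.e y.1.1) + (∑ i, ∑ s, if (g.P y.1.1).Inf i s
      then M.pm s * e.r i * hol (β (p.ι i) s) else 0) / 2| ≤ C' * (1 + E) := by
  obtain ⟨a1, a2, -⟩ := h.sol β hβ y hy
  have := he.lb _ _ _ _ _ (h.ok _ hy.2).1 (h.ok _ hy.2).2 (fun j hj => by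
    obtain ⟨i, rfl⟩ := some_lev p l hj
    exact (h.gd i).gp) _ _ (tf_lev p l (tf_P hg.1 _ e he.bd he.rb hy.2) he.B0) β _ a1 y.2.2 a2
      (ne_top_of_le_ne_top ENNReal.ofReal_ne_top k)
  rw [hs_lev] at this
  exact this.trans (mul_le_mul_of_nonneg_left
    (add_le_add le_rfl (ENNReal.toReal_le_of_le_ofReal hE k)) he.C0)

theorem Cor.pr (hF : FormStmt κ lam ν) (hr : 0 ≤ r) (h3 : g.p3 = none) {n : ℤ}
    (hn : ∀ i ∈ g.pin, ∃ x, β (p.ι i) false = Γ.lf _ n x) {E : ℝ} (hE : 0 ≤ E)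
    (k : (p.lev l (g.P y.1.1)).ean y.1.2 ≤ ENNReal.ofReal E) :
    g.pr n e ≤ (C' + Fintype.card g.N * (B * r)) * (1 + E) := by
  have a := h.lab hg he hβ hy hE k
  have gau : ∀ i, Gau (g.ty i).en.Y.I (g.gau g.pin n i) := fun i => by
    unfold Gc.gau
    split_ifs
    exacts [gau_zpow (e := (g.ty i).en) (hg.2 i).u n, ⟨contMDiff_const, by simp⟩]
  have f := hF _ _ _ _ _ (hg.1.fam.ok _ (mem_Q hg.1 y.1.1)).toOK _ _ _
    (tf_P hg.1 _ e he.bd he.rb hy.2) (fun i _ => YC.act (g.gau g.pin n i) ⟨0, 0⟩)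
    fun i _ _ => Pb50.Eqv.adm ((hg.2 i).ok _) adm_zero (eqv_act (gau i) _)
  have d := sum_ite_le (c := (g.P y.1.1).Inf) (mul_nonneg he.B0 hr) (a := fun i s =>
    M.pm s * e.r i * hol (YC.act (e := (g.ty i).en) (g.gau g.pin n i) ⟨0, 0⟩) -
      M.pm s * e.r i * hol (β (p.ι i) s)) fun i s a => by
    rw [← mul_sub, abs_mul, abs_mul, show |M.pm s| = 1 by cases s <;> simp [M.pm], one_mul]
    refine mul_le_mul (he.rb i) ?_ (abs_nonneg _) he.B0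
    rw [inf_P hg.1] at a
    cases s
    · obtain ⟨x, hx⟩ := hn i ((hg.1.inn i).1 a)
      have : g.gau g.pin n i = fun y => (g.en i).u y ^ n :=
        funext fun _ => if_pos ((hg.1.inn i).1 a)
      rw [hx, this, abs_sub_comm]
      exact h.hol_lf i n x
    · have k := hg.1.kout i (((hg.1.out i).1 a).resolve_right (by simp [h3]))
      rw [h.qhs k, hol_zero (e := (g.ty i).en) ((hg.2 i).qhs k).2.2.1]
      simpa using hr
  refine (csInf_le ⟨0, by rintro _ ⟨t, -, rfl⟩; exact abs_nonneg _⟩ (mem_image_of_mem _ hy.2)).trans ?_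
  have e1 : ∀ (c : Prop) [Decidable c] (a b : ℝ),
      (if c then a - b else 0) = (if c then a else 0) - if c then b else 0 := by
    intros
    split_ifs <;> simp
  simp only [e1, Finset.sum_sub_distrib] at d
  have e2 : 0 ≤ Fintype.card g.N * (B * r) * E := by have := he.B0; positivity
  rw [wd_P hg.1, f, hs]
  rw [abs_le] at a d ⊢
  constructor <;> nlinarith [a.1, a.2, d.1, d.2]

theorem Cor.lift (hC : 0 ≤ C) {i : g.N} (h3 : g.p3 = some i) (k : (g.en i).kd = .tor)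
    (h1 : e.r i = 1) {n : ℤ} {x} (hn : β (p.ι i) true = Γ.lf _ n x) :
    |(n : ℝ)| ≤ (2 * (C' * (1 + C * (1 + max 0 (-(G.dg g : ℝ)))) +
      |wd (g.P 0).bg ((g.P 0).bg.fc ⟨0, 0⟩) (e.e 0)|) + r) / |per (g.ty i) 1| := by
  have a := h.lab hg he hβ hy (by positivity) (h.sol β hβ y hy).2.2
  have : IsEmpty (Fin g.k) := (hg.1.ne3 i h3).2 ▸ inferInstanceAs (IsEmpty (Fin 0))
  rw [Subsingleton.elim y.1.1 0, ← Fintype.sum_prod_type', Fintype.sum_eq_single (i, true),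
    if_pos ((inf_P hg.1 _ _ _).2 ((hg.1.out i).2 (.inr h3))), hn, h1] at a
  · have b := h.hol_lf i n x
    have c := per_ne Γ (h.hty _) x ((kd_ι p i).trans k)
    rw [p.ty i] at c
    rw [per_eq (ε := g.ty i) (hg.2 i)] at b
    rw [le_div_iff₀ (abs_pos.2 c), ← abs_mul]
    simp only [M.pm, if_true, one_mul] at a
    have := le_abs_self (wd (g.P 0).bg ((g.P 0).bg.fc ⟨0, 0⟩) (e.e 0))
    have := neg_abs_le (wd (g.P 0).bg ((g.P 0).bg.fc ⟨0, 0⟩) (e.e 0))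
    rw [abs_le] at a b ⊢
    constructor <;> linarith [a.1, a.2, b.1, b.2]
  · rintro ⟨j, s⟩ hj
    classical
    refine ite_eq_right_iff.2 fun a => ?_
    rw [inf_P hg.1] at a
    rw [h.qhs, mul_zero]
    cases s
    · exact (hg.1.kin.resolve_right (by simp [h3])) j ((hg.1.inn j).1 a)
    · refine hg.1.kout j (((hg.1.out j).1 a).resolve_right fun b => hj ?_)
      rw [Option.some.inj (b.symm.trans h3)]

end cor

theorem cyl_bd (hA : AprStmt κ lam ν) {𝓔 : Type} [Fintype 𝓔] {ty : 𝓔 → Ty κ lam ν} (Sl : Type)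
    [Fintype Sl] (hty : ∀ ε, (ty ε).1.OK mk) (l : Lv 𝓔) (Γ : l.Cx ty)
    (hN : ∀ ε, ∃ C, (l.e ty ε).Nb C) : ∃ C : ℝ, ∃ η > 0, ∀ (W : Type) (yt : l.YT ty W)
      (i : 𝓔 × Sl) (T : Type) [NormedAddCommGroup T] [NormedSpace ℝ T] [FiniteDimensional ℝ T]
      (nr : ℕ) β q, (∀ s, β i s ∈ Γ.V i.1) → ((l.dt ty yt).cc Prod.fst i T nr β).Sm η q →
      ∀ y, ((l.dt ty yt).cc Prod.fst i T nr β).Sol q y →
        (((l.dt ty yt).cc Prod.fst i T nr β).P y.1.1).ean y.1.2 ≤ ENNReal.ofReal C ∧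
          ∀ x, ‖y.1.2.Φ x‖ ≤ C := by
  choose n hn using hN
  choose C hC using fun ε => exists_bd (X := (l.e ty ε).Z) (Γ.ok ε).ok.cyl
  have : ∀ᶠ r : ℝ in atTop, ∀ ε, n ε ≤ r ∧ ∀ x, |L ((Γ.g ε).x x)| ≤ r := eventually_all.2 fun ε =>
    (eventually_ge_atTop _).and (eventually_all.2 fun _ => eventually_ge_atTop _)
  obtain ⟨r, hr, h1⟩ := (this.and (eventually_ge_atTop 1)).exists
  obtain ⟨ε, hε, C', h⟩ := hA fun j => max r (∑ ε, |C ε j|)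
  obtain ⟨η, hη, C'', h⟩ := h 𝓔 (l.e ty) (𝓔 × Sl) Prod.fst (fun i => ⟨_, Γ.ok i.1⟩) l.w
  refine ⟨max C'' ((|(|C'| * (1 + 2 * Fintype.card (𝓔 × Sl) * r))| + |0|) / ε * (1 + 0)), η, hη,
    fun W yt i T _ _ _ nr β q hβ hq y hy => ?_⟩
  have ok := (Sw21.cf_ok (d := l.dt ty yt) (ty := Prod.fst) (i := i) (T := T)
    (fun j => (Γ.ok j.1).ok) Γ.w0).ok y.1.1 trivial
  have un : Uni ((l.dt ty yt).cs Prod.fst i) fun j => max r (∑ ε, |C ε j|) := by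
    refine ⟨bd_mono (hC i.1) (fun j => le_max_of_le_right ((le_abs_self _).trans
      (Finset.single_le_sum (f := fun ε => |C ε j|) (fun _ _ => abs_nonneg _)
        (Finset.mem_univ _)))) _, ?_, fun j hj => ?_, Γ.w0, (hn i.1).w1, ?_⟩
    · refine le_max_of_le_left (le_trans ?_ h1)
      refine Nat.cast_le_one.2
        ((ncard_le_ncard (t := {i}) fun j hj => ?_).trans (ncard_singleton _).le)
      exact Sw21.cs_eq (Option.get_mem hj)
    · obtain rfl := Sw21.cs_eq (Option.get_mem hj)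
      exact nb_mono (hn _) (le_max_of_le_left (hr _).1)
    · rw [show ((l.dt ty yt).cs Prod.fst i).thick 3 = ∅ from eq_empty_of_forall_notMem fun x hx =>
        hx i _ (Sw21.mem_cs.2 rfl) ⟨x, ⟨trivial, nofun, nofun⟩, rfl⟩, measure_empty]
      exact zero_le
  obtain ⟨a1, -, a3, a4⟩ := h W yt _ _ _ ok un rfl q (small_zero (hq _ trivial)) β y.1.2
    (fun j s k => by
      obtain rfl := Sw21.cs_inf.1 k
      exact ((Γ.rs _).gd _ (hβ s)).crit) y.2.2 hy.1.2.eq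
  refine ⟨(en_le hε a3 le_rfl (a4.trans ?_) (le_of_eq ?_)).trans
    (ENNReal.ofReal_le_ofReal (le_max_right _ _)), fun x => (a1 x).trans (le_max_left _ _)⟩
  · have h0 : ∀ a : ℝ, |a| ≤ 2 * Fintype.card (𝓔 × Sl) * r → C' * (1 + a) ≤
        |C'| * (1 + 2 * Fintype.card (𝓔 × Sl) * r) := fun a k =>
      (le_abs_self _).trans ((abs_mul _ _).trans_le (mul_le_mul_of_nonneg_left
        ((abs_add_le _ _).trans (by rw [abs_one]; linarith)) (abs_nonneg _)))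
    refine h0 _ (sum_ite_le (by linarith) fun j s k => ?_)
    obtain rfl := Sw21.cs_inf.1 k
    obtain ⟨x, e⟩ := hβ s
    rw [abs_abs, ← e, L_lf Γ (hty _)]
    exact (hr _).2 _
  · rw [zero_mul, neg_eq_zero]
    exact integral_eq_zero_of_ae (.of_forall (Mp86.En.kd0 (Γ.ok i.1).ok))

/-- **LV-BND** -/
theorem bndStmt (hA : AprStmt κ lam ν) (hL : LabStmt κ lam ν) (hF : FormStmt κ lam ν)
    (hG : GpwStmt κ lam ν) (hM : MkP mk) (hT : TowStmt G mk) (hI : IndStmt G mk) :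
    BndStmt G mk := by
  choose r h0 C hC h using core hA hG hM hT hI
  choose B C' hB using fun b => exists_LB hL b (h0 b)
  refine ⟨fun b => ⟨C b, fun g e hg => gev_mono (h b g e hg) fun _ _ _ _ _ p l Γ W yt τ q a β hβ y hy =>
    (a.sol β hβ y hy).2.2⟩, fun 𝓔 _ ty Sl _ hty l Γ => cyl_bd hA Sl hty l Γ,
    ⟨fun b e => C' b e + Fintype.card b.N * (B b e * r b), fun g hg h3 => gev_mono (h _ g rfl hg)
      fun _ _ _ _ _ p l Γ W yt τ q a β n hβ hn y hy E hE k e =>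
        a.pr hg (hB _ e) hβ hy hF (h0 _).le h3 hn hE k⟩, fun g hg i h3 k => ?_⟩
  obtain ⟨e, he⟩ := hg.1.lift i h3 k
  exact ⟨_, gev_mono (h _ g rfl hg) fun _ _ _ _ _ p l Γ W yt τ q a β n x hβ hn ⟨y, hy⟩ =>
    a.lift hg (hB _ e) hβ hy (hC _) h3 k he hn⟩

end Crest.Agent.X212.Sw88
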