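import Crest.Agent.X212.Sw88.Apr
import Crest.Agent.X212.Sw88.Bnd
import Crest.Agent.X212.Enw40.Main
import Crest.Agent.X212.Nka63.B
import Crest.Agent.X212.End23.Cor

/-!
# Row 212, lane END-S (helper88): EC-NSI, solutions on pieces are solutions on necks
-/

set_option autoImplicit false
set_option linter.unusedSectionVars false
noncomputable section
open scoped Manifold ContDiff Topology InnerProductSpace ENNReal
open MeasureTheory Set Function Filter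

namespace Crest.Agent.X212.Sw88
open An Cyf70 Sw Sw.En3 Sob92
open Wz78 (SA)
open Nd18 (Jv ct)
open M (Mf)
open End23 (rm NS ew)

variable {κ lam ν : Type} [Fintype κ] [Fintype lam] [Fintype ν] [DecidableEq ν]
  {X : Mf 4} {nc : ℕ}

section cyl
variable {e : En3 κ lam ν} {V : Type} [NormedAddCommGroup V] [NormedSpace ℝ V]

theorem Dw_sl' (w : List κ) {t : ℝ} : ∀ {f : e.Y.M × ℝ → V}, (∀ y, SA (IC e.Y.I) f (y, t)) → ∀ y,
    e.D.Z.Dw (w.map some) f (y, t) = e.D.F.Dw w (fun z => f (z, t)) y := by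
  induction w with
  | nil => exact fun _ _ => rfl
  | cons a w ih =>
    intro f h y
    have k : (fun z => e.D.Z.D (some a) f (z, t)) = e.D.F.D a fun z => f (z, t) :=
      funext fun z => D_some_at e.D.F.toPre (h z).md a
    exact (ih (fun z => Pb50.sa_D _ (h z) _) y).trans (by rw [k]; rfl)

theorem CB_rsmul {k : ℕ} {f : e.Y.M → V} {A : ℝ} (r : ℝ) (hf : Sm e.Y.I f) (h : e.D.F.CB k f A) :
    e.D.F.CB k (fun y => r • f y) (|r| * A) :=
  CB_mono (CB_clm (r • ContinuousLinearMap.id ℝ V) hf h) (mul_le_mul_of_nonneg_right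
    (ContinuousLinearMap.opNorm_le_bound _ (abs_nonneg r) fun v => (norm_smul r v).le)
    ((norm_nonneg _).trans (CB_bound h (Classical.arbitrary _))))

theorem sm_rsmul {f : e.Y.M → V} (r : ℝ) (hf : Sm e.Y.I f) : Sm e.Y.I fun y => r • f y :=
  (r • ContinuousLinearMap.id ℝ V).contMDiff.comp hf

theorem sa_rm (he : e.OK) {p q : Option ℝ} {A : e.ZC} (h : e.cyl.AdmOn A (univ ×ˢ Jv p q))
    {x : e.Y.M × ℝ} (hx : x.2 ∈ Jv p q) : SA (IC e.Y.I) (rm p q A) x := by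
  have l := Pb50.LA.of_on h Pb50.isOpen_prod (x := x) ⟨trivial, hx⟩
  have sζ : Sm (IC e.Y.I) fun x : e.Y.M × ℝ => e.ζ x.1 := sm_fst he.sζ
  have h1 := (cd_sl e.D.F.toPre Nd18.isOpen_Jv
    (g := fun x => 4 * ∑ k, e.ζ x.1 (none, some k) * A.a (some k) x) (contMDiffOn_const.mul
      (contMDiffOn_finsetSum fun k _ => ((PiLp.proj 2 _ (none, some k) :
        F2 κ →L[ℝ] ℝ).contMDiff.comp sζ).contMDiffOn.mul (h.sa _)))).contDiffAt
    (Nd18.isOpen_Jv.mem_nhds hx)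
  have h2 : ContDiffAt ℝ ∞ (fun t => ct p q 1 t * deriv e.f (hol (sl A t))) x.2 :=
    Nd18.contDiff_ct.contDiffAt.mul ((contDiff_infty_iff_deriv.1 he.sf).2.contDiffAt.comp _ h1)
  exact (Sep15.S.sa_eC he.cyl l.sa l.sΦ).add
    ((h2.contMDiffAt.comp x contMDiffAt_snd).smul (sζ x))

end cyl

section nk
variable {e : En3 κ lam ν} {b : Bg X.I X.M κ lam ν nc} (K : Nk e b)

theorem lint_pb {J : Set ℝ} (hJ : IsOpen J) (h : J ⊆ K.J) (g : X.M → ℝ≥0∞) :
    ∫⁻ x in univ ×ˢ J, g (K.ψ x) ∂e.D.Z.μ ≤ ∫⁻ x in K.ψ '' univ ×ˢ J, g x ∂b.F.μ := by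
  have s : univ ×ˢ J ⊆ K.ψ.source := fun x hx => K.mem_src.2 (h hx.2)
  have o := (K.ψ.isOpen_image_of_subset_source (isOpen_univ.prod hJ) s).measurableSet
  have m : MeasurableSet ((univ : Set e.Y.M) ×ˢ J) := (isOpen_univ.prod hJ).measurableSet
  calc _ = ∫⁻ x in K.ψ.source, (univ ×ˢ J).indicator (fun x => g (K.ψ x)) x ∂e.D.Z.μ := by
        rw [lintegral_indicator m, Measure.restrict_restrict m, inter_eq_left.2 s]
    _ ≤ ∫⁻ x in K.ψ.source, (K.ψ '' univ ×ˢ J).indicator g (K.ψ x) ∂e.D.Z.μ :=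
        lintegral_mono fun x => by
          by_cases hx : x ∈ univ ×ˢ J
          · simp only [indicator_of_mem hx, indicator_of_mem (mem_image_of_mem K.ψ hx), le_refl]
          · simp only [indicator_of_notMem hx, zero_le]
    _ = ∫⁻ y in K.ψ.target, (K.ψ '' univ ×ˢ J).indicator g y ∂b.F.μ :=
        Nka63.setLIntegral_comp K.iso _
    _ ≤ _ := (setLIntegral_le_lintegral _ _).trans (lintegral_indicator o _).le

theorem cb_sl {V : Type} [NormedAddCommGroup V] [NormedSpace ℝ V] {f : X.M → V} (hf : Sm X.I f)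
    {k : ℕ} {A t : ℝ} (h : b.F.CB k f A) (ht : t ∈ K.J) :
    Sm e.Y.I (fun y => f (K.ψ (y, t))) ∧ e.D.F.CB k (fun y => f (K.ψ (y, t))) A := by
  have s := fun y => Pb50.sa_ψ K (Pb50.src K ht y) (hf _)
  refine ⟨Pb50.sm_sl s, fun w hw y => ?_⟩
  rw [← Dw_sl' w s, ← Pb50.Dw_ψ K (Pb50.src K ht y)]
  exact h _ (by simpa using hw) _

end nk

section pc
variable {d : Dt κ lam ν} {N : Type} [Fintype N] {ty : N → d.𝓔} {P : Pc d X nc ty} (hP : P.OK)
  {q : d.W →₀ ℝ} {c : Sw.Cfg X.M κ ν} (hE : P.bg.EqOn (P.pt q) c univ) {i : N}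
  {K : Nk (d.e (ty i)) P.bg} (hK : K ∈ P.nk i) {x : (d.e (ty i)).Y.M × ℝ} (hx : x.2 ∈ K.J)
include hP hE hK hx

theorem eD_nk : (d.e (ty i)).cyl.eD (K.pb c) x = (ct K.p K.q 1 x.2 * (d.e (ty i)).b
    (nm (sl (K.pb c) x.2))) • (d.e (ty i)).m.ρ none x.1 ((K.pb c).Φ x) := by
  have hs := K.mem_src.2 hx
  rw [← Pb50.eD_ψ K hs, (hE _ trivial).1]
  refine (Pb50.sum_nk hP.toOK hK (K.ψ.map_source hs) (fun _ K' => K'.rad c (K.ψ x))
    fun j K' h => ?_).trans ?_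
  · rw [Nk.rad, K'.χ_zero h, zero_mul, zero_smul]
  · rw [Nk.rad, Nd18.Nk.χ, K.tm_ψ x hs, K.hρ _ x hs]
    rfl

theorem rm_nk : rm K.p K.q (K.pb c) x = q.sum fun w r => r • (P.fo w (K.ψ x) +
    (d.yt w (ty i)).elim 0 fun T => K.cut 1 x.2 • T.b (lb (K.pb c) x.2) • T.fo x.1) := by
  have hs := K.mem_src.2 hx
  have hz := K.ψ.map_source hs
  have h0 : P.p0.C c (K.ψ x) = -((ct K.p K.q 1 x.2 * deriv (d.e (ty i)).f
      (hol (sl (K.pb c) x.2))) • (d.e (ty i)).ζ x.1) := by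
    refine (Pb50.sum_nk hP.toOK hK hz (fun _ K' => K'.hl c (K.ψ x)) fun j K' h => ?_).trans ?_
    · rw [Nk.hl, K'.ext_zero _ h, smul_zero]
    · rw [Nk.hl, K.ext_ψ _ hs, K.tm_ψ x hs, neg_smul, smul_smul, mul_comm]
  rw [rm, ← Pb50.eC_ψ K hs, (hE _ trivial).2]
  change P.p0.C c (K.ψ x) + _ + _ = _
  rw [h0, add_right_comm, neg_add_cancel, zero_add]
  refine Finsupp.sum_congr fun w _ => ?_
  rw [Pc.tm, Pb50.sum_nk hP.toOK hK hz
    (fun j K' => (d.yt w (ty j)).elim 0 fun T => K'.ms T c (K.ψ x)) fun j K' h =>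
      Pb50.elim_zero fun T _ => by rw [Nk.ms, K'.ext_zero _ h, smul_zero]]
  congr 2
  exact Pb50.elim_congr fun T _ => by rw [Nk.ms, K.ext_ψ _ hs, K.tm_ψ x hs, smul_comm]

theorem rm_le (hc : P.bg.Adm c) {η : ℝ} {k : ℕ} (h : P.Small k η q) (w : List κ)
    (hw : w.length ≤ k) : ‖(d.e (ty i)).D.Z.Dw (w.map some) (rm K.p K.q (K.pb c)) x‖ ≤ 2 * η := by
  obtain ⟨y, t⟩ := x
  obtain ⟨s, h1, h2⟩ := h
  rw [Dw_sl' w fun z => sa_rm (hP.en i) (Pb50.admOn_pb K hc) hx,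
    funext fun z => rm_nk hP hE hK (x := (z, t)) hx]
  have k : ∀ v ∈ q.support, Sm (d.e (ty i)).Y.I (fun z => P.fo v (K.ψ (z, t)) + (d.yt v (ty i)).elim 0 fun T =>
      K.cut 1 t • T.b (lb (K.pb c) t) • T.fo z) ∧ (d.e (ty i)).D.F.CB k (fun z => P.fo v (K.ψ (z, t)) +
      (d.yt v (ty i)).elim 0 fun T => K.cut 1 t • T.b (lb (K.pb c) t) • T.fo z) (s v + s v) :=
    fun v hv => by
      obtain ⟨a1, a2⟩ := cb_sl K (hP.sf v) (h2 v hv).2.1 hx
      have a3 := (h2 v hv).2.2.2.2 i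
      generalize d.yt v (ty i) = o at a3 ⊢
      rcases o with _ | T
      · simpa using ⟨a1, CB_mono a2 (le_add_of_nonneg_right (h2 v hv).1)⟩
      have s1 := sm_rsmul (T.b (lb (K.pb c) t)) T.sf
      have s2 := sm_rsmul (K.cut 1 t) s1
      refine ⟨a1.add s2, CB_add a1 s2 a2 (CB_mono (CB_rsmul (K.cut 1 t) s1
        (a3 T rfl 0 k.zero_le (lb (K.pb c) t))) ?_)⟩
      rw [abs_of_nonneg Nd18.ct_mem.1]
      exact mul_le_of_le_one_left (h2 v hv).1 Nd18.ct_mem.2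
  refine (CB_sum q.support (fun v hv => sm_rsmul (q v) (k v hv).1)
    (fun v hv => CB_rsmul (q v) (k v hv).1 (k v hv).2) w hw y).trans ?_
  simp only [mul_add, Finset.sum_add_distrib]
  linarith [show ∑ v ∈ q.support, |q v| * s v ≤ η from h1]

end pc

variable (κ lam ν) in
/-- **EC-NSI** -/
theorem nsi : End23.NsiStmt κ lam ν := by
  intro C
  obtain ⟨C₁, h₁⟩ := Enw40.enw (κ := κ) (lam := lam) (ν := ν) fun j => max (C j) (2 + C 0 * C 0)
  refine ⟨|C 0| + |C₁| * (1 + |C 0|), fun d X nc N _ ty P hP η hη q hq c hc hE hn i hB hN K hK => ?_⟩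
  have a0 := Pb50.admOn_pb K hc
  have c0 : ENNReal.ofReal (C 0) ≤ ENNReal.ofReal (|C 0| + |C₁| * (1 + |C 0|)) :=
    ENNReal.ofReal_le_ofReal ((le_abs_self _).trans (le_add_of_nonneg_right (by positivity)))
  have e2 : en (K.pb c) (K.deep 2) ≤ ENNReal.ofReal (C 0) := by
    refine le_trans (le_trans ?_ le_add_self) hn
    refine le_trans ?_ (Finset.single_le_sum (fun _ _ => zero_le) (Finset.mem_univ i))
    rw [Option.mem_def.1 hK, Option.elim_some]
  refine ⟨K.len, a0, fun x hx => eD_nk hP hE hK hx.2, fun w hw x hx =>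
    rm_le hP hE hK hx.2 hc hq w (by omega), e2.trans c0, fun s hs => ?_⟩
  by_cases h : ∃ t ∈ Ioo (s - 1 / 8) (s + 1 / 8), t ∈ K.deep 3
  · obtain ⟨t, ht, h⟩ := h
    have w2 : win t ⊆ K.deep 2 := fun r hr => deep_near K h (abs_le.2 ⟨by linarith [hr.1],
      by linarith [hr.2]⟩)
    have wJ : (univ : Set (d.e (ty i)).Y.M) ×ˢ win t ⊆ univ ×ˢ K.J :=
      prod_mono_right fun r hr => Pb50.deep_J K two_pos (w2 hr)
    have k := h₁ _ (hP.en i) (bd_mono (X := (d.e (ty i)).Z) hB (fun _ => le_max_left _ _) _)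
      (nb_mono hN (le_max_left _ _)) (K.pb c) t ⟨fun j => (a0.sa j).mono wJ, a0.sΦ.mono wJ,
        fun j x hx => a0.pa j x (wJ hx), fun x hx => a0.pΦ x (wJ hx)⟩ fun x hx => by
      have o : ct K.p K.q 1 x.2 = 1 :=
        Nd18.ct_one (by rw [one_add_one_eq_two]; exact Pb50.deep_sub K (w2 hx.2))
      refine ⟨by rw [eD_nk hP hE hK (wJ hx).2, o, one_mul], le_max_of_le_right ?_⟩
      have r := rm_le hP hE hK (wJ hx).2 hc hq [] (Nat.zero_le _)
      rw [← add_sub_cancel_right ((d.e (ty i)).cyl.eC (K.pb c) x) ((ct K.p K.q 1 x.2 *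
        deriv (d.e (ty i)).f (hol (sl (K.pb c) x.2))) • (d.e (ty i)).ζ x.1)]
      refine (norm_sub_le _ _).trans (add_le_add (r.trans (by linarith)) ?_)
      rw [o, one_mul, norm_smul]
      exact mul_le_mul (hN.f _).2 (hN.ζ _) (norm_nonneg _) ((abs_nonneg _).trans (hN.f 0).2)
    refine (lintegral_mono_set (prod_mono_right (Ioo_subset_Ioo (by linarith [ht.2])
      (by linarith [ht.1])))).trans (k.trans ?_)
    refine le_trans ?_ (ENNReal.ofReal_le_ofReal (le_add_of_nonneg_left (abs_nonneg _)))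
    rw [ENNReal.ofReal_mul (abs_nonneg _), ENNReal.ofReal_add zero_le_one (abs_nonneg _),
      ENNReal.ofReal_one]
    exact mul_le_mul' (ENNReal.ofReal_le_ofReal (le_abs_self _)) (add_le_add le_rfl
      ((lintegral_mono_set w2).trans (e2.trans (ENNReal.ofReal_le_ofReal (le_abs_self _)))))
  · refine le_trans ?_ ((le_self_add.trans hn).trans c0)
    refine le_trans ?_ ((lint_pb K isOpen_Ioo hs _).trans (lintegral_mono_set ?_))
    · exact (setLIntegral_congr_fun (isOpen_univ.prod isOpen_Ioo).measurableSet fun x hx => by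
        simp only [Pb50.ed_ψ K (K.mem_src.2 (hs hx.2))]).le
    · rintro _ ⟨x, hx, rfl⟩ j K' hK' ⟨z, hz, e⟩
      have s1 := K.mem_src.2 (hs hx.2)
      have s2 := K'.mem_src.2 (Pb50.deep_J K' three_pos hz.2)
      by_cases ij : i = j
      · subst ij
        obtain rfl := Option.mem_unique hK hK'
        exact h ⟨x.2, hx.2, K.ψ.injOn s2 s1 e ▸ hz.2⟩
      · exact disjoint_left.1 (hP.dj ij K hK K' hK') (K.ψ.map_source s1) (e ▸ K'.ψ.map_source s2)

end Crest.Agent.X212.Sw88
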