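import Crest.Agent.X212.Sw.Lv
import Crest.Agent.X212.Sw88.Wz

/-!
# Row 212, layer AN-S (helper88): bounds that are uniform in the level (leaves)

`AprStmt` : a priori bounds.  `LevStmt` : levels of critical points.  `DruStmt` : drift of the
holonomy.  `WpStmt`, `GpwStmt`, `FluxStmt` : the gradient on ends with positive scalar curvature.
`FormStmt`, `LabStmt`, `OccStmt` : labels.
-/

set_option autoImplicit false
set_option linter.unusedSectionVars false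
noncomputable section
open scoped Manifold ContDiff Topology InnerProductSpace
open MeasureTheory Set Function Filter

namespace Crest.Agent.X212.Sw88
open An Cyf70 Sw Sw.En3
open Nd18 (Jv)
open M (Mf)

variable {κ lam ν : Type} [Fintype κ] [Fintype lam] [Fintype ν] [DecidableEq ν]

section defs
variable {X : Mf 4} {nc : ℕ} {N : Type} [Fintype N] {e : N → En3 κ lam ν}

/-- uniform bounds of a piece -/
structure Uni (P : Pz X nc e) (C : ℕ → ℝ) : Prop where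
  bd : P.bg.Bd C
  nn : ({i | (P.nk i).isSome}.ncard : ℝ) ≤ C 0
  nb : ∀ i, (P.nk i).isSome → (e i).Nb (C 0)
  w0 : 0 < P.bg.w
  w1 : P.bg.w ≤ 1
  vol : P.bg.F.μ (P.thick 3) ≤ ENNReal.ofReal (C 0)

/-- the pairing `∫ f ∧ η` -/
def wd (b : Bg X.I X.M κ lam ν nc) (f η : X.M → F2 κ) : ℝ :=
  ∫ x, ⟪f x, idx (b.B.st x) (ContinuousLinearMap.id ℝ ℝ) (η x)⟫_ℝ ∂b.F.μ

/-- the differential of a one-form -/
def dd (b : Bg X.I X.M κ lam ν nc) (a : Option κ → X.M → ℝ) (x : X.M) : F2 κ :=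
  WithLp.toLp 2 fun s =>
    b.F.D s.1 (a s.2) x - b.F.D s.2 (a s.1) x - ∑ j, b.F.c s.1 s.2 j x * a j x

/-- a test form on a piece -/
structure TF (P : Pz X nc e) (η : X.M → F2 κ) (r : N → ℝ) (B : ℝ) : Prop where
  sm : Sm X.I η
  bd : ∀ x, ‖η x‖ ≤ B
  rb : ∀ i, |r i| ≤ B
  cl : ∀ a : Option κ → X.M → ℝ, (∀ i, Sm X.I (a i) ∧ HasCompactSupport (a i)) →
    (∀ i x, ∑ j, P.bg.B.P i j x * a j x = a i x) → wd P.bg (dd P.bg a) η = 0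
  nk : ∀ i, ∀ K ∈ P.nk i, ∀ y, ∀ s ∈ K.deep 1, ∀ a a',
    η (K.ψ (y, s)) (a, a') = if a.isSome ∧ a'.isSome then r i * (e i).ζ y (a, a') else 0

open Classical in
/-- the holonomies of the limits -/
def hs (P : Pz X nc e) (r : N → ℝ) (β : BCs e) : ℝ :=
  ∑ i, ∑ s, if P.Inf i s then M.pm s * r i * hol (β i s) else 0

/-- a function that increases by one on every interval of length `l` -/
structure Stp (φ : ℝ → ℝ) (l : ℝ) : Prop where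
  sm : ContDiff ℝ 1 φ
  d : ∀ r, 0 ≤ deriv φ r ∧ deriv φ r ≤ 1
  up : ∀ r, φ r + 1 ≤ φ (r + l)

/-- the gradient is large on the slices whose holonomy lies in a relatively dense set -/
def Gp (e : En3 κ lam ν) (ε l : ℝ) : Prop := (∀ v : e.YC, hol v = 0) ∨ ∃ φ, Stp φ l ∧
  ∀ v : e.YC, e.cyl.Adm (fz v) → deriv φ (hol v) ≠ 0 → ε ≤ gn v

/-- the same for reducible slices -/
def Gr (e : En3 κ lam ν) (ε l : ℝ) : Prop := (∀ v : e.YC, hol v = 0) ∨ ∃ φ, Stp φ l ∧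
  ∀ v : e.YC, e.cyl.Adm (fz v) → v.Φ = 0 → deriv φ (hol v) ≠ 0 → ε ≤ gn v

/-- the spinor does not decrease the gradient -/
def Wp (e : En3 κ lam ν) (σ : ℝ) : Prop :=
  ∀ v : e.YC, e.cyl.Adm (fz v) → gn (⟨v.a, 0⟩ : e.YC) / 2 + σ * nm v ≤ gn v

/-- the square of the norm of `ζ` -/
def zz (e : En3 κ lam ν) : ℝ := ∫ y, ∑ k, e.ζ y (none, some k) ^ 2 ∂e.D.F.μ

/-- the flux -/
def flux (e : En3 κ lam ν) : ℝ :=
  ∫ y, ∑ k, e.ζ y (none, some k) * e.cyl.eC ⟨0, 0⟩ (y, 0) (none, some k) ∂e.D.F.μ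

end defs

variable (κ lam ν)

/-- SW-APR: a priori bounds; `ε`, `C'` do not depend on the level -/
def AprStmt : Prop := ∀ C : ℕ → ℝ, ∃ ε > 0, ∃ C' : ℝ,
  ∀ (𝓔 : Type) (e : 𝓔 → En3 κ lam ν) (N : Type) [Fintype N] (ty : N → 𝓔),
  (∀ i, ∃ g : (e (ty i)).Gen, g.OK) → ∀ w, ∃ η > 0, ∃ C'' : ℝ, ∀ W yt (X : Mf 4) (nc : ℕ)
    (P : Pc ⟨𝓔, e, W, yt⟩ X nc ty), P.OK → Uni P.toPz C →
    P.bg.w = w → ∀ q, P.Small 0 η q → ∀ y c, P.Cr y → P.As y c → P.bg.EqOn (P.pt q) c univ →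
      (∀ x, ‖c.Φ x‖ ≤ C'') ∧ (∀ x, ‖P.bg.eC c x - P.p0.C c x‖ ≤ 1) ∧ P.ean c ≠ ⊤ ∧
        ε * (P.ean c).toReal + P.bg.k2 ≤ C' * (1 + P.lev y)

/-- SW-LEV: the levels of the critical points -/
def LevStmt : Prop := ∀ (e : En3 κ lam ν) (C : ℕ → ℝ), e.OK → Bg.Bd (X := e.Z) e.cyl C → ∃ C' : ℝ,
  ∀ w β S ψ, (e.re w β S ψ).OK → (e.re w β S ψ).Nb (C 0) → (e.re w β S ψ).Inv →
    ∀ v : (e.re w β S ψ).YC, Crit v → |L v| ≤ C'

/-- SW-DRU: the drift of the holonomy -/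
def DruStmt : Prop := ∀ C ε l : ℝ, 0 < ε → 0 < l → ∃ C' : ℝ, ∀ e : En3 κ lam ν, e.OK → e.Nb C →
  Gp e ε l → ∀ (c : e.ZC) p p', e.cyl.AdmOn c (univ ×ˢ Jv p p') →
    (∀ x ∈ univ ×ˢ Jv p p', ‖e.cyl.eC c x + deriv e.f (hol (sl c x.2)) • e.ζ x.1‖ ≤ 1) →
    en c (Jv p p') ≠ ⊤ → ∀ t ∈ Jv p p', ∀ t' ∈ Jv p p',
      |hol (sl c t) - hol (sl c t')| ≤ C' * (1 + (en c (Jv p p')).toReal)

/-- SW-WP: positive scalar curvature -/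
def WpStmt : Prop := ∀ (e : En3 κ lam ν) (σ : ℝ), e.OK → e.w = 1 → e.b = 0 →
  (∀ y r, σ + ‖e.cyl.ms (y, 0)‖ ^ 2 + ‖e.om y - deriv e.f r • e.ζ y‖ / 2 ≤ sc e.cyl (y, 0) / 8) →
  Wp e σ

/-- SW-GPW: passage to a level -/
def GpwStmt : Prop := ∀ (e : En3 κ lam ν) (ε l : ℝ), e.OK → e.w = 1 → e.b = 0 → Wp e 0 →
  Gr e (8 * ε) l → ∀ w β S ψ, (e.re w β S ψ).OK → (∀ r, w * β r ^ 2 ≤ ε) → Gp (e.re w β S ψ) ε l

/-- SW-FLUX: the gradient at reducible slices -/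
def FluxStmt : Prop := ∀ e : En3 κ lam ν, e.OK → (e.Clo fun k y => e.ζ y (none, some k)) →
  (∀ v : e.YC, e.cyl.Adm (fz v) → v.Φ = 0 →
    8 * (flux e + deriv e.f (hol v) * zz e) ^ 2 ≤ zz e * gn v) ∧
  (flux e = 0 → ∀ l, 0 < l → Periodic (deriv e.f) l → deriv e.f ≠ 0 →
    ∃ ε > 0, ∃ l' > 0, Gr e ε l')

/-- SW-FORM: the label of a base configuration -/
def FormStmt : Prop := ∀ (N : Type) [Fintype N] (e : N → En3 κ lam ν) (X : Mf 4) (nc : ℕ)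
  (P : Pz X nc e), P.OK → ∀ η r B, TF P η r B → ∀ β : BCs e,
    (∀ i s, P.Inf i s → (e i).cyl.Adm (fz (β i s))) →
    wd P.bg (P.bg.fc (P.base β)) η = wd P.bg (P.bg.fc ⟨0, 0⟩) η + hs P r β / 2

/-- SW-LAB: the energy bounds the label -/
def LabStmt : Prop := ∀ (C : ℕ → ℝ) (ε l B : ℝ), 0 < ε → 0 < l → ∃ C' : ℝ,
  ∀ (N : Type) [Fintype N] (e : N → En3 κ lam ν) (X : Mf 4) (nc : ℕ) (P : Pz X nc e), P.OK →
    Uni P C → (∀ i, (P.nk i).isSome → Gp (e i) ε l) → ∀ η r, TF P η r B → ∀ y c, P.Cr y →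
    P.As y c → (∀ x, ‖P.bg.eC c x - P.p0.C c x‖ ≤ 1) → P.ean c ≠ ⊤ →
    |wd P.bg (P.bg.fc ⟨0, 0⟩) η + hs P r y / 2| ≤ C' * (1 + (P.ean c).toReal)

/-- SW-OCC: the holonomy of a middle point on a finite neck -/
def OccStmt : Prop := ∀ C ε l B : ℝ, 0 < ε → 0 < l → ∃ C' : ℝ,
  ∀ (d : Dt κ lam ν) [Fintype d.𝓔] (Sl : Type) [Fintype Sl] (X : Mf 4) (nc nr : ℕ) (T : Type)
    [NormedAddCommGroup T] [NormedSpace ℝ T] [FiniteDimensional ℝ T] (s : StS d Sl X)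
    (σ : Cel s nc nr T), σ.OK → ∀ j, s.nk j = none → σ.HolB j B → (d.e j.1).Nb C →
    Gp (d.e j.1) ε l → ∀ (ι : Type) (𝒰 : Ultrafilter ι) q y ρ v τ (E : ℝ), 0 ≤ E → σ.PS 𝒰 q y ρ →
    (∀ᶠ i in (𝒰 : Filter ι), σ.Sm (1 / 2) (q i) ∧ (σ.P (y i).1.1).ean (y i).1.2 ≤ ENNReal.ofReal E) →
    (d.e j.1).cyl.Adm (fz v) → σ.Win 𝒰 y ρ j v τ → |hol v| ≤ C' * (1 + E)

end Crest.Agent.X212.Sw88
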