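import Crest.Agent.X212.Flo2.Plc
import Crest.Agent.X212.Sw88.Bn
import Crest.Agent.X212.Dr9.Hol

/-!
# Row 212, layer AN-S (helper88): bounds on the types of necks, uniform in the level and the class
-/

set_option autoImplicit false
set_option linter.unusedSectionVars false
noncomputable section
open scoped Manifold ContDiff Topology InnerProductSpace
open MeasureTheory Set Function Filter

namespace Crest.Agent.X212.Sw88
open An Cyf70 Sw Sw.En3 Flo2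

variable {κ lam ν : Type} [Fintype κ] [Fintype lam] [Fintype ν] [DecidableEq ν]

section mono
variable {e : En3 κ lam ν} {C C' ε ε' l l' : ℝ} {φ : ℝ → ℝ}

theorem nb_mono (h : e.Nb C) (hC : C ≤ C') : e.Nb C' :=
  ⟨h.w0, h.w1, h.wb, fun r => ⟨(h.f r).1.trans hC, (h.f r).2.trans hC⟩, fun y => (h.ζ y).trans hC,
    h.vol.trans (ENNReal.ofReal_le_ofReal hC), fun v hv => (h.om v hv).trans
      (mul_le_mul_of_nonneg_right hC (add_nonneg zero_le_one (Real.sqrt_nonneg _)))⟩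

theorem Stp.mono (h : Stp φ l) (hl : l ≤ l') : Stp φ l' :=
  ⟨h.sm, h.d, fun r => (h.up r).trans (monotone_of_deriv_nonneg (h.sm.differentiable one_ne_zero)
    (fun r => (h.d r).1) (by linarith))⟩

theorem Gr.mono (h : Gr e ε l) (h1 : ε' ≤ ε) (h2 : l ≤ l') : Gr e ε' l' :=
  h.imp_right fun ⟨φ, k1, k2⟩ => ⟨φ, k1.mono h2, fun v a b c => h1.trans (k2 v a b c)⟩

theorem gr_id (h : ∀ v : e.YC, e.cyl.Adm (fz v) → v.Φ = 0 → ε ≤ gn v) : Gr e ε 1 :=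
  .inr ⟨id, ⟨contDiff_id, by simp, fun _ => le_rfl⟩, fun v a b _ => h v a b⟩

theorem hol_zero (h : e.ζ = 0) (v : e.YC) : hol v = 0 := by simp [hol, h]

theorem adm_zero : e.cyl.Adm (fz (⟨0, 0⟩ : e.YC)) := by
  have : fz (⟨0, 0⟩ : e.YC) = ⟨0, 0⟩ := Cfg.ext (funext fun i => by cases i <;> rfl) rfl
  rw [this]
  exact ⟨fun _ => contMDiff_const, contMDiff_const, by simp, by simp⟩

theorem hol_yact (he : e.OK) {u : e.Y.M → ℂ} (hu : Gau e.Y.I u) {v : e.YC} (hv : e.cyl.Adm (fz v)) :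
    hol (v.act u) = hol v + hol (YC.act (e := e) u ⟨0, 0⟩) := by
  rw [Dr9.hol_act he hv hu.1 (fz_act hu v), Dr9.hol_act he adm_zero hu.1 (fz_act hu _)]
  simp [hol, sub_eq_add_neg]

end mono

theorem bm_sq (μ : ℝ) : ∃ B > 0, ∀ r, bm μ r ^ 2 ≤ B := by
  have h0 := expNegInvGlue.pos_of_pos one_pos
  refine ⟨(μ / expNegInvGlue 1) ^ 2 + 1, by positivity, fun r => ?_⟩
  have h1 : expNegInvGlue (1 - r) ≤ 1 := by
    unfold expNegInvGlue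
    split_ifs with h
    · exact zero_le_one
    · exact Real.exp_le_one_iff.2 (neg_nonpos.2 (inv_nonneg.2 (not_le.1 h).le))
  have h2 : expNegInvGlue (1 - r) ^ 2 ≤ 1 := pow_le_one₀ (expNegInvGlue.nonneg _) h1
  rw [bm, ← mul_div_assoc, mul_div_right_comm, mul_pow]
  nlinarith [sq_nonneg (μ / expNegInvGlue 1)]

variable {𝓔 : Type} [Fintype 𝓔] {ty : 𝓔 → Ty κ lam ν}

theorem ev_w {δ : ℝ} (hδ : 0 < δ) :
    Ev ty fun l _ => l.w ≤ 1 ∧ ∀ r, l.w * bm l.μ r ^ 2 ≤ δ := by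
  refine ⟨0, fun μ _ => ?_⟩
  obtain ⟨B, h0, hB⟩ := bm_sq μ
  refine ⟨min 1 (δ / B), by positivity, fun l h1 h2 _ => ⟨h2.trans (min_le_left _ _), fun r => ?_⟩⟩
  rw [h1]
  refine (mul_le_mul_of_nonneg_right (h2.trans (min_le_right _ _)) (sq_nonneg _)).trans ?_
  exact (mul_le_mul_of_nonneg_left (hB r) (by positivity)).trans_eq (div_mul_cancel₀ _ h0.ne')

/-- the bounds at one level -/
structure Gd1 (r : ℝ) (k : Kd) {e : En3 κ lam ν} (g : e.Gen) : Prop where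
  nb : e.Nb r
  lv : ∀ i, |L (g.x i)| ≤ r ∧ |hol (g.x i)| ≤ r
  gp : Gp e r⁻¹ r
  dead : k = .dead → IsEmpty g.ι

/-- the bounds at all levels -/
def Gdn (r : ℝ) (ε : Ty κ lam ν) : Prop :=
  Ev (fun _ : Unit => ε) fun _ Γ => Gd1 r ε.1.kd (Γ.g ())

/-- what is used of the marks -/
structure MkP (mk : Mk κ lam ν) : Prop where
  tor : ∀ ε : Ty κ lam ν, ε.1.OK mk → ε.1.kd = .tor → Wp ε.en 0 ∧ ∃ δ > 0, ∃ l, Gr ε.en δ l
  dead : ∀ ε : Ty κ lam ν, ε.1.OK mk → ε.1.kd = .dead → Wp ε.en 0 ∧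
    ∃ δ > 0, ∀ v : ε.en.YC, ε.en.cyl.Adm (fz v) → v.Φ = 0 → δ ≤ gn v

variable {G : Flo2.Gr κ lam ν} {mk : Mk κ lam ν} (hG : GpwStmt κ lam ν) (hM : MkP mk)
  (hT : TowStmt G mk)

include hG in
theorem gp_ev {ε : Ty κ lam ν} (h : ε.en.OK) (hW : Wp ε.en 0) {r : ℝ} (hr : 0 < r)
    (k : Gr ε.en (8 * r⁻¹) r) : Ev (fun _ : Unit => ε) fun l _ => Gp (l.e (fun _ => ε) ()) r⁻¹ r :=
  (ev_w (inv_pos.2 hr)).mono fun _ Γ a => hG _ _ _ h rfl rfl hW k _ _ _ _ (Γ.ok ()).ok a.2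

include hG hM hT

theorem gdn_ev {ε : Ty κ lam ν} (h : ε.1.OK mk) : ∀ᶠ r in atTop, Gdn r ε := by
  obtain ⟨w₀, N, T⟩ := hT _ h
  obtain ⟨C, hC⟩ := (T ε.2).lev
  have k : ∀ δ > 0, ∀ l, Wp ε.en 0 → Gr ε.en δ l → ∀ᶠ r : ℝ in atTop,
      Ev (fun _ : Unit => ε) fun l _ => Gp (l.e (fun _ => ε) ()) r⁻¹ r := fun δ h0 l h1 h2 => by
    filter_upwards [eventually_gt_atTop 0, eventually_ge_atTop l, eventually_ge_atTop (8 / δ)]
      with r a b c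
    refine gp_ev hG (h.ok _) h1 a (h2.mono ?_ b)
    rwa [← div_eq_mul_inv, div_le_comm₀ a h0]
  have gp : ∀ᶠ r : ℝ in atTop,
      Ev (fun _ : Unit => ε) fun l _ => Gp (l.e (fun _ => ε) ()) r⁻¹ r := by
    rcases e : ε.1.kd with _ | _ | _
    · exact .of_forall fun r => .of_forall fun l _ => .inl (hol_zero (h.qhs e).2.2.1)
    · obtain ⟨h1, δ, h0, l, h2⟩ := hM.tor ε h e
      exact k δ h0 l h1 h2
    · obtain ⟨h1, δ, h0, h2⟩ := hM.dead ε h e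
      exact k δ h0 1 h1 (gr_id h2)
  have dd : Ev (fun _ : Unit => ε) fun _ Γ => ε.1.kd = .dead → IsEmpty (Γ.g ()).ι := by
    by_cases e : ε.1.kd = .dead
    · exact ((T ε.2).dead e).mono fun _ _ a _ => a
    · exact .of_forall fun _ _ a => (e a).elim
  filter_upwards [gp, eventually_ge_atTop C] with r a b
  exact ((hC.and a).and dd).mono fun l Γ c => ⟨nb_mono c.1.1.1 b,
    fun i => ⟨(c.1.1.2 i).1.trans b, (c.1.1.2 i).2.trans b⟩, c.1.2, c.2⟩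

theorem gdn_dead (eg : EG κ lam) : ∀ᶠ r in atTop, ∀ (ec : EC ν eg) (c : ec.L),
    End.OK mk ⟨eg, ec⟩ → ec.kd = .dead → (∀ v : (End.en ⟨eg, ec⟩ c).YC,
      (End.en ⟨eg, ec⟩ c).cyl.Adm (fz v) → v.Φ = 0 → 8 < gn v) → Gdn r ⟨⟨eg, ec⟩, c⟩ := by
  by_cases hζ : Continuous eg.ζ
  swap
  · exact .of_forall fun _ _ c h => (hζ (h.ok c).sζ.continuous).elim
  obtain ⟨C, hC⟩ := isCompact_univ.exists_bound_of_continuousOn hζ.continuousOn
  filter_upwards [eventually_ge_atTop 1, eventually_ge_atTop C,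
    eventually_ge_atTop (eg.D.F.μ univ).toReal] with r h1 h2 h3 ec c h e k
  obtain ⟨w₀, N, T⟩ := hT _ h
  have h0 : 0 < r := one_pos.trans_le h1
  obtain ⟨-, hf, ho⟩ := h.dead e
  refine ((((T c).dead e).and (ev_w one_pos)).and (gp_ev hG (ε := ⟨⟨eg, ec⟩, c⟩) (h.ok _)
    (hM.dead ⟨⟨eg, ec⟩, c⟩ h e).1 h0 ((gr_id fun v a b => (k v a b).le).mono ?_ h1))).mono
    fun l Γ a => ⟨⟨(Γ.ok ()).w, a.1.2.1, a.1.2.2, fun s => ?_, fun y => (hC y trivial).trans h2,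
      ENNReal.le_ofReal_iff_toReal_le isCompact_univ.measure_lt_top.ne h0.le |>.2 h3, fun v _ => ?_⟩,
      fun i => (a.1.1.false i).elim, a.2, fun _ => a.1.1⟩
  · have := inv_le_one_of_one_le₀ h1
    linarith
  · show |ec.f s| ≤ r ∧ |deriv ec.f s| ≤ r
    rw [show ec.f = 0 from hf]
    simpa using h0.le
  · show |∫ y, ∑ k, ec.om c y (none, some k) * v.a k y ∂_| ≤ _
    rw [show ec.om = 0 from ho]
    refine le_trans (le_of_eq ?_) (mul_nonneg h0.le (add_nonneg zero_le_one (Real.sqrt_nonneg _)))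
    simp only [Pi.zero_apply, PiLp.zero_apply, zero_mul, Finset.sum_const_zero, abs_eq_zero]
    exact integral_zero _ _

theorem gdn_base (b : Bs κ lam ν) : ∀ᶠ r in atTop, ∀ g : Gc κ lam ν, g.toBs = b → g.Gd mk →
    ∀ i, Gdn r (g.ty i) := by
  have : ∀ i, ∀ᶠ r in atTop, {e ∈ b.ens i | e.kd ≠ .dead ∨ ∃ c, ∃ v : (End.en ⟨b.eg i, e⟩ c).YC,
      (End.en ⟨b.eg i, e⟩ c).cyl.Adm (fz v) ∧ v.Φ = 0 ∧ gn v ≤ 8}.Finite → ∀ ec ∈ b.ens i, ∀ c,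
      End.OK mk ⟨b.eg i, ec⟩ → Gdn r ⟨⟨b.eg i, ec⟩, c⟩ := fun i => by
    by_cases hF : {e ∈ b.ens i | e.kd ≠ .dead ∨ ∃ c, ∃ v : (End.en ⟨b.eg i, e⟩ c).YC,
      (End.en ⟨b.eg i, e⟩ c).cyl.Adm (fz v) ∧ v.Φ = 0 ∧ gn v ≤ 8}.Finite
    swap
    · exact .of_forall fun _ h => (hF h).elim
    have k : ∀ (ec : EC ν (b.eg i)), ∀ᶠ r in atTop, ∀ c, End.OK mk ⟨b.eg i, ec⟩ →
        Gdn r ⟨⟨b.eg i, ec⟩, c⟩ := fun ec => eventually_all.2 fun c => by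
      by_cases h : End.OK mk ⟨b.eg i, ec⟩
      · exact (gdn_ev hG hM hT (ε := ⟨⟨b.eg i, ec⟩, c⟩) h).mono fun _ a _ => a
      · exact .of_forall fun _ a => (h a).elim
    filter_upwards [(eventually_all_finite hF).2 fun ec _ => k ec, gdn_dead hG hM hT (b.eg i)]
      with r h1 h2 _ ec h3 c h
    by_contra h4
    refine h4 (h1 ec ⟨h3, ?_⟩ c h)
    by_contra! h5
    exact h4 (h2 ec c h h5.1 (h5.2 c))
  filter_upwards [eventually_all.2 this] with r h g e hg i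
  subst e
  exact h i ((hg.1.ens i).2 8) _ (hg.1.ens i).1 _ (hg.2 i)

omit hG hM hT

theorem gdn_plc {Sl : Type} [Fintype Sl] {g : Gc κ lam ν} (p : Plc ty Sl g) {r : ℝ}
    (h : ∀ i, Gdn r (g.ty i)) :
    Ev ty fun _ Γ => ∀ i, Gd1 r (ty (p.ι i).1).1.kd (Γ.g (p.ι i).1) :=
  .all fun i => Ev.at (p.ι i).1 (show Gdn r (ty (p.ι i).1) from (p.ty i).symm ▸ h i)

/-! ### lifts -/

/-- the periods -/
def per (ε : Ty κ lam ν) (n : ℤ) : ℝ := hol (YC.act (e := ε.en) (fun y => ε.1.u y ^ n) ⟨0, 0⟩)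

theorem per_eq {ε : Ty κ lam ν} (h : ε.1.OK mk) (n : ℤ) : per ε n = n * per ε 1 := by
  have k : ∀ a b, per ε (a + b) = per ε a + per ε b := fun a b => by
    rw [per, ← act_zpow (e := ε.en) (h.ok _) h.u, hol_yact (h.ok _) (gau_zpow h.u b)
      (Pb50.Eqv.adm (h.ok _) adm_zero (eqv_act (gau_zpow h.u a) _))]
    rfl
  have := map_zsmul (AddMonoidHom.mk' (per ε) k) n 1
  simpa using this

variable {l : Lv 𝓔} (Γ : l.Cx ty) {ε : 𝓔} (h : (ty ε).1.OK mk) (n : ℤ) (x : (Γ.g ε).ι)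
include h

theorem hol_lf : hol (Γ.lf ε n x) = hol ((Γ.g ε).x x) + per (ty ε) n :=
  hol_yact (Γ.ok ε).ok (gau_zpow (e := l.e ty ε) h.u n) ((Γ.ok ε).crit (.inl x)).1

theorem L_lf : L (Γ.lf ε n x) = L ((Γ.g ε).x x) :=
  (Γ.ok ε).inv ⟨.inl x⟩ _ _ ((Γ.ok ε).crit (.inl x)).1 (eqv_act (gau_zpow (e := l.e ty ε) h.u n) _)

include Γ x in
theorem per_ne (e : (ty ε).1.kd = .tor) : per (ty ε) 1 ≠ 0 := fun h0 => by
  refine infinite_range_of_injective (f := fun n => Γ.lf ε n x) (fun a b k => ?_)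
    (((Γ.rs ε).fin |hol ((Γ.g ε).x x)|).subset ?_)
  · exact congrArg Prod.fst (Γ.inj ε e (a₁ := (a, x)) (a₂ := (b, x)) k)
  · rintro _ ⟨n, rfl⟩
    exact ⟨⟨(n, x), rfl⟩, by simp only [hol_lf Γ h, per_eq h n, h0, mul_zero, add_zero, le_refl]⟩

end Crest.Agent.X212.Sw88
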