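import Crest.Agent.X212.Sw88.Bn
import Crest.Agent.X212.Sw88.C0
import Crest.Agent.X212.Sep15.Mono
import Crest.Agent.X212.Win45.Gap
import Crest.Agent.X212.Pb50.Main

/-!
# Row 212, layer AN-S (helper88): SW-APR, a priori bounds
-/

set_option autoImplicit false
set_option linter.unusedSectionVars false
noncomputable section
open scoped Manifold ContDiff Topology InnerProductSpace ENNReal
open MeasureTheory Set Function Filter

namespace Crest.Agent.X212.Sw88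
open An Cyf70 Sw Sw.En3 Sob92
open Nd18 (Jv)
open M (Mf)

variable {κ lam ν : Type} [Fintype κ] [Fintype lam] [Fintype ν] [DecidableEq ν]
  {X : Mf 4} {nc : ℕ}

section nk
variable {e : En3 κ lam ν} {b : Bg X.I X.M κ lam ν nc} (K : Nk e b)

theorem lint_img {J : Set ℝ} (hJ : IsOpen J) (h : J ⊆ K.J) (g : X.M → ℝ≥0∞) :
    ∫⁻ x in K.ψ '' univ ×ˢ J, g x ∂b.F.μ ≤ ∫⁻ x in univ ×ˢ J, g (K.ψ x) ∂e.D.Z.μ := by
  have s : univ ×ˢ J ⊆ K.ψ.source := fun x hx => K.mem_src.2 (h hx.2)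
  have o := (K.ψ.isOpen_image_of_subset_source (isOpen_univ.prod hJ) s).measurableSet
  have m : MeasurableSet ((univ : Set e.Y.M) ×ˢ J) := (isOpen_univ.prod hJ).measurableSet
  have t : K.ψ '' univ ×ˢ J ⊆ K.ψ.target := by
    rintro _ ⟨x, hx, rfl⟩
    exact K.ψ.map_source (s hx)
  calc _ = ∫⁻ x in K.ψ.target, (K.ψ '' univ ×ˢ J).indicator g x ∂b.F.μ := by
        rw [lintegral_indicator o, Measure.restrict_restrict o, inter_eq_left.2 t]
    _ ≤ ∫⁻ x in K.ψ.source, (K.ψ '' univ ×ˢ J).indicator g (K.ψ x) ∂e.D.Z.μ := by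
        rw [← K.iso.μ]
        exact lintegral_map_le _ _
    _ ≤ ∫⁻ x in K.ψ.source, (univ ×ˢ J).indicator (fun x => g (K.ψ x)) x ∂e.D.Z.μ :=
        setLIntegral_mono' K.ψ.open_source.measurableSet fun x hx => by
          by_cases k : K.ψ x ∈ K.ψ '' univ ×ˢ J
          · obtain ⟨z, hz, e⟩ := id k
            rw [indicator_of_mem k, indicator_of_mem (K.ψ.injOn (s hz) hx e ▸ hz)]
          · rw [indicator_of_notMem k]
            exact zero_le
    _ ≤ _ := (setLIntegral_le_lintegral _ _).trans (lintegral_indicator m _).le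

theorem mem_deep {r t : ℝ} : t ∈ K.deep r ↔ (∀ a ∈ K.p, a + r < t) ∧ ∀ a ∈ K.q, t < a - r := by
  simp only [Nk.deep, Jv, mem_ofPred_eq, Option.mem_def, Option.map_eq_some_iff]
  exact ⟨fun h => ⟨fun a ha => h.1 _ ⟨a, ha, rfl⟩, fun a ha => h.2 _ ⟨a, ha, rfl⟩⟩,
    fun h => ⟨fun _ ⟨a, ha, e⟩ => e ▸ h.1 a ha, fun _ ⟨a, ha, e⟩ => e ▸ h.2 a ha⟩⟩

theorem deep_near {r r' s t : ℝ} (h : t ∈ K.deep r) (k : |s - t| ≤ r - r') : s ∈ K.deep r' := by
  rw [mem_deep] at h ⊢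
  rw [abs_le] at k
  exact ⟨fun a ha => by linarith [h.1 a ha], fun a ha => by linarith [h.2 a ha]⟩

end nk

section pz
variable {N : Type} [Fintype N] {e : N → En3 κ lam ν} {P : Pz X nc e} (hP : P.OK) {i : N}
  {K : Nk (e i) P.bg} (hK : K ∈ P.nk i) (c : Sw.Cfg X.M κ ν) {x : (e i).Y.M × ℝ}
  (hx : x.2 ∈ K.deep 2)
include hP hK hx

theorem p0D_ψ : P.p0.D c (K.ψ x) =
    (e i).b (nm (sl (K.pb c) x.2)) • (e i).m.ρ none x.1 ((K.pb c).Φ x) := by
  have hs := K.mem_src.2 (Pb50.deep_J K two_pos hx)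
  refine (Pb50.sum_nk hP hK (K.ψ.map_source hs) (fun _ K' => K'.rad c (K.ψ x))
    fun j K' h => ?_).trans ?_
  · rw [Nk.rad, K'.χ_zero h, zero_mul, zero_smul]
  · rw [Nk.rad, Pb50.χ_ψ K hx, one_mul, K.tm_ψ x hs, K.hρ _ x hs]
    rfl

theorem eC_ψ' : (e i).cyl.eC (K.pb c) x + deriv (e i).f (hol (sl (K.pb c) x.2)) • (e i).ζ x.1 =
    P.bg.eC c (K.ψ x) - P.p0.C c (K.ψ x) := by
  have hs := K.mem_src.2 (Pb50.deep_J K two_pos hx)
  have : P.p0.C c (K.ψ x) = -deriv (e i).f (hol (sl (K.pb c) x.2)) • (e i).ζ x.1 := by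
    refine (Pb50.sum_nk hP hK (K.ψ.map_source hs) (fun _ K' => K'.hl c (K.ψ x))
      fun j K' h => ?_).trans ?_
    · rw [Nk.hl, K'.ext_zero _ h, smul_zero]
    · rw [Nk.hl, Pb50.ext_ψ K _ hx, K.tm_ψ x hs]
  rw [this, Pb50.eC_ψ K hs, neg_smul, sub_neg_eq_add]

end pz

section pc
variable {d : Dt κ lam ν} {N : Type} [Fintype N] {ty : N → d.𝓔} {P : Pc d X nc ty}
  {q : d.W →₀ ℝ} {k : ℕ} {η : ℝ}

theorem terms_ψ (hP : P.toPz.OK) (q : d.W →₀ ℝ) (c : Sw.Cfg X.M κ ν) {i : N}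
    {K : Nk (d.e (ty i)) P.bg} (hK : K ∈ P.nk i) {x : (d.e (ty i)).Y.M × ℝ} (hx : x.2 ∈ K.deep 2) :
    (q.sum fun w r => r • P.tm w c (K.ψ x)) = (q.sum fun w r => r • P.fo w (K.ψ x)) +
      tau (fun w => d.yt w (ty i)) q (K.pb c) x := by
  have hs := K.mem_src.2 (Pb50.deep_J K two_pos hx)
  rw [tau, ← Finsupp.sum_add]
  refine Finsupp.sum_congr fun w _ => ?_
  rw [← smul_add, Pc.tm, Pb50.sum_nk hP hK (K.ψ.map_source hs)
    (fun j K' => (d.yt w (ty j)).elim 0 fun T => K'.ms T c (K.ψ x)) fun j K' h =>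
      Pb50.elim_zero fun T _ => by rw [Nk.ms, K'.ext_zero _ h, smul_zero]]
  congr 2
  exact Pb50.elim_congr fun T _ => by rw [Nk.ms, Pb50.ext_ψ K _ hx, K.tm_ψ x hs]

theorem sml_of (h : P.Small k η q) (i : N) : Sml (fun w => d.yt w (ty i)) q k η :=
  let ⟨s, h1, h2⟩ := h
  ⟨s, h1, fun w hw => ⟨(h2 w hw).1, (h2 w hw).2.2.2.2 i⟩⟩

theorem fo_le (h : P.Small k η q) (x : X.M) : ‖q.sum fun w r => r • P.fo w x‖ ≤ η := by
  obtain ⟨s, h1, h2⟩ := h
  refine (norm_sum_le _ _).trans ((Finset.sum_le_sum fun w hw => ?_).trans h1)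
  rw [norm_smul]
  exact mul_le_mul_of_nonneg_left (CB_bound (h2 w hw).2.1 x) (abs_nonneg _)

theorem l2_le {V : Type} [NormedAddCommGroup V] [InnerProductSpace ℝ V]
    (F : Pre X.I X.M (Option κ)) {v : X.M → V} (hs : Sm X.I v) (hc : HasCompactSupport v)
    (le : F.nrm 0 v ≤ η) : ∫⁻ x, ‖v x‖ₑ ^ 2 ∂F.μ ≤ ENNReal.ofReal (η ^ 2) := by
  have c1 : Continuous fun x => ‖v x‖ ^ 2 := hs.continuous.norm.pow 2
  have c2 : HasCompactSupport fun x => ‖v x‖ ^ 2 :=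
    hc.mono fun x hx h => hx (by simp [h])
  have i1 : Integrable (fun x => ‖v x‖ ^ 2) F.μ := c1.integrable_of_hasCompactSupport c2
  simp only [Pre.nrm, Pre.ip, real_inner_self_eq_norm_sq] at le
  refine le_trans (le_of_eq ?_) (ENNReal.ofReal_le_ofReal ((Real.sqrt_le_iff.1 le).2))
  rw [ofReal_integral_eq_lintegral_ofReal i1 (.of_forall fun _ => sq_nonneg _)]
  exact lintegral_congr fun x => by
    rw [ENNReal.ofReal_pow (norm_nonneg _), ofReal_norm]

theorem sum_l2 {A V : Type} [NormedAddCommGroup V] [InnerProductSpace ℝ V]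
    (F : Pre X.I X.M (Option κ)) (s : Finset A) (r a : A → ℝ) (u : A → X.M → V)
    (hs : ∀ w, Sm X.I (u w)) (hc : ∀ w, HasCompactSupport (u w))
    (h : ∀ w ∈ s, F.nrm 0 (u w) ≤ a w) (h1 : ∑ w ∈ s, |r w| * a w ≤ η) :
    ∫⁻ x, ‖∑ w ∈ s, r w • u w x‖ₑ ^ 2 ∂F.μ ≤ ENNReal.ofReal (η ^ 2) := by
  have s1 : ∀ w, Sm X.I (r w • u w) := fun w =>
    ((r w • ContinuousLinearMap.id ℝ V).contMDiff.comp (hs w) :)
  have s2 : ∀ w, HasCompactSupport (r w • u w) := fun w => (hc w).smul_left (f := fun _ => r w)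
  have s3 : Sm X.I fun x => ∑ w ∈ s, (r w • u w) x := contMDiff_finsetSum fun w _ => s1 w
  have s4 : HasCompactSupport fun x => ∑ w ∈ s, (r w • u w) x := by
    have := HasCompactSupport.finset_sum (s := s) (f := fun w => r w • u w) fun w _ => s2 w
    rwa [Finset.sum_fn] at this
  have le : F.nrm 0 (fun x => ∑ w ∈ s, (r w • u w) x) ≤ η := by
    refine (nrm_sum_le s 0 (fun w _ => s1 w) fun w _ => s2 w).trans
      ((Finset.sum_le_sum fun w hw => ?_).trans h1)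
    rw [nrm_const_smul 0 _ (hs w)]
    exact mul_le_mul_of_nonneg_left (h w hw) (abs_nonneg _)
  exact l2_le F s3 s4 le

theorem fo_l2 (hP : P.OK) (h : P.Small k η q) :
    ∫⁻ x, ‖q.sum fun w r => r • P.fo w x‖ₑ ^ 2 ∂P.bg.F.μ ≤ ENNReal.ofReal (η ^ 2) :=
  let ⟨s, h1, h2⟩ := h
  sum_l2 P.bg.F.toPre q.support q s P.fo hP.sf hP.cf (fun w hw => (h2 w hw).2.2.1) h1

end pc

theorem enorm_add_sq {V : Type} [NormedAddCommGroup V] (u v : V) :
    ‖u + v‖ₑ ^ 2 ≤ 2 * ‖u‖ₑ ^ 2 + 2 * ‖v‖ₑ ^ 2 := by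
  simp only [← ofReal_norm]
  rw [← ENNReal.ofReal_pow (norm_nonneg _), ← ENNReal.ofReal_pow (norm_nonneg _),
    ← ENNReal.ofReal_pow (norm_nonneg _), ← ENNReal.ofReal_ofNat,
    ← ENNReal.ofReal_mul zero_le_two, ← ENNReal.ofReal_mul zero_le_two,
    ← ENNReal.ofReal_add (by positivity) (by positivity)]
  refine ENNReal.ofReal_le_ofReal ?_
  nlinarith [norm_add_le u v, norm_nonneg (u + v), sq_nonneg (‖u‖ - ‖v‖), norm_nonneg u,
    norm_nonneg v]

/-- the terms on a neck are absorbed by the energy -/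
theorem tau_abs (hD : DlStmt κ lam ν) (hP : PsyStmt κ lam ν) {e : En3 κ lam ν} {g : e.Gen}
    (hg : g.OK) (C : ℝ) {ε : ℝ} (hε : 0 < ε) : ∃ η > 0, ∀ (W : Type) (T : W → Option e.YT) q c p p',
      Sml T q 0 η → e.cyl.AdmOn c (univ ×ˢ Jv p p') → Win45.Alm c (Jv p p') C → Sup c (Jv p p') C →
      ∀ I, MeasurableSet I → Metric.thickening 1 I ⊆ Jv p p' →
        ∫⁻ x in univ ×ˢ I, ‖tau T q c x‖ₑ ^ 2 ∂e.D.Z.μ ≤ ENNReal.ofReal ε * en c (Jv p p') := by
  obtain ⟨ε₀, h0, h1⟩ : ∃ ε₀ > 0, e.Inv → ∀ c s, e.cyl.AdmOn c (univ ×ˢ win s) →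
      Win45.Alm c (Ioo (s - 3 / 4) (s + 3 / 4)) C → Sup c (win s) C → lb c s ∈ e.S →
      ENNReal.ofReal ε₀ ≤ en c (Ioo (s - 3 / 4) (s + 3 / 4)) := by
    by_cases hI : e.Inv
    · exact (Win45.gapG hD hP e g hg hI C).imp fun _ h => ⟨h.1, fun _ => h.2⟩
    · exact ⟨1, one_pos, fun h => (hI h).elim⟩
  set m := e.D.F.μ.real univ
  have hm : 0 ≤ m := measureReal_nonneg
  refine ⟨√(ε * ε₀ / (2 * m + 1)), by positivity, fun W T q c p p' hs ha hl hc I hI hJ => ?_⟩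
  set A := ε / (2 * m + 1)
  have hA : 0 ≤ A := by positivity
  have mw := (Sep15.S.measurable_win (Sep15.S.em c) (3 / 4)).const_mul (ENNReal.ofReal A)
  refine (setLIntegral_mono' (g := fun x : e.Y.M × ℝ => ENNReal.ofReal A *
    Sep15.S.em c (Ioo (x.2 - 3 / 4) (x.2 + 3 / 4))) (MeasurableSet.univ.prod hI)
      fun x hx => ?_).trans ?_
  · by_cases k : tau T q c x = 0
    · simp [k]
    have w : win x.2 ⊆ Jv p p' := fun t ht => hJ (Metric.mem_thickening_iff.2 ⟨x.2, hx.2, by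
      rw [Real.dist_eq, abs_lt]
      exact ⟨by linarith [ht.1], by linarith [ht.2]⟩⟩)
    rw [Sep15.S.em_apply c measurableSet_Ioo]
    refine le_trans ?_ (mul_le_mul_right (h1 (Sep15.S.tau_ne k).1 c x.2
      (Sep15.S.admOn_mono ha (prod_mono_right w)) (fun z hz => hl z ⟨trivial, w
        (Ioo_subset_Ioo (by linarith) (by linarith) hz.2)⟩) (fun z hz => hc z ⟨trivial, w hz.2⟩)
      (Sep15.S.tau_ne k).2) _)
    rw [← ENNReal.ofReal_mul hA, ← ofReal_norm, ← ENNReal.ofReal_pow (norm_nonneg _)]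
    refine ENNReal.ofReal_le_ofReal ((pow_le_pow_left₀ (norm_nonneg _)
      (Sep15.S.tau_le hs _ _) 2).trans (le_of_eq ?_))
    rw [Real.sq_sqrt (by positivity), div_mul_eq_mul_div]
  rw [show e.D.Z.μ = e.D.F.μ.prod volume from rfl, ← Measure.prod_restrict, Measure.restrict_univ,
    lintegral_prod _ (by exact (mw.comp measurable_snd).aemeasurable)]
  simp only []
  rw [lintegral_const, lintegral_const_mul _ (Sep15.S.measurable_win _ _)]
  refine (mul_le_mul_left (mul_le_mul_right ((Sep15.S.lint_win _ hI).trans (mul_le_mul_right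
    ((Sep15.S.em_apply c Metric.isOpen_thickening.measurableSet).trans_le
      (Sep15.S.en_mono c hJ)) _)) _) _).trans ?_
  rw [← mul_assoc, mul_right_comm, ← ENNReal.ofReal_toReal (measure_ne_top e.D.F.μ univ),
    ← ENNReal.ofReal_ofNat, ← ENNReal.ofReal_mul hA, ← ENNReal.ofReal_mul (by positivity)]
  refine mul_le_mul_left (ENNReal.ofReal_le_ofReal ?_) _
  show A * 2 * m ≤ _
  rw [show ε = A * (2 * m + 1) by rw [div_mul_cancel₀ _ (by positivity)]]
  nlinarith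

/-- **SW-APR** -/
theorem apr (hE : EnStmt κ lam ν) (hD : DlStmt κ lam ν) (hP : PsyStmt κ lam ν) :
    AprStmt κ lam ν := by
  intro C
  obtain ⟨ε, ε0, C', H⟩ := hE C
  refine ⟨ε, ε0, C', fun 𝓔 e N _ ty hg w => ?_⟩
  by_cases hw : 0 < w
  swap
  · exact ⟨1, one_pos, 0, fun W yt X nc P _ U k => (hw (k ▸ U.w0)).elim⟩
  obtain ⟨C₀, H0⟩ := c0P (fun i => e (ty i)) C hw 1
  choose g hg using hg
  choose δ δ0 hδ using fun i => tau_abs hD hP (hg i) (max C₀ 1) (half_pos ε0)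
  obtain ⟨η, η0, h1, h2⟩ : ∃ η > (0 : ℝ), η * (1 + Fintype.card N) ≤ 1 / 2 ∧ ∀ i, η ≤ δ i :=
    ((eventually_mem_nhdsWithin (a := (0 : ℝ)) (s := Ioi 0)).and (Eventually.filter_mono
      nhdsWithin_le_nhds (((show ContinuousAt (fun η : ℝ => η * (1 + Fintype.card N)) 0 by
        fun_prop).eventually_le_const (by simp)).and (eventually_all.2 fun i =>
          eventually_le_nhds (δ0 i))))).exists
  have h3 : η ≤ 1 / 2 := le_trans (le_mul_of_one_le_right η0.le (by simp)) h1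
  refine ⟨η, η0, C₀, fun W yt X nc P k U kw q hq y c hy hc hs => ?_⟩
  have e1 : ∀ x, P.bg.eC c x - P.p0.C c x = q.sum fun w r => r • P.tm w c x := fun x => by
    rw [(hs x trivial).2]
    exact add_sub_cancel_left _ _
  have b1 : ∀ x, ‖P.bg.eC c x - P.p0.C c x‖ ≤ 1 := fun x => by
    rw [e1]
    linarith [norm_terms P hq c x]
  have b0 := H0 X nc P.toPz k.toOK U.bd kw c hc.1 fun x => ⟨(hs x trivial).1, b1 x⟩
  refine ⟨b0, b1, H N _ X nc P.toPz k.toOK U.bd U.nn U.nb U.w0 U.w1 U.vol y c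
    (fun x => P.bg.eC c x - P.p0.C c x) hy hc (fun x => ⟨(hs x trivial).1, by abel⟩)
    (fun x _ => (b1 x).trans one_le_two) fun i K hK => ?_⟩
  have o3 : IsOpen (K.deep 3) := Nd18.isOpen_Jv
  have j2 : K.deep 2 ⊆ K.J := fun _ => Pb50.deep_J K two_pos
  have d3 : K.deep 3 ⊆ K.deep 2 := fun t ht => deep_near K ht (by norm_num)
  have k1 := hδ i W (fun w => yt w (ty i)) q (K.pb c) _ _
    (Sep15.S.sml_mono (sml_of hq i) le_rfl (h2 i))
    (Sep15.S.admOn_mono (Pb50.admOn_pb K hc.1) (prod_mono_right j2))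
    (fun x hx => ⟨by rw [← Pb50.eD_ψ K (K.mem_src.2 (j2 hx.2)), (hs _ trivial).1]
                     exact p0D_ψ k.toOK hK c hx.2,
      by rw [eC_ψ' k.toOK hK c hx.2]; exact (b1 _).trans (le_max_right _ _)⟩)
    (fun x _ => (b0 _).trans (le_max_left _ _)) _ o3.measurableSet fun t ht => by
      obtain ⟨s, h, k⟩ := Metric.mem_thickening_iff.1 ht
      exact deep_near K h (by rw [← Real.dist_eq]; linarith)
  have m : Measurable fun x => 2 * ‖q.sum fun w r => r • P.fo w x‖ₑ ^ 2 :=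
    ((continuous_finsetSum _ fun w _ =>
      (k.sf w).continuous.const_smul (q w)).measurable.enorm.pow_const 2).const_mul 2
  calc _ ≤ ∫⁻ x in K.ψ '' univ ×ˢ K.deep 3, 2 * ‖q.sum fun w r => r • P.fo w x‖ₑ ^ 2 +
        2 * ‖P.bg.eC c x - P.p0.C c x - q.sum fun w r => r • P.fo w x‖ₑ ^ 2 ∂P.bg.F.μ :=
        lintegral_mono fun x => le_of_eq_of_le (by rw [add_sub_cancel]) (enorm_add_sq _ _)
    _ ≤ _ := by
        rw [lintegral_add_left m, lintegral_const_mul' _ _ (by simp),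
          lintegral_const_mul' _ _ (by simp)]
        refine add_le_add ?_ ?_
        · refine (mul_le_mul_right ((setLIntegral_le_lintegral _ _).trans (fo_l2 k hq)) _).trans ?_
          rw [← ENNReal.ofReal_ofNat, ← ENNReal.ofReal_mul zero_le_two]
          exact ENNReal.ofReal_le_one.2 (by nlinarith)
        · refine (mul_le_mul_right ((lint_img K o3 (d3.trans j2) _).trans ((setLIntegral_mono'
            (isOpen_univ.prod o3).measurableSet fun x hx => le_of_eq ?_).trans k1)) _).trans ?_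
          · rw [e1, terms_ψ k.toOK q c hK (d3 hx.2), add_sub_cancel_left]
          · rw [← mul_assoc, ← ENNReal.ofReal_ofNat, ← ENNReal.ofReal_mul zero_le_two,
              mul_div_cancel₀ _ two_ne_zero]
            rfl

end Crest.Agent.X212.Sw88
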