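import Crest.Agent.X212.Lit63.Gen
import Crest.Agent.X212.Pnt66.Tl
import Crest.Agent.X212.Eqv71.Cr0

/-!
# Row 212, LIT on parts (helper88): bounded representatives over a clopen set
-/

set_option autoImplicit false
set_option linter.unusedSectionVars false
noncomputable section
open scoped Manifold ContDiff Topology InnerProductSpace
open MeasureTheory Set Function Filter Real

namespace Crest.Agent.X212.Sw88.Lip
open An An.Pre Sob92 Prm93 Mod61 Nd18 Cyf70 Nk89 Pj41 Eqv71 End3 Lit63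
open Tmp64 (AdmOn admOn_univ psh psh_spec Eq0)

variable {E : Type} [NormedAddCommGroup E] [NormedSpace ℝ E] [FiniteDimensional ℝ E]
  [MeasurableSpace E] [BorelSpace E]
  {HM : Type} [TopologicalSpace HM] {I : ModelWithCorners ℝ E HM} [I.Boundaryless]
  {M : Type} [TopologicalSpace M] [ChartedSpace HM M] [IsManifold I ∞ M]
  [MeasurableSpace M] [T2Space M] [BorelSpace M] [SecondCountableTopology M]
  {κ : Type} [Fintype κ] {lam : Type} [Fintype lam]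
  {T : Type} [NormedAddCommGroup T] [NormedSpace ℝ T]
  {𝔉 : Fam I M (Option κ) lam T} {δ : ℝ} {r n : ℕ} {O : Set M}

section sign
variable {ι : Type} [Fintype ι] {B : Base M ι lam} {G : Geo I M ι lam} {c : Cfg M ι lam r}

theorem eq0_neg (hc : c.Adm B G) (h0 : ∀ x ∈ O, c.Φ x = 0) :
    Eq0 G.F c c O fun x => -c.m.p x := by
  have k := Eq0.refl (c := c) (O := O) ((admOn_univ.2 hc).mono (subset_univ _))
  refine ⟨⟨fun x hx => (k.iso.su x hx).neg, fun x hx => ⟨?_, ?_, ?_⟩, fun x hx => ?_,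
    fun x hx b => ?_, fun x hx b => ?_⟩, fun x hx a => ?_, fun x hx => by rw [h0 x hx, map_zero], rfl⟩
  · simpa [ad_neg] using (k.iso.iso x hx).src
  · simpa [ad_neg] using (k.iso.iso x hx).tgt
  · simpa using (k.iso.iso x hx).idem
  · simpa using k.iso.J x hx
  · simpa using k.iso.ρ x hx b
  · simpa using k.iso.j x hx b
  · have e : G.F.D a (fun x => -c.m.p x) x = -G.F.D a c.m.p x :=
      dv_clm (-ContinuousLinearMap.id ℝ _) (k.iso.su x hx).md
    rw [e, ← neg_eq_zero, ← k.par x hx a]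
    simp only [ContinuousLinearMap.comp_neg, ContinuousLinearMap.neg_comp]
    abel

/-- natural perturbations of the Dirac equation vanish where the spinor is absent -/
theorem D0 (hB : B.OK I) (hG : G.OK B) {τ : Pt M ι lam r n} (p : PNat0 B G univ τ)
    (hO : IsClopen O) (hc : c.Adm B G) (h0 : ∀ x ∈ O, c.Φ x = 0) {x : M} (hx : x ∈ O) :
    c.eD G τ x = 0 := by
  classical
  have A := admOn_univ.2 hc
  have k1 := eq0_neg hc h0
  have k2 := Eq0.refl (A.mono (subset_univ Oᶜ))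
  set u := O.piecewise (fun x => -c.m.p x) c.m.p
  have e1 : ∀ y ∈ O, u y = -c.m.p y := fun y hy => piecewise_eq_of_mem _ _ _ hy
  have e2 : ∀ y ∈ Oᶜ, u y = c.m.p y := fun y hy => piecewise_eq_of_notMem _ _ _ hy
  have o := hO.1.isOpen_compl
  have k : Eq0 G.F c c univ u := ⟨iso0_of_local fun y _ => (em (y ∈ O)).elim
      (fun hy => ⟨_, hy, k1.iso.congr hO.2 e1⟩) fun hy => ⟨_, hy, k2.iso.congr o e2⟩,
    fun y _ => (em (y ∈ O)).elim (k1.par.congr hO.2 e1 y) (k2.par.congr o e2 y),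
    fun y _ => (em (y ∈ O)).elim (fun hy => e1 y hy ▸ k1.Φ y hy) fun hy => e2 y hy ▸ k2.Φ y hy, rfl⟩
  have g := lg_refl hB hG isOpen_univ
  have a1 := p.eD g (cr0_univ (ad0 hc) (ad0 hc) (k.cEq hB A A)) (mem_univ x)
  have a2 := p.eD g (cr0_refl hB hG isOpen_univ (ad0 hc) fun _ h => (h trivial).elim) (mem_univ x)
  simp only [id, Circle.coe_one, cs_one] at a1 a2
  rw [e1 x hx, neg_apply, ← a2] at a1
  exact (smul_eq_zero.1 ((two_smul ℝ _).trans (add_eq_zero_iff_eq_neg.2 a1))).resolve_left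
    two_ne_zero

end sign

theorem ev_R (P : End 𝔉) {S : Set ℝ} (hS : S ∈ P.l) :
    ∀ᶠ R in atTop, ∀ s, R ≤ P.sg * s → s ∈ S := by
  rcases sg_cases P with ⟨k1, k2⟩ | ⟨k1, k2⟩
  · obtain ⟨b, hb⟩ := mem_atTop_sets.1 (k1 ▸ hS)
    exact (eventually_ge_atTop b).mono fun R h t ht => hb t (by rw [k2] at ht; linarith)
  · obtain ⟨b, hb⟩ := mem_atBot_sets.1 (k1 ▸ hS)
    exact (eventually_ge_atTop (-b)).mono fun R h t ht => hb t (by rw [k2] at ht; linarith)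

variable (X : Ends 𝔉 δ) {c : Cfg M (Option κ) lam r}

include X in
/-- a configuration is changed off `O` -/
theorem gd_on (hO : IsClopen O) (hc : c.Adm 𝔉.B 𝔉.G0) {c' : Cfg M (Option κ) lam 0}
    (k1 : c'.Adm 𝔉.B 𝔉.G0) {a : M → CL c.m.V c'.m.V} (k2 : Iso0 I c.m c'.m univ a)
    (cp : 𝔉.G0.F.Cb c'.m.p) (cρ : ∀ b, 𝔉.G0.F.Cb (c'.m.ρ b)) (cj : 𝔉.G0.F.Cb c'.m.j)
    (cA : ∀ b, 𝔉.G0.F.Cb (c'.W b)) (nA : ∀ b, 𝔉.G0.F.Cb (O.indicator fun x =>
      (𝔉.G0.F.D b a x + c'.W b x ∘L a x - a x ∘L c.W b x) ∘L trn (a x)))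
    (nP : 𝔉.G0.F.Cb fun x => a x (c.Φ x)) :
    ∃ (x : Cfg M (Option κ) lam r) (u : M → CL c.m.V x.m.V), Dgr80.Gd 𝔉.B 𝔉.G0 x ∧
      Eq0 𝔉.G0.F c x O u ∧ ∀ z, x.Φ z = u z (c.Φ z) := by
  have h := X.ok
  have wt := fun {V : Type} [NormedAddCommGroup V] [NormedSpace ℝ V] {f : M → V} =>
    (X.wt.toWtP.Cb (f := f)).1
  obtain ⟨p1, p2⟩ := psh_spec h.B h.G0.P hc k1.ok k2
  let V : c'.m.Cn := fun b x => O.indicator (pshW I (𝔉.G0.F.e b) a (c.W b)) x + Oᶜ.indicator (c'.W b) x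
  have e1 : ∀ b, ∀ x ∈ O, V b x = pshW I (𝔉.G0.F.e b) a (c.W b) x := fun b x hx => by
    simp only [V, indicator_of_mem hx, indicator_of_notMem (notMem_compl_iff.2 hx), add_zero]
  have e2 : ∀ b, ∀ x ∈ Oᶜ, V b x = c'.W b x := fun b x hx => by
    simp only [V, indicator_of_mem hx, indicator_of_notMem hx, zero_add]
  have cn : c'.m.IsConn 𝔉.B 𝔉.G0 V := (ConnOn.of_local fun x _ => (em (x ∈ O)).elim
    (fun hx => ⟨_, hx, (IsConn.on p1.conn O).congr hO.2 e1⟩) fun hx =>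
      ⟨_, hx, (IsConn.on k1.conn Oᶜ).congr hO.1.isOpen_compl e2⟩).isConn k1.ok
  have cW : ∀ b, 𝔉.G0.F.Cb (V b) := fun b => by
    have s := Cb_sub (Cb_comp (cA b) cp) (nA b)
    have t := Grp76.Cb_ind hO
      (Cb_sub s (Cb_comp (Cb_clm adL s) (Cb_sub (Cb_const (1 : En (Fin c'.m.N))) cp)))
    refine Cb_add ((congrArg _ (indicator_congr fun x hx => ?_)).mp t) (Grp76.Cb_ind hO.compl (cA b))
    simp only [Pi.sub_apply, indicator_of_mem hx]
    exact psh_alg (k2.iso x trivial).tgt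
  exact ⟨⟨c'.m, V, fun x => a x (c.Φ x), c.z⟩, a, ⟨⟨h.B, h.G0, k1.ok, cn, X.tame, cW,
    Std94.Kl.Dat.pg (K := Std94.cbK 𝔉.G0.F.toPre) (φ := id) ⟨fun a b => wt (h.cP a b),
      fun a b c d => wt (h.co a b c d), cp, cρ, cj⟩ h.B (Std94.pmx k1.ok)⟩,
    ⟨k1.ok, cn, p1.sm, p1.pos, hc.z⟩, nP, cp, cρ, cj⟩, ⟨k2.mono (subset_univ _),
    fun x hx b => (congrArg (fun s => _ + s ∘L a x - _) (e1 b x hx)).trans (p2.par x trivial b),
    fun _ _ => rfl, rfl⟩, fun _ => rfl⟩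

/-- **a configuration which converges on the ends in `O` has a bounded representative over `O`** -/
theorem litO (hO : IsClopen O) (hc : c.Adm 𝔉.B 𝔉.G0) (h0 : ∀ x ∉ O, c.Φ x = 0) {Ac : X.A → Prop}
    (onn : ∀ e, Ac e → (X.P e).K.ψ.target ⊆ O) (off : ∀ e, ¬Ac e → (X.P e).K.ψ.target ⊆ Oᶜ)
    {β₀ : ∀ a, YC (X.P a).Y.M κ lam} {ζ : X.A → Circle}
    (hl : ∀ e, Ac e → (X.P e).D.Adm (β₀ e) ∧ (X.P e).K.Lim c (β₀ e) (ζ e) (X.P e).l) :
    ∃ (x : Cfg M (Option κ) lam r) (u : M → CL c.m.V x.m.V), Dgr80.Gd 𝔉.B 𝔉.G0 x ∧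
      Eq0 𝔉.G0.F c x O u ∧ ∀ z, x.Φ z = u z (c.Φ z) := by
  classical
  have h := X.ok
  have H := X.okP
  have h1 : (noz c).Adm 𝔉.B 𝔉.G0 := ⟨hc.ok, hc.conn, hc.sm, hc.pos, .inl rfl⟩
  have adm : ∀ a {R}, X.R ≤ R → AdmOn (cmC (X.P a).K.ψ (noz c)) (X.P a).D.B (X.P a).D.G
      {z | R < (X.P a).sg * z.2} := fun a R hR => ((nk_gRel (X.P a).K).mono (isOpen_hi _ R)
        fun z hz => mem_src (H a) hR hz).admOn_iff.2 ((admOn_univ.2 h1).mono (subset_univ _))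
  have key : ∀ a, ∃ (β : YC (X.P a).Y.M κ lam) (u : (X.P a).Y.M × ℝ → CL c.m.V β.m.V),
      (X.P a).D.Adm β ∧ (¬Ac a → ∀ y, β.Φ y = 0) ∧ (∀ᶠ R in atTop, Iso0 (IC (X.P a).Y.I)
        (cmM (X.P a).K.ψ c.m) (cy β).m {z | R < (X.P a).sg * z.2} u) ∧ (Ac a → ∀ k,
          ∃ S ∈ (X.P a).l, (X.P a).D.Cls ((X.P a).K.pb c) β u (ζ a) S k 1) := fun a => by
    by_cases ha : Ac a
    · obtain ⟨k1, u, hu⟩ := hl a ha
      obtain ⟨S, hS, -, f⟩ := hu 0 1 one_pos
      refine ⟨_, u, k1, fun k => (k ha).elim, ?_, fun _ k =>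
        let ⟨S, j1, _, j2⟩ := hu k 1 one_pos; ⟨S, j1, j2⟩⟩
      filter_upwards [ev_R _ hS, eventually_ge_atTop X.R] with R hRS hR
      have s : {z : (X.P a).Y.M × ℝ | R < (X.P a).sg * z.2} ⊆ univ ×ˢ S := fun z hz =>
        ⟨trivial, hRS _ (le_of_lt hz)⟩
      have k := f.m
      exact .of_mEq (isOpen_hi _ R) ⟨k.su.mono s, fun x hx => k.uu x (s hx),
        fun x hx => k.uu' x (s hx), fun x hx => k.J x (s hx), fun x hx => k.ρ x (s hx),
        fun x hx => k.j x (s hx)⟩ (adm a hR).ok (OK.on k1.adm.ok _)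
    · obtain ⟨γ, u, k1, k2, k3⟩ := Pnt66.exists_frz (H a).D (by simpa using sg_sq (X.P a) 1)
        (adm a le_rfl)
      exact ⟨γ, u, k1, fun _ => k2, (eventually_ge_atTop (X.R + 2)).mono fun R hR =>
        k3.mono fun z hz => hR.trans_lt hz, fun k => (ha k).elim⟩
  choose β u hβ hZ iu hu using key
  obtain ⟨R, hR, iu⟩ := ((eventually_ge_atTop X.R).and (eventually_all.2 iu)).exists
  have hR4 : X.R ≤ R + 4 := by linarith
  have el := fun a => end_lit (H a) hR (c := c) (adm_ph (hβ a) (ζ a)⁻¹) (iu a)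
  choose hf f1 f2 f3 using fun a => exists_height (K := fun _ : Unit => (X.P a).K)
    (σ := fun _ => (X.P a).sg) (R := R) fun _ s hs => mem_J (H a) hR hs
  obtain ⟨c', a, k1, k2, k3⟩ := exists_lits h.G0.P (c := ⟨c.m, c.W, c.Φ, 0⟩) h1
    (fun a => (el a).1) (fun a => (el a).2) f1
    (fun a x hx => (f2 a x hx).elim fun _ k => mem_U' (H a) hR k)
    fun a b k => (X.dis k).mono (U_mono _ hR) (U_mono _ hR)
  choose i i1 i2 using k3
  have lt : ∀ e (z : (X.P e).Y.M × ℝ), R + 4 < (X.P e).sg * z.2 → a ((X.P e).K.ψ z) = i e ∘L u e z ∧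
      LitAt c' (ph (ζ e)⁻¹ (β e)) (i e) ((X.P e).K.ψ z) z.1 := fun e z hz => by
    have s := mem_src (H e) hR4 hz
    obtain ⟨j1, j⟩ := i2 e _ (f3 e () _ (by rw [(X.P e).K.tm_ψ z s]; exact hz.le))
    rw [(X.P e).K.ψ.left_inv s] at j1
    refine ⟨j1, ?_⟩
    rw [show z.1 = ((X.P e).K.ψ.symm ((X.P e).K.ψ z)).1 by rw [(X.P e).K.ψ.left_inv s]]
    exact ⟨j.p, j.ρ, j.j, j.W, j.Φ⟩
  have hi : ∀ {e} {z : (X.P e).Y.M × ℝ}, R + 4 < (X.P e).sg * z.2 → R < (X.P e).sg * z.2 :=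
    fun hz => by linarith
  have tg : ∀ {e} {z : (X.P e).Y.M × ℝ}, R < (X.P e).sg * z.2 →
      (X.P e).K.ψ z ∈ (X.P e).K.ψ.target := fun hz => (X.P _).K.ψ.map_source (mem_src (H _) hR hz)
  have sa : Sm I a := fun x => k2.su x trivial
  have cb := fun e => exists_cbc.1 (exists_cbc_cy (adm_stab (adm_ph (hβ e) (ζ e)⁻¹) (i1 e)))
  have wt := fun {V : Type} [NormedAddCommGroup V] [NormedSpace ℝ V] {f : M → V} =>
    (X.wt.toWtP.Cb (f := f)).1
  refine gd_on X hO hc k1 k2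
    (wt (cb_of_lit X hR4 k1.ok.sp (fun e z hz => (lt e z hz).2.p) fun e => (cb e).1))
    (fun b => wt (cb_of_lit X hR4 (k1.ok.sρ b) (fun e z hz => (lt e z hz).2.ρ b)
      fun e => (cb e).2.1 b))
    (wt (cb_of_lit X hR4 k1.ok.sj (fun e z hz => (lt e z hz).2.j) fun e => (cb e).2.2.1))
    (fun b => wt (cb_of_lit X hR4 (fun x => k1.conn.cc.sm b x)
      (fun e z hz => (lt e z hz).2.W b) fun e => (cb e).2.2.2.1 b)) (fun b => ?_) ?_
  · refine cb_ev X hR4 (Grp76.sm_ind hO fun x _ => ?_) (g := fun e z => (if Ac e then cjL (i e) else 0)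
      ((X.P e).D.dA ((X.P e).K.pb c) (β e) (u e) b z)) (fun e z hz => ?_) fun e w => ?_
    · have := FSm.cc (((dv_smoothAt (𝔉.G0.F.sm b x) (sa x)).add
        (FSm.cc (k1.conn.cc.sm b x) (sa x))).sub (FSm.cc (sa x) (hc.conn.cc.sm b x)))
        (FSm.ad (sa x))
      simp only [ad_trn] at this
      exact this
    · split_ifs with he
      · have e1 : 𝔉.G0.F.D b a ((X.P e).K.ψ z) = i e ∘L (X.P e).D.Z.D b (u e) z :=
          (Dw_end (X.okP e) hR4 (fun z hz => (lt e z hz).1) [b] hz).trans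
            (dv_clm (ContinuousLinearMap.compL ℝ c.m.V _ _ (i e)) ((iu e).su z (hi hz)).md)
        rw [indicator_of_mem (onn e he (tg (hi hz))), e1, (lt e z hz).2.W, (lt e z hz).1]
        exact dA_emb (i1 e).iso _ _ _ _
      · exact indicator_of_notMem (off e he (tg (hi hz))) _
    · have sm : ∀ z ∈ {z : (X.P e).Y.M × ℝ | R < (X.P e).sg * z.2}, FSm (IC (X.P e).Y.I)
          ((X.P e).D.dA ((X.P e).K.pb c) (β e) (u e) b) z := fun z hz =>
        have su := (iu e).su z hz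
        (FSm.cc (((dv_smoothAt ((X.P e).D.Z.sm b z) su).add (FSm.cc ((hβ e).adm.conn.cc.sm b z)
          su)).sub (FSm.cc su ((adm e hR).conn.sm b z hz))) (FSm.ad su)).congr_of_eventuallyEq
          (.of_forall fun y => congrArg (_ ∘L ·) (ad_trn _).symm)
      by_cases he : Ac e
      · obtain ⟨S, j1, j2⟩ := hu e he w.length
        refine ⟨‖cjL (i e)‖ * 1, S, j1, fun z hz hz' => ?_⟩
        rw [Dw_clm_on (isOpen_hi _ R) _ w sm z (hi hz), if_pos he]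
        exact (ContinuousLinearMap.le_opNorm _ _).trans
          (mul_le_mul_of_nonneg_left (j2.A b w le_rfl z ⟨trivial, hz'⟩) (norm_nonneg _))
      · refine ⟨0, univ, univ_mem, fun z hz _ => ?_⟩
        rw [Dw_clm_on (isOpen_hi _ R) _ w sm z (hi hz), if_neg he]
        exact norm_zero.le
  have k : 𝔉.G0.F.Cb fun x => a x (c.Φ x) - c'.Φ x := by
    refine cb_ev X hR4 ((sa.clm_apply hc.sm).sub k1.sm) (g := fun e z =>
      (if Ac e then i e ∘L csL (β e).m.J ((ζ e)⁻¹ : Circle) else 0)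
        (YD.dP ((X.P e).K.pb c) (β e) (u e) (ζ e) z)) (fun e z hz => ?_) fun e w => ?_
    · split_ifs with he
      · rw [(lt e z hz).1, (lt e z hz).2.Φ, YD.dP, map_sub]
        simp only [ContinuousLinearMap.comp_apply, csL_apply]
        rw [cs_mul (show (β e).m.J * (β e).m.J = -1 from (hβ e).adm.ok.Jsq), ← Circle.coe_mul,
          inv_mul_cancel, Circle.coe_one, cs_one]
        rfl
      · rw [h0 _ (off e he (tg (hi hz))), (lt e z hz).2.Φ, map_zero, zero_sub,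
          show (ph (ζ e)⁻¹ (β e)).Φ z.1 = 0 from (congrArg _ (hZ e he _)).trans (cs_zero _ _),
          map_zero, neg_zero]
        rfl
    · have sm : ∀ z ∈ {z : (X.P e).Y.M × ℝ | R < (X.P e).sg * z.2}, FSm (IC (X.P e).Y.I)
          (YD.dP ((X.P e).K.pb c) (β e) (u e) (ζ e)) z := fun z hz =>
        ((csL (β e).m.J (ζ e)).contMDiff.contMDiffAt.comp z
          (((iu e).su z hz).clm_apply ((adm e hR).sm z hz))).sub ((hβ e).adm.sm z)
      by_cases he : Ac e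
      · obtain ⟨S, j1, j2⟩ := hu e he w.length
        refine ⟨‖i e ∘L csL (β e).m.J ((ζ e)⁻¹ : Circle)‖ * 1, S, j1, fun z hz hz' => ?_⟩
        rw [Dw_clm_on (isOpen_hi _ R) _ w sm z (hi hz), if_pos he]
        exact (ContinuousLinearMap.le_opNorm _ _).trans
          (mul_le_mul_of_nonneg_left (j2.P w le_rfl z ⟨trivial, hz'⟩) (norm_nonneg _))
      · refine ⟨0, univ, univ_mem, fun z hz _ => ?_⟩
        rw [Dw_clm_on (isOpen_hi _ R) _ w sm z (hi hz), if_neg he]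
        exact norm_zero.le
  exact (congrArg _ (funext fun x => sub_add_cancel (a x (c.Φ x)) (c'.Φ x))).mp (Cb_add k
    (wt (cb_of_lit X hR4 k1.sm (fun e z hz => (lt e z hz).2.Φ) fun e => (cb e).2.2.2.2)))

end Crest.Agent.X212.Sw88.Lip
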