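import Crest.Agent.X212.Rad94.Mrk
import Crest.Agent.X212.Flo2.Lok
import Crest.Agent.X212.Flo2.Prt

/-!
# Row 212, lane RAD-S (helper88): the degree of a unique class, families with two ends
-/

set_option autoImplicit false
set_option linter.unusedSectionVars false
noncomputable section
open scoped Manifold ContDiff Topology InnerProductSpace
open MeasureTheory Set Function Filter

namespace Crest.Agent.X212.Sw88
open An Cyf70 Sw Sw.En3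
open Flo2 (Gc Ty Mk Gr Plc Tm Tk bm)
open Rad94 (EvQ Prt Dat Rdx Lvl TwId)
open M (Mf pm)

variable {κ lam ν : Type} [Fintype κ] [Fintype lam] [Fintype ν] [DecidableEq ν]

section evq
variable {W : Type} {p p' : (W →₀ ℝ) → Prop}

theorem evQ_mono (h : EvQ p) (k : ∀ q, p q → p' q) : EvQ p' := h.imp fun _ h q a => k q (h q a)

theorem evQ_and (h : EvQ p) (h' : EvQ p') : EvQ fun q => p q ∧ p' q := by
  obtain ⟨s, h⟩ := h
  obtain ⟨s', h'⟩ := h'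
  refine ⟨fun v => max (s v) (s' v), fun q a => ⟨h q (lt_of_le_of_lt ?_ a), h' q (lt_of_le_of_lt ?_ a)⟩⟩
  · exact Finset.sum_le_sum fun v _ => mul_le_mul_of_nonneg_left (le_max_left _ _) (abs_nonneg _)
  · exact Finset.sum_le_sum fun v _ => mul_le_mul_of_nonneg_left (le_max_right _ _) (abs_nonneg _)

theorem evQ_le (r : W → ℝ) {η : ℝ} (h : 0 < η) : EvQ fun q => (q.sum fun v a => |a| * r v) ≤ η :=
  ⟨fun v => r v / η, fun q a => by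
    simp only [Finsupp.sum, ← mul_div_assoc, ← Finset.sum_div] at a ⊢
    exact ((div_lt_one h).1 a).le⟩

end evq

theorem bm_zero {μ r : ℝ} (h : 1 ≤ r) : bm μ r = 0 := by
  rw [bm, expNegInvGlue.zero_of_nonpos (by linarith), zero_div, mul_zero]

theorem cd_bm (μ : ℝ) : ContDiff ℝ ∞ (bm μ) := contDiff_const.mul
  ((expNegInvGlue.contDiff.comp (contDiff_const.sub contDiff_id)).div_const _)

theorem prf_bm {μ l : ℝ} (h0 : 0 < l) (h1 : l < μ) : Rad94.Prf (bm μ) l := by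
  have e := expNegInvGlue.pos_of_pos one_pos
  refine ⟨cd_bm μ, fun r hr => ?_, fun _ => bm_zero, h0, by rwa [bm, sub_zero, div_self e.ne', mul_one]⟩
  have a : 0 < 1 - r := sub_pos.2 hr.2
  have d := expNegInvGlue.hasDerivAt_polynomial_eval_inv_mul 1 (1 - r)
  simp only [Polynomial.eval_one, one_mul, Polynomial.derivative_one, sub_zero, mul_one,
    Polynomial.eval_pow, Polynomial.eval_X] at d
  have d' : HasDerivAt (bm μ) _ r :=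
    ((d.comp r ((hasDerivAt_id r).const_sub 1)).div_const (expNegInvGlue 1)).const_mul μ
  rw [d'.deriv]
  have := expNegInvGlue.pos_of_pos a
  have := h0.trans h1
  rw [mul_neg_one, neg_div, mul_neg, neg_lt_zero]
  positivity

section ew
variable {𝓔 : Type} [Fintype 𝓔] {ty : 𝓔 → Ty κ lam ν} {μ : ℝ}
  {P Q : ∀ l : Flo2.Lv 𝓔, l.Cx ty → Prop}

variable (ty) in
/-- for `w` small -/
def Ew (μ : ℝ) (P : ∀ l : Flo2.Lv 𝓔, l.Cx ty → Prop) : Prop :=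
  ∃ w₀ > 0, ∀ l : Flo2.Lv 𝓔, l.μ = μ → l.w ≤ w₀ → ∀ Γ, P l Γ

theorem Ew.mono (h : Ew ty μ P) (k : ∀ l Γ, l.μ = μ → P l Γ → Q l Γ) : Ew ty μ Q :=
  h.imp fun _ h => ⟨h.1, fun l a b Γ => k l Γ a (h.2 l a b Γ)⟩

theorem Ew.and (h : Ew ty μ P) (h' : Ew ty μ Q) : Ew ty μ fun l Γ => P l Γ ∧ Q l Γ :=
  let ⟨w, a, h⟩ := h; let ⟨w', a', h'⟩ := h'
  ⟨min w w', lt_min a a', fun l e b Γ => ⟨h l e (b.trans (min_le_left _ _)) Γ,
    h' l e (b.trans (min_le_right _ _)) Γ⟩⟩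

theorem ew_le {w : ℝ} (h : 0 < w) : Ew ty μ fun l _ => l.w ≤ w := ⟨w, h, fun _ _ b _ => b⟩

theorem Ew.at (ε : 𝓔) {P : ∀ l : Flo2.Lv Unit, l.Cx (fun _ => ty ε) → Prop}
    (h : Ew (fun _ => ty ε) μ P) : Ew ty μ fun l Γ => P (l.at ε) (Γ.at ε) :=
  h.imp fun _ h => ⟨h.1, fun l a b Γ => h.2 (l.at ε) a b (Γ.at ε)⟩

theorem Ew.bool {P : Bool → ∀ l : Flo2.Lv 𝓔, l.Cx ty → Prop} (h : ∀ s, Ew ty μ (P s)) :
    Ew ty μ fun l Γ => ∀ s, P s l Γ :=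
  ((h false).and (h true)).mono fun _ _ _ k => Bool.forall_bool.2 k

theorem ev_of (h : Flo2.Ev ty P) (μ₁ : ℝ) (k : ∀ μ > μ₁, Ew ty μ fun l Γ => P l Γ → Q l Γ) :
    Flo2.Ev ty Q :=
  let ⟨μ₀, h⟩ := h
  ⟨max μ₀ (μ₁ + 1), fun μ a => (Ew.and (h μ (le_of_max_le_left a))
    (k μ (by linarith [le_of_max_le_right a]))).mono fun _ _ _ b => b.2 b.1⟩

end ew

variable (G : Gr κ lam ν) (mk : Mk κ lam ν) in
/-- the leaves -/
structure RadH : Prop where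
  mks : Rad94.Mks mk
  one : Rad94.OneStmt κ lam ν
  psc : Rad94.PscStmt κ lam ν
  small : Rad94.SmallStmt mk
  nrc : Rad94.NrcStmt mk
  twid : Rad94.TwIdStmt G mk
  twhi : Rad94.TwHiStmt G mk
  ridx : Rad94.RidxStmt κ lam ν
  rich : Rad94.RichStmt κ lam ν
  n0 : Rad94.N0Stmt κ lam ν
  fred : ∀ (d : Dt κ lam ν) [Fintype d.𝓔] (Sl : Type) [Fintype Sl] X nc k,
    FredStmt d (Prod.fst : d.𝓔 × Sl → _) X nc 0 (Fin k → ℝ)
  lok : Flo2.LokStmt mk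
  ex : Flo2.ExStmt mk
  tow : Flo2.TowStmt G mk
  ind : Flo2.IndStmt G mk
  bnd : Flo2.BndStmt G mk
  irr : Flo2.IrrStmt mk

variable {G : Gr κ lam ν} {mk : Mk κ lam ν} {g : Gc κ lam ν} {𝓔 : Type} [Fintype 𝓔]
  {ty : 𝓔 → Ty κ lam ν} {Sl : Type} [Fintype Sl] (p : Plc ty Sl g)

theorem evQ_small (H : Flo2.LokStmt mk) (hg : g.OK) {l : Flo2.Lv 𝓔} (Γ : l.Cx ty) {W : Type}
    (yt : l.YT ty W) {τ : Tm g W} (hτ : τ.OK) {η : ℝ} (h : 0 < η) :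
    EvQ fun q => ∀ t, ((p.fam l yt τ).P t).Small 6 η q := by
  choose r r0 hr using H.sz g hg 𝓔 ty Sl p l W yt τ (fun ε => (Γ.ok ε).ok) hτ
  exact evQ_mono (evQ_le r h) fun q a t => ⟨r, a, fun w _ => ⟨r0 w, hr w t⟩⟩

theorem dom_eq (hw : ∀ c, g.wl c = none) : g.dom = Icc 0 1 :=
  ext fun _ => ⟨fun h => ⟨fun c => (h c).1, fun c => (h c).2 (hw c)⟩, fun h c => ⟨h.1 c, fun _ => h.2 c⟩⟩

/-- one class, pinned at the ends -/
structure Pn (l : Flo2.Lv 𝓔) {W : Type} (yt : l.YT ty W) (τ : Tm g W)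
    (β : Plc.BC (ty := ty) (Sl := Sl) l) (q : W →₀ ℝ) (η₀ T : ℝ) (N : 𝓔 × Sl → Bool → Set ℝ) :
    Prop where
  one : ∃ y ∈ p.M l yt τ β q, y.1.1 ∈ interior g.dom ∧ ∀ y' ∈ p.M l yt τ β q, (p.cel l yt τ β).Eqv y y'
  low : ∀ y ∈ p.M l yt τ β q, (p.cel l yt τ β).Low η₀ y
  pin : ∀ y ∈ p.M l yt τ β q, ∀ j b, ∀ K ∈ (p.lev l g.s).nk j, K.Inf b → ∀ t ∈ K.far b T,
    nm (sl (K.pb y.1.2) t) ∈ N j b

variable (G) in
/-- a unique class has index zero -/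
def Dg0 (l : Flo2.Lv 𝓔) (Γ : l.Cx ty) : Prop := ∀ β, p.InV Γ β → ∀ η₀ > 0, ∀ T
  (N : 𝓔 × Sl → Bool → Set ℝ), (∀ j b, (p.lev l g.s).Inf j b → IsClosed (N j b) ∧
    ∀ v : (l.e ty j.1).YC, Crit v → nm v ∈ N j b → L v = L (β j b)) →
  (∀ W yt τ, τ.OK → EvQ (W := W) fun q => Pn p l yt τ β q η₀ T N) →
  G.dg g + p.dp G l β g.pin false - p.dp G l β g.pout true - p.dp G l β g.p3 true = 0

theorem dg0 (H : RadH G mk) (hg : g.Gd mk) (hw : ∀ c, g.wl c = none) (hi : g.Ir)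
    (hty : ∀ ε, (ty ε).1.OK mk) : Flo2.Ev ty (Dg0 G p) := by
  obtain ⟨C, hC⟩ := H.bnd.en g.toBs
  obtain ⟨W, τ, τ1, τ2⟩ := H.rich g hg.1 hw
  refine ((hC g rfl hg 𝓔 ty Sl p hty).and (H.irr g hg hi 𝓔 ty Sl p hty)).mono
    fun l Γ ⟨⟨η, η0, h1⟩, η', η0', h2⟩ β hβ η₀ h0 T N hN h => ?_
  have he := fun ε => (Γ.ok ε).ok
  have τ3 := Flo2.Tm.OK.map (W' := l.W ty W) τ1 Prod.fst
  obtain ⟨C', h3⟩ := H.lok.sup g hg.1 𝓔 ty Sl p l he Γ.w0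
  have ok : (p.cel l Prod.snd (τ.map Prod.fst) β).OK :=
    ⟨H.lok.fam g hg.1 𝓔 ty Sl p l _ Prod.snd _ he Γ.w0 τ3, fun j b hj => by
      obtain ⟨i, rfl, hi⟩ := (p.lev_inf _ l j b).1 hj
      exact (Γ.rs _).gd _ (hβ i b hi), fun j => j.elim0⟩
  obtain ⟨n, hn⟩ := H.fred (l.dt ty Prod.snd) Sl _ _ _ _ _ ok
  rw [← H.ind.cel g hg 𝓔 ty Sl p l _ _ _ β ok n hn, Int.cast_eq_zero]
  refine H.n0 (l.dt ty Prod.snd) Sl (Γ.ctx _) _ _ _ _ _ g.dom ok (dom_eq hw ▸ isCompact_Icc)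
    (subset_univ _) (H.lok.rich g 𝓔 ty Sl p l W τ τ2) (fun w => (H.lok.sz g hg.1 𝓔 ty Sl p l _ _ _
      he τ3 w).imp fun r k => ⟨k.1, fun t _ => k.2 t⟩) n hn
    (max (C * (1 + max 0 (-(G.dg g : ℝ)))) C') η₀ T N h0 hN
    (evQ_mono (evQ_and (h _ _ _ τ3) (evQ_and (evQ_small p H.lok hg.1 Γ _ τ3 η0) (evQ_and
      (evQ_small p H.lok hg.1 Γ _ τ3 η0') (evQ_small p H.lok hg.1 Γ _ τ3 one_pos))))
      fun q ⟨a, a1, a2, a3⟩ => ⟨?_, h2 _ _ _ τ3 q a2 β hβ, fun y hy hD => ⟨⟨(h1 _ _ _ τ3 q a1 β hβ y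
        ⟨hy, hD⟩).trans (ENNReal.ofReal_le_ofReal (le_max_left _ _)), fun x => (h3 _ _ _ τ3 q a3 β y
        ⟨hy, hD⟩ x).trans (le_max_right _ _), a.low y ⟨hy, hD⟩⟩, a.pin y ⟨hy, hD⟩⟩⟩)
  obtain ⟨y, b1, b2, b3⟩ := a.one
  exact ⟨y, b1.1, b2, fun y' c1 c2 => b3 y' ⟨c1, c2⟩⟩

theorem lf_qhs {l : Flo2.Lv 𝓔} (Γ : l.Cx ty) {ε : 𝓔} (h : (ty ε).1.OK mk) (k : (ty ε).1.kd = .qhs)
    {v : (l.e ty ε).YC} (hv : v ∈ Γ.V ε) : ∃ i, v = (Γ.g ε).x i := by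
  obtain ⟨⟨n, i⟩, rfl⟩ := hv
  refine ⟨i, Eq.trans ?_ (Flo2.act_one ((Γ.g ε).x i))⟩
  exact congrArg (YC.act · _) (funext fun y => by rw [(h.qhs k).2.1]; exact one_zpow _)

theorem x_mem {l : Flo2.Lv 𝓔} (Γ : l.Cx ty) (ε : 𝓔) (i : (Γ.g ε).ι) : (Γ.g ε).x i ∈ Γ.V ε :=
  ⟨(0, i), by simp only [Flo2.Lv.Cx.lf, zpow_zero]; exact Flo2.act_one _⟩

section two
variable {ι : Bool → g.N} (hg : g.OK) (h : Prt g ι)
include hg h

theorem inf_ι (i : g.N) (s : Bool) : g.s.Inf i s ↔ i = ι s := by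
  cases s
  · rw [hg.inn, h.pin, Option.some_inj, eq_comm]
  · rw [hg.out, h.pout, h.p3, Option.some_inj, eq_comm, or_iff_left (by simp)]

theorem kd_two (s : Bool) : (g.ty (ι s)).1.kd = .qhs := by
  cases s
  · exact (hg.kin.resolve_right fun k => by simpa [h.pout] using k.1) _ h.pin
  · exact hg.kout _ h.pout

theorem gen_two (hty : ∀ ε, (ty ε).1.OK mk) {l : Flo2.Lv 𝓔} {Γ : l.Cx ty}
    {β : Plc.BC (ty := ty) (Sl := Sl) l} (hβ : p.InV Γ β) (s : Bool) :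
    ∃ i, β (p.ι (ι s)) s = (Γ.g _).x i :=
  lf_qhs Γ (hty _) (by rw [p.ty]; exact kd_two hg h s) (hβ _ s ((inf_ι hg h _ s).2 rfl))

end two

/-- the limits are the generators `i` -/
def At (ι : Bool → g.N) {l : Flo2.Lv 𝓔} (Γ : l.Cx ty) (i : ∀ s, (Γ.g (p.ι (ι s)).1).ι)
    (β : Plc.BC (ty := ty) (Sl := Sl) l) : Prop :=
  p.InV Γ β ∧ ∀ s, β (p.ι (ι s)) s = (Γ.g _).x (i s)

open Classical in
theorem exists_at {ι : Bool → g.N} (hg : g.OK) (h : Prt g ι) {l : Flo2.Lv 𝓔} {Γ : l.Cx ty}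
    (i : ∀ s, (Γ.g (p.ι (ι s)).1).ι) {β : Plc.BC (ty := ty) (Sl := Sl) l}
    (e : β (p.ι (ι false)) false = (Γ.g _).x (i false)) :
    ∃ β', At p ι Γ i β' ∧ ∀ j, β' j false = β j false := by
  have k : ∀ j, update β (p.ι (ι true)) (fun s => bif s then (Γ.g _).x (i true) else β _ false) j
      false = β j false := fun j => by
    by_cases a : j = p.ι (ι true)
    · subst a; rw [update_self]; rfl
    · rw [update_of_ne a]
  have k' : ∀ s, update β (p.ι (ι true)) (fun s => bif s then (Γ.g _).x (i true) else β _ false)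
      (p.ι (ι s)) s = (Γ.g _).x (i s) :=
    Bool.forall_bool.2 ⟨(k _).trans e, by rw [update_self]; rfl⟩
  exact ⟨_, ⟨fun j s a => by
    obtain rfl := (inf_ι hg h j s).1 a
    rw [k']; exact x_mem Γ _ _, k'⟩, k⟩

variable (G) in
/-- the conclusion for two ends: the generator of degree `x` is paired -/
def Tw (ι : Bool → g.N) (x : ℚ) (l : Flo2.Lv 𝓔) (Γ : l.Cx ty) : Prop :=
  ∃ i : ∀ s, (Γ.g (p.ι (ι s)).1).ι, (∀ i', G.d l _ ((Γ.g _).x i') = x → i' = i false) ∧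
    (∀ β, At p ι Γ i β → p.dp G l β g.pout true = p.dp G l β g.pin false + G.dg g) ∧
    ∀ W yt τ, τ.OK → EvQ (W := W) fun q => ∀ β, At p ι Γ i β → p.One l yt τ β q

theorem two (H : RadH G mk) (hg : g.Gd mk) {ε : Bool → Ty κ lam ν} (D : Dat g ε) {l : Bool → ℝ}
    (hl : D.z.KerOK D.a₀ l) (l0 : ∀ s, 0 < l s) {dg : Bool → ℝ → ℚ} {S : Bool → Set ℚ}
    (tw : ∀ s, TwId G (ε s) (dg s) (S s)) (hS : dg false (l false) ∈ S false)
    (hty : ∀ ε, (ty ε).1.OK mk)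
    (hB : ∃ μ₀, ∀ μ ≥ μ₀, ∃ C, ∃ η > 0, Ew ty μ fun lv Γ => ∀ W yt τ, τ.OK → ∀ L tr,
      Rdx (p := p) (lv := lv) D (W := W) yt τ L tr → EvQ fun q => ∀ β, p.InV Γ β →
        Lvl p D.ι lv l η β → L.Bd C (tr β) q) :
    Flo2.Ev ty (Tw G p D.ι (dg false (l false))) := by
  have e : ∀ s, ε s = ty (p.ι (D.ι s)).1 := fun s => ((p.ty _).trans (D.h s)).symm
  have tw' : ∀ s, TwId G (ty (p.ι (D.ι s)).1) (dg s) (S s) := fun s => e s ▸ tw s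
  have ev : ∀ s, Rad94.Ev (ty (p.ι (D.ι s)).1).en (l s) := fun s => e s ▸ (hl.1 s).1
  obtain ⟨μ₀, hB⟩ := hB
  refine ev_of (dg0 p H hg D.prt.wl (fun k => by simp [D.prt.pin] at k) hty)
    (max μ₀ (max (l false) (l true))) fun μ hμ => ?_
  have lμ : ∀ s, l s < μ := Bool.forall_bool.2 (max_lt_iff.1 (max_lt_iff.1 hμ).2)
  obtain ⟨C, η₂, a2, hB⟩ := hB μ (max_lt_iff.1 hμ).1.le
  obtain ⟨η₀, a0, hR⟩ := H.one _ _ _ _ D.Z D.z _ _ _ _ _ _ _ l D.base hl (fun _ => bm μ)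
    (fun s => prf_bm (l0 s) (lμ s)) C
  choose η₁ a1 hE using fun s => (tw' s).ex (l s) (l0 s) (ev s) μ (lμ s)
  obtain ⟨η, b0, b1, b2, b3⟩ : ∃ η > 0, η ≤ η₀ ∧ η ≤ η₂ ∧ ∀ s, 2 * η ≤ η₁ s :=
    ⟨min (min η₀ η₂) (min (η₁ false) (η₁ true) / 2), lt_min (lt_min a0 a2)
      (half_pos (lt_min (a1 _) (a1 _))), (min_le_left _ _).trans (min_le_left _ _),
      (min_le_left _ _).trans (min_le_right _ _), Bool.forall_bool.2
        ⟨by linarith [min_le_right (min η₀ η₂) (min (η₁ false) (η₁ true) / 2),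
          min_le_left (η₁ false) (η₁ true)],
        by linarith [min_le_right (min η₀ η₂) (min (η₁ false) (η₁ true) / 2),
          min_le_right (η₁ false) (η₁ true)]⟩⟩
  obtain ⟨lo, c0, T, w₀, c1, hR⟩ := hR η ⟨b0, b1⟩
  refine (((hB.and (ew_le c1)).and (Ew.bool fun s => Ew.at (p.ι (D.ι s)).1 (hE s η b0))).and
    (Ew.at (p.ι (D.ι false)).1 ((tw' false).lab _ hS μ ((l0 false).trans (lμ false)) η b0))).mono
    ?_
  clear hB hE
  rintro lv Γ rfl ⟨⟨⟨hB, hw⟩, hE⟩, hL⟩ h0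
  choose i i1 i2 using hE
  have cr : ∀ j i, Crit ((Γ.g j).x i) := fun j i => (Γ.ok j).crit (.inl i)
  have key : ∀ W yt τ, τ.OK → EvQ (W := W) fun q => ∀ β, At p D.ι Γ i β → Pn p lv yt τ β q lo
      (T + 1 + (|D.z.o false| + |D.z.o true|)) fun _ b => {r | |bm lv.μ r - l b| ≤ η} :=
    fun W yt τ hτ => by
    obtain ⟨L, tr, R⟩ := H.ridx g ε D hg.1 𝓔 ty Sl p lv Γ W yt τ hτ
    refine evQ_mono (evQ_and (hR lv.w ⟨Γ.w0, hw⟩ W L) (hB W yt τ hτ L tr R)) fun q ⟨k1, k2⟩ β hβ => ?_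
    obtain ⟨⟨t, t1, c, c1, c2⟩, k3⟩ := k1 (tr β)
      (fun s => ⟨R.crit β s (hβ.2 s ▸ cr _ _), by rw [R.nm, hβ.2 s]; exact i1 s⟩)
      (R.unq β l _ fun s v a b => hβ.2 s ▸ i2 s v a (b.trans (b3 s)))
      (k2 β hβ.1 fun s => by rw [hβ.2 s]; exact (i1 s).trans b2)
    have t2 := D.base.par.sub t1
    have c3 := (R.sol β q t t2 c).2 c1
    have k4 := fun y (hy : y ∈ p.M lv yt τ β q) => k3 _ hy.2 _ ((R.sol β q _ hy.2 _).1 hy.1.1)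
    refine ⟨⟨⟨(t, c), trivial, c3.1.1⟩, ⟨⟨c3, Subsingleton.elim _ _⟩, t2⟩, ?_, fun y hy => ?_⟩,
      fun y hy => R.low β y lo hy.2 fun s => (k4 y hy s).1, fun y hy j b K hK hb t ht => ?_⟩
    · refine interior_maximal D.base.par.sub ?_ t1
      simp only [ofPred_forall]
      exact isOpen_iInter_of_finite fun c => isOpen_Ioo.preimage (continuous_apply c)
    · obtain ⟨a, b⟩ := c2 _ hy.2 _ ((R.sol β q _ hy.2 _).1 hy.1.1)
      exact ⟨a.symm, (R.eqv t t2 _ _).2 b⟩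
    · obtain rfl := (R.inf j b).1 ⟨K, hK, hb⟩
      have h1 : T + 1 + (|D.z.o false| + |D.z.o true|) < pm b * t := ht.2
      have h2 : D.z.gm.tt b (pm b * (t - D.z.o b) - 1) = t := by
        cases b <;> simp [Rad94.Gm.tt, pm]
      have h3 := (k4 y hy b).2 (pm b * (t - D.z.o b) - 1) (by
        cases b <;> simp only [pm] at h1 ⊢ <;> simp at h1 ⊢ <;>
          linarith [le_abs_self (D.z.o false), neg_abs_le (D.z.o false), le_abs_self (D.z.o true),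
            neg_abs_le (D.z.o true), abs_nonneg (D.z.o false), abs_nonneg (D.z.o true)])
      rwa [← R.n2 b K hK, h2] at h3
  refine ⟨i, fun i' k => ?_, fun β hβ => ?_, fun W yt τ hτ => evQ_mono (key W yt τ hτ)
    fun q k β hβ => (k β hβ).one.imp fun y a => ⟨a.1, a.2.2⟩⟩
  · obtain ⟨l', a, b, c, d⟩ := hL i' k
    obtain rfl := (tw' false).mono.injOn ⟨a.1, b⟩ ⟨l0 false, ev false⟩ c
    exact (Sum.inl_injective ((Γ.ok _).inj (.inl (i false)) (.inl i')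
      (i2 false _ (cr _ _) (d.trans (by linarith [b3 false]))))).symm
  · have := h0 β hβ.1 lo c0 _ _ (fun j b hj => ⟨isClosed_le ((cd_bm _).continuous.sub
      continuous_const).abs continuous_const, fun v a c => ?_⟩)
      fun W yt τ hτ => evQ_mono (key W yt τ hτ) fun q k => k β hβ
    · rw [D.prt.p3] at this
      linarith [show p.dp G lv β none true = 0 from rfl]
    · obtain ⟨j, rfl, hj'⟩ := (p.lev_inf _ lv j b).1 hj
      obtain rfl := (inf_ι hg.1 D.prt j b).1 hj'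
      rw [hβ.2 b]
      exact (Γ.ok _).inv ⟨.inl (i b)⟩ _ _ (cr _ _).1 (i2 b v a (le_trans c (by linarith [b3 b])))

end Crest.Agent.X212.Sw88
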