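import Crest.Agent.X212.Sw88.C0
import Crest.Agent.X212.End23.Cor

/-!
# Row 212, lane END-S (helper88): EC-C0V, bounds of the true spinor
-/

set_option autoImplicit false
set_option linter.unusedSectionVars false
noncomputable section
open scoped Manifold ContDiff Topology InnerProductSpace
open MeasureTheory Set Filter

namespace Crest.Agent.X212.Sw88
open An Wz78 Sob92 Cyf70
open Sw (Bg F2 En3 Nk Pc Dt Pz)
open M (Mf)
open Nd18 (Dp ct BD tf fl)

variable {κ lam ν : Type} [Fintype κ] [Fintype lam] [Fintype ν] [DecidableEq ν]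
variable {X : Mf 4} {nc : ℕ}

/-- the local form of `c0_core` -/
theorem c0_loc {b : Bg X.I X.M κ lam ν nc} (hb : b.OK) {C : ℕ → ℝ} (hC : b.Bd C) (hw : 0 < b.w)
    {c : Sw.Cfg X.M κ ν} (hc : b.Adm c) {g χ : X.M → ℝ} (hg : Sm X.I g) {A G R : ℝ} {O : Set X.M} (hO : IsOpen O)
    (hD : ∀ x ∈ O, b.eD c x = ∑ i, b.F.D i g x • b.m.ρ i x (c.Φ x)) (hE : ∀ x ∈ O, ‖b.eC c x‖ ≤ R)
    (hχ : Sm X.I χ) (hA : b.F.CB 2 χ A) (hK : HasCompactSupport χ) (h01 : ∀ x, 0 ≤ χ x ∧ χ x ≤ 1)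
    (hG : ∀ x ∈ tsupport χ, x ∈ O ∧ |g x| ≤ G) {x₀ : X.M} (h1 : χ x₀ = 1) :
    ‖c.Φ x₀‖ ≤ kB (Fintype.card (Option κ)) C b.w A G R := by
  have sE : Sm X.I fun x => Real.exp (-g x) := Real.contDiff_exp.contMDiff.comp hg.neg
  set ψ : X.M → Eu ν := fun x => Real.exp (-g x) • c.Φ x with hψ
  have sψ : Sm X.I ψ := sE.smul hc.sΦ
  have e0 : ∀ x ∈ O, dir X.I b.F.e b.m.ρ (b.W c) ψ x + b.ms x (ψ x) = 0 := fun x hx => by
    have d : ∀ i, b.F.D i (fun x => Real.exp (-g x)) x = -Real.exp (-g x) * b.F.D i g x := fun i =>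
      D_fn b.F.toPre (φ := fun s => Real.exp (-s)) (by simpa using (hasDerivAt_neg (g x)).exp)
        (hg x) i
    rw [hψ, dir_smul b.F.toPre _ _ (sE x) (hc.sΦ x), map_smul, add_assoc, ← smul_add]
    change _ + _ • b.eD c x = 0
    simp only [d, hD x hx, Finset.smul_sum, ← Finset.sum_add_distrib, smul_smul, ← add_smul, neg_mul,
      neg_add_cancel, zero_smul, Finset.sum_const_zero]
  have A0 : 0 ≤ A := (norm_nonneg _).trans (CB_bound hA x₀)
  have c0 : 0 < b.w / 4 * Real.exp (-2 * G) := by positivity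
  have k := Mp86.ko (I := X.I) (e := b.F.e) (b := b.F.dv) (f := fun y => ‖ψ y‖ ^ 2)
    (R := kL (Fintype.card (Option κ)) C R ^ 2 / (b.w * Real.exp (-2 * G))) c0 (by positivity)
    (by positivity) hK h01 (fun x _ => Mp86.vf b.F.toPre x) (Mp86.cm2 hχ) (Lop_cb hC.tame hA)
    (fun x _ => Mp86.cm2 ((contDiff_norm_sq ℝ).contMDiff.comp sψ) x) (fun x hx _ => by
      refine le_trans ?_ (boch hb hc (sψ x) (.of_forall fun y => by
        rw [hψ, map_smul, p_of hb (hc.pΦ y)]) ((hO.eventually_mem (hG x hx).1).mono e0) (hC.ms x) fun i => hC.dms i x)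
      have a1 := inner_fc_qd_ge hb (hc.pΦ x)
      have a2 : ‖b.eC c x + b.om x‖ ≤ R + C 0 := (norm_add_le _ _).trans (add_le_add (hE x (hG x hx).1) (hC.om x))
      have a3 := scal_le hC.tame x
      have a4 : Real.exp (-2 * G) * Real.exp (-g x) ^ 2 ≤ 1 := by
        rw [← Real.exp_nat_mul, ← Real.exp_add, Real.exp_le_one_iff]
        have := neg_abs_le (g x)
        have := (hG x hx).2
        push_cast; linarith
      have n1 : ‖ψ x‖ ^ 2 = Real.exp (-g x) ^ 2 * ‖c.Φ x‖ ^ 2 := by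
        rw [hψ, norm_smul, mul_pow, Real.norm_eq_abs, sq_abs]
      simp only [n1]
      rw [hψ, qd_smul, real_inner_smul_right, ← sq]
      set E := Real.exp (-g x) ^ 2
      set e := Real.exp (-2 * G)
      set t := ‖c.Φ x‖ ^ 2 with ht
      set L := kL (Fintype.card (Option κ)) C R with hL
      have t0 : 0 ≤ t := sq_nonneg _
      have E0 : 0 ≤ E := sq_nonneg _
      have e0 : 0 < b.w * e := by positivity
      rw [show ‖c.Φ x‖ ^ 4 = t ^ 2 by rw [ht]; ring] at a1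
      have b1 : L * (E * t) ≤ b.w * e / 4 * (E * t) ^ 2 + L ^ 2 / (b.w * e) := by
        have : L ^ 2 / (b.w * e) = (b.w * e) * (L / (b.w * e)) ^ 2 := by field_simp
        rw [this]
        nth_rw 1 [show L = b.w * e * (L / (b.w * e)) from (mul_div_cancel₀ L e0.ne').symm]
        nlinarith [mul_nonneg e0.le (sq_nonneg (E * t / 2 - L / (b.w * e)))]
      have b2 : e * E * (b.w * E * t ^ 2) ≤ 1 * (b.w * E * t ^ 2) := by gcongr
      have b3 := mul_le_mul_of_nonneg_left a1 E0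
      have b4 := mul_le_mul_of_nonneg_right a2 (mul_nonneg E0 t0)
      have b5 := mul_le_mul_of_nonneg_right a3 (mul_nonneg E0 t0)
      rw [hL, kL] at b1
      rw [hL, kL]
      nlinarith) x₀
  refine Real.le_sqrt_of_sq_le ?_
  rw [h1, one_pow, one_mul, hψ, norm_smul, mul_pow, Real.norm_eq_abs, sq_abs] at k
  refine le_trans ?_ (mul_le_mul_of_nonneg_left k (Real.exp_pos _).le)
  rw [← mul_assoc, ← Real.exp_nat_mul, ← Real.exp_add]
  refine le_mul_of_one_le_left (sq_nonneg _) (Real.one_le_exp ?_)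
  have := le_abs_self (g x₀)
  have := (hG x₀ (subset_tsupport _ (by simp [h1]))).2
  push_cast; linarith

/-- the constant of a product of cut-off functions -/
def kA (C : ℕ → ℝ) (a : ℝ) (n : ℕ) : ℝ := 2 ^ (2 + 1) * |C 2| * abs ((2 ^ (2 + 1) * |a|) ^ n)

theorem c0_prod {b : Bg X.I X.M κ lam ν nc} (hb : b.OK) {C : ℕ → ℝ} (hC : b.Bd C) (hw : 0 < b.w)
    {c : Sw.Cfg X.M κ ν} (hc : b.Adm c) {N : Type} [Fintype N] {φ : N → X.M → ℝ} {g : X.M → ℝ}
    (hg : Sm X.I g) {a G R : ℝ} {O : Set X.M} (hO : IsOpen O)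
    (hD : ∀ x ∈ O, b.eD c x = ∑ i, b.F.D i g x • b.m.ρ i x (c.Φ x)) (hE : ∀ x ∈ O, ‖b.eC c x‖ ≤ R)
    {x₀ : X.M} (k : ∀ i, Sm X.I (φ i) ∧ b.F.CB 2 (φ i) a ∧ (∀ x, φ i x ∈ Icc (0 : ℝ) 1) ∧ φ i x₀ = 1)
    (hs : ∀ x, (∀ i, x ∈ tsupport (φ i)) → x ∈ O ∧ |g x| ≤ G) :
    ‖c.Φ x₀‖ ≤ kB (Fintype.card (Option κ)) C b.w (kA C a (Fintype.card N)) G R := by
  obtain ⟨χ, c1, c2, c3, c4⟩ := hC.tame.exh {x₀} isCompact_singleton
  have p := Cht98.CB_prod (fun i => (k i).1) (fun i => (k i).2.1) Finset.univ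
  refine c0_loc hb hC hw hc (χ := fun x => χ x * ∏ i, φ i x) hg hO hD hE (c1.1.mul p.1)
    (Cht98.CB_mul c1.1 p.1 (c1.2 2) p.2) c2.mul_right (fun x => ?_) (fun x hx => hs x fun i => ?_) ?_
  · have q0 := Finset.prod_nonneg fun i (_ : i ∈ Finset.univ) => ((k i).2.2.1 x).1
    exact ⟨mul_nonneg (c3 x).1 q0, mul_le_one₀ (c3 x).2 q0 (Finset.prod_le_one
      (fun i _ => ((k i).2.2.1 x).1) fun i _ => ((k i).2.2.1 x).2)⟩
  · refine closure_mono (fun y hy => Function.mem_support.2 fun h => Function.mem_support.1 hy ?_) hx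
    simp [Finset.prod_eq_zero (f := fun i => φ i y) (Finset.mem_univ i) h]
  · simp [c4 x₀ rfl, (k _).2.2.2]

theorem kB_scale (n : ℝ) (C : ℕ → ℝ) {w : ℝ} (hw : 0 < w) (A G R : ℝ) :
    √w * kB n C w A G R = kB n C 1 A G R := by
  have e := Real.exp_pos (-2 * G)
  have h : √(kL n C R ^ 2 / (w * Real.exp (-2 * G)) / (w / 4 * Real.exp (-2 * G))) =
      √(kL n C R ^ 2 / (1 * Real.exp (-2 * G)) / (1 / 4 * Real.exp (-2 * G))) / w := by
    rw [← Real.sqrt_sq hw.le, ← Real.sqrt_div' _ (sq_nonneg w), Real.sqrt_sq hw.le]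
    congr 1; field_simp
  rw [kB, kB, ← Real.sqrt_mul hw.le, h]
  congr 1; field_simp

theorem cF_le {N : Type} [Fintype N] (f : N → ℝ) (i : N) : f i ≤ 1 + ∑ i, |f i| :=
  (le_abs_self _).trans ((Finset.single_le_sum (f := fun i => |f i|) (fun _ _ => abs_nonneg _)
    (Finset.mem_univ i)).trans (by linarith))

theorem cb_one {N : Type} [Fintype N] (f : N → ℝ) (b : Bg X.I X.M κ lam ν nc) :
    b.F.CB 2 (fun _ => (1 : ℝ)) (1 + ∑ i, |f i|) := CB_mono (CB_const 2 (1 : ℝ)) (by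
  rw [norm_one]; exact le_add_of_nonneg_right (Finset.sum_nonneg fun _ _ => abs_nonneg _))

theorem crude (N : Type) [Fintype N] (e : N → En3 κ lam ν) (C : ℕ → ℝ) (B R : ℝ) : ∃ K : ℝ,
    ∀ w > 0, ∀ (b : N → ℝ → ℝ) (S : N → Set ℝ) (ψ : N → ℝ → ℝ), (∀ i r, b i r ≤ B) → ∀ (X : Mf 4) (nc : ℕ)
      (P : Pz X nc fun i => (e i).re w (b i) (S i) (ψ i)), P.OK → P.bg.Bd C → P.bg.w = w → ∀ c,
      P.bg.Adm c → (∀ x, P.bg.eD c x = P.p0.D c x ∧ ‖P.bg.eC c x - P.p0.C c x‖ ≤ R) →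
        ∀ x, √w * ‖c.Φ x‖ ≤ K := by
  have hA : ∀ i, ∃ A, 0 ≤ A ∧ ∀ w b S ψ, ((e i).re w b S ψ).OK →
      ∀ r y, ‖deriv (e i).f r • (e i).ζ y‖ ≤ A := fun i => by
    by_cases h : ∃ w b S ψ, ((e i).re w b S ψ).OK
    · obtain ⟨w, b, S, ψ, h⟩ := h
      exact (hl_le ((e i).re w b S ψ)).imp fun A k => ⟨k.1, fun _ _ _ _ _ => k.2 h⟩
    · exact ⟨0, le_rfl, fun w b S ψ k => absurd ⟨w, b, S, ψ, k⟩ h⟩
  choose A A0 hA using hA
  choose T hT using fun i => Nd18.cbs_Dτ (e i).D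
  obtain ⟨S, hS⟩ := Nd18.bd_ct
  refine ⟨kB (Fintype.card (Option κ)) C 1 (kA C (1 + ∑ i, |cF (T i) 2 S|) (Fintype.card N))
    (∑ _ : N, |B|) (∑ i, A i + R), fun w hw β S' ψ hB X nc P hP hC e' c hc hE x₀ => ?_⟩
  rw [← kB_scale _ _ hw]
  refine mul_le_mul_of_nonneg_left ?_ (Real.sqrt_nonneg _)
  let g : N → X.M → ℝ := fun i x => (P.nk i).elim 0 fun K => γ K c (K.τ x) - γ K c (K.τ x₀)
  let φ : N → X.M → ℝ := fun i x =>
    (P.nk i).elim 1 fun K => ct (some (K.τ x₀ - 1)) (some (K.τ x₀ + 1)) 0 (K.τ x)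
  have k : ∀ i, Sm X.I (g i) ∧ (Sm X.I (φ i) ∧ P.bg.F.CB 2 (φ i) (1 + ∑ i, |cF (T i) 2 S|) ∧
      (∀ x, φ i x ∈ Icc (0 : ℝ) 1) ∧ φ i x₀ = 1) ∧ (∀ x, φ i x ≠ 0 → |g i x| ≤ |B|) ∧
      ∀ x, ((P.nk i).elim 0 fun K => K.rad c x) =
        ∑ a, P.bg.F.D a (g i) x • P.bg.m.ρ a x (c.Φ x) := fun i => by
    simp only [g, φ]
    rcases P.nk i with _ | K
    · exact ⟨contMDiff_const, ⟨contMDiff_const, cb_one _ _, fun _ => by simp, rfl⟩,
        fun _ _ => by simp, fun x => by simp [Pre.D_def, dv_const]⟩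
    have s1 := sm_γτ K (hP.en i) hc.sΦ
    refine ⟨s1.sub contMDiff_const, ⟨Nd18.contDiff_ct.contMDiff.comp K.sm_τ,
      CB_mono (CB_fn K.sm_τ (hT i K.toNk) 2 (hS _ _ _)) (cF_le (fun i => cF (T i) 2 S) i),
      fun _ => Nd18.ct_mem, Nd18.ct_one (by simp [Dp])⟩, fun x hx => ?_, fun x => ?_⟩
    · have m : K.τ x ∈ Dp (some (K.τ x₀ - 1)) (some (K.τ x₀ + 1)) 0 :=
        by_contra fun n => hx (Nd18.ct_zero n)
      simp only [Dp, Option.mem_def, Option.some.injEq, forall_eq', mem_ofPred_eq] at m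
      refine (γ_lip K (hP.en i) hc.sΦ (fun r _ => (hB i r).trans (le_abs_self _)) _
        _).trans (mul_le_of_le_one_right (abs_nonneg _) (abs_le.2 ⟨by linarith, by linarith⟩))
    · refine (rad_eq K (hP.en i) hc.sΦ x).trans (Finset.sum_congr rfl fun a _ => ?_)
      simp only [Option.elim, Pre.D_def]
      rw [dv_sub' (s1 x) contMDiffAt_const, dv_const, Pi.zero_apply, sub_zero]
  refine le_of_le_of_eq (c0_prod hP.bg hC (hw.trans_eq e'.symm) hc (g := fun x => ∑ i, g i x)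
    (contMDiff_finsetSum fun i _ => (k i).1) isOpen_univ (fun x _ => ?_) (fun x _ => ?_)
    (fun i => (k i).2.1) fun x hx => ⟨trivial, (Finset.abs_sum_le_sum_abs _ _).trans
      (Finset.sum_le_sum fun i _ => closure_minimal (k i).2.2.1
        (isClosed_le (k i).1.continuous.abs continuous_const) (hx i))⟩) (by rw [e'])
  · rw [(hE x).1]
    change ∑ i, _ = _
    simp only [(k _).2.2.2, Pre.D_def]
    rw [Finset.sum_comm]
    exact Finset.sum_congr rfl fun a _ => by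
      rw [← Finset.sum_smul, dv_sum' _ fun i => (k i).1 x]
  · rw [← add_sub_cancel (P.p0.C c x) (P.bg.eC c x)]
    refine (norm_add_le _ _).trans (add_le_add ((norm_sum_le _ _).trans
      (Finset.sum_le_sum fun i _ => ?_)) (hE x).2)
    rcases P.nk i with _ | K
    · simpa using A0 i
    · exact norm_hl K c x (hA i _ _ _ _ (hP.en i))

theorem bd_scale {f : ℝ → ℝ} {A : ℕ → ℝ} (h : BD f A) :
    BD (fun t => f (16 * t)) fun k => 16 ^ k * A k :=
  ⟨h.1.comp (contDiff_const.mul contDiff_id), fun k i hi t => by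
    rw [iteratedDeriv_comp_const_mul (h.1.of_le (mod_cast le_top)), norm_mul, norm_pow,
      Real.norm_ofNat]
    exact mul_le_mul (pow_le_pow_right₀ (by norm_num) hi) (h.2 k i hi _) (norm_nonneg _)
      (by positivity)⟩

theorem fl_mem {s : ℝ} (h : 0 ≤ s) : 0 ≤ fl s :=
  mul_nonneg h (sub_nonneg.2 (Real.smoothTransition.le_one _))

theorem fl_lo (s : ℝ) : min s 0 ≤ fl s := (le_total s 0).elim
  (fun h => (min_le_left _ _).trans (Nd18.fl_le (by linarith)).ge) fun h =>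
    (min_le_right _ _).trans (fl_mem h)

section tf
variable {p q : Option ℝ} (hl : ∀ a ∈ p, ∀ b ∈ q, a + 2 ≤ b) {s r : ℝ}
include hl

theorem tf_p (h : r ∈ p) : (s < r + 7 / 8 → tf p q s ≤ r + 7 / 8) ∧ (r + 1 ≤ s → r + 1 ≤ tf p q s) := by
  obtain rfl : p = some r := h
  have k := fl_lo (s - r)
  rcases q with _ | b <;> simp only [tf, Option.elim] <;> refine ⟨fun h => ?_, fun h => ?_⟩
  · rcases min_choice (s - r) 0 with e | e <;> linarith
  · rw [Nd18.fl_ge (by linarith)]; linarith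
  · have := hl r rfl b rfl
    rw [Nd18.fl_ge (s := b - s) (by linarith)]
    rcases min_choice (s - r) 0 with e | e <;> linarith
  · have := hl r rfl b rfl
    have k' := fl_lo (b - s)
    rw [Nd18.fl_ge (s := s - r) (by linarith)]
    rcases min_choice (b - s) 0 with e | e <;> linarith

theorem tf_q (h : r ∈ q) : (r - 7 / 8 < s → r - 7 / 8 ≤ tf p q s) ∧ (s ≤ r - 1 → tf p q s ≤ r - 1) := by
  obtain rfl : q = some r := h
  have k := fl_lo (r - s)
  rcases p with _ | a <;> simp only [tf, Option.elim] <;> refine ⟨fun h => ?_, fun h => ?_⟩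
  · rcases min_choice (r - s) 0 with e | e <;> linarith
  · rw [Nd18.fl_ge (by linarith)]; linarith
  · have := hl a rfl r rfl
    rw [Nd18.fl_ge (s := s - a) (by linarith)]
    rcases min_choice (r - s) 0 with e | e <;> linarith
  · have := hl a rfl r rfl
    have k' := fl_lo (s - a)
    rw [Nd18.fl_ge (s := r - s) (by linarith)]
    rcases min_choice (s - a) 0 with e | e <;> linarith

end tf

theorem isOpen_sd {e : En3 κ lam ν} {b : Bg X.I X.M κ lam ν nc} (K : Nk e b) (s : Bool) (d : ℝ) :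
    IsOpen (End23.sd K s d) := by
  cases s
  · simp only [End23.sd, Bool.false_eq_true, ↓reduceIte, ofPred_exists, ofPred_and]
    exact isOpen_iUnion fun _ => isOpen_const.inter (isOpen_lt K.cont continuous_const)
  · simp only [End23.sd, ↓reduceIte, ofPred_exists, ofPred_and]
    exact isOpen_iUnion fun _ => isOpen_const.inter (isOpen_lt continuous_const K.cont)

theorem isOpen_Vx {N : Type} [Fintype N] {e : N → En3 κ lam ν} (P : Pz X nc e) (σ : N → Bool)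
    (d : ℝ) : IsOpen (End23.Vx P σ d) := by
  simp only [End23.Vx, ofPred_forall]
  refine isOpen_iInter_of_finite fun i => isOpen_iInter_of_finite fun _ => ?_
  rcases P.nk i with _ | K
  · simp
  · simpa using isOpen_sd K (σ i) d

/-- the cut-off at a side of a neck -/
theorem sd_cut {e : En3 κ lam ν} {b : Bg X.I X.M κ lam ν nc} (K : Nk e b) (s : Bool) {S : ℕ → ℝ}
    (hS : BD Real.smoothTransition S) {x₀ : X.M} (h : x₀ ∈ End23.sd K s (7 / 8)) :
    ∃ f : ℝ → ℝ, BD f (fun k => 16 ^ k * S k) ∧ (∀ t, f t ∈ Icc (0 : ℝ) 1) ∧ f (K.τ x₀) = 1 ∧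
      tsupport (fun x => f (K.τ x)) ⊆ End23.sd K s 1 := by
  have m : ∀ t, Real.smoothTransition t ∈ Icc (0 : ℝ) 1 := fun t =>
    ⟨Real.smoothTransition.nonneg t, Real.smoothTransition.le_one t⟩
  have z : ∀ t, Real.smoothTransition t ≠ 0 → 0 ≤ t := fun t ht =>
    not_lt.1 fun n => ht (Real.smoothTransition.zero_of_nonpos n.le)
  cases s
  · obtain ⟨r, hr, h⟩ : ∃ r ∈ K.p, K.tm x₀ < r + 7 / 8 := h
    refine ⟨_, (bd_scale hS).refl (r + 15 / 16), fun _ => m _,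
      Real.smoothTransition.one_of_one_le ?_, (closure_minimal (t := {x | K.τ x ≤ r + 15 / 16})
        (fun x hx => ?_) (isClosed_le K.sm_τ.continuous continuous_const)).trans fun x hx =>
        ⟨r, hr, not_le.1 fun n => ?_⟩⟩
    · linarith [show K.τ x₀ ≤ _ from (tf_p K.len hr).1 h]
    · have := z _ hx
      change K.τ x ≤ _; linarith
    · linarith [show _ ≤ K.τ x from (tf_p K.len hr).2 n, show K.τ x ≤ _ from hx]
  · obtain ⟨r, hr, h⟩ : ∃ r ∈ K.q, r - 7 / 8 < K.tm x₀ := h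
    refine ⟨_, (bd_scale hS).shift (15 / 16 - r), fun _ => m _,
      Real.smoothTransition.one_of_one_le ?_, (closure_minimal (t := {x | r - 15 / 16 ≤ K.τ x})
        (fun x hx => ?_) (isClosed_le continuous_const K.sm_τ.continuous)).trans fun x hx =>
        ⟨r, hr, not_le.1 fun n => ?_⟩⟩
    · linarith [show _ ≤ K.τ x₀ from (tf_q K.len hr).1 h]
    · have := z _ hx
      change _ ≤ K.τ x; linarith
    · linarith [show K.τ x ≤ _ from (tf_q K.len hr).2 n, show _ ≤ K.τ x from hx]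

theorem vx (N : Type) [Fintype N] (e : N → En3 κ lam ν) (C : ℕ → ℝ) (R : ℝ) : ∃ K : ℝ,
    ∀ (X : Mf 4) (nc : ℕ) (P : Pz X nc e), P.OK → P.bg.Bd C → P.bg.w = 1 → ∀ σ c, P.bg.Adm c →
      (∀ x ∈ End23.Vx P σ 1, P.bg.eD c x = 0 ∧ ‖P.bg.eC c x‖ ≤ R) →
        ∀ x ∈ End23.Vx P σ (7 / 8), ‖c.Φ x‖ ≤ K := by
  choose T hT using fun i => Nd18.cbs_Dτ (e i).D
  obtain ⟨S, hS⟩ := Nd18.bd_st
  refine ⟨kB (Fintype.card (Option κ)) C 1 (kA C (1 + ∑ i, |cF (T i) 2 fun k => 16 ^ k * S k|)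
    (Fintype.card N)) 0 R, fun X nc P hP hC e' σ c hc hE x₀ h₀ => ?_⟩
  have k : ∀ i, ∃ φ : X.M → ℝ, (Sm X.I φ ∧
      P.bg.F.CB 2 φ (1 + ∑ i, |cF (T i) 2 fun k => 16 ^ k * S k|) ∧ (∀ x, φ x ∈ Icc (0 : ℝ) 1) ∧
      φ x₀ = 1) ∧ ∀ x ∈ tsupport φ, ¬P.Off i → ∀ K ∈ P.nk i, x ∈ End23.sd K (σ i) 1 := fun i => by
    by_cases h : P.Off i
    · exact ⟨fun _ => 1, ⟨contMDiff_const, cb_one _ _, fun _ => by simp, rfl⟩,
        fun _ _ n => absurd h n⟩
    obtain ⟨K, hK⟩ : ∃ K, K ∈ P.nk i := by_contra fun n => h fun K k => absurd ⟨K, k⟩ n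
    obtain ⟨f, f1, f2, f3, f4⟩ := sd_cut K (σ i) hS (h₀ i h K hK)
    exact ⟨_, ⟨f1.1.contMDiff.comp K.sm_τ, CB_mono (CB_fn K.sm_τ (hT i K.toNk) 2 f1)
      (cF_le (fun i => cF (T i) 2 fun k => 16 ^ k * S k) i), fun _ => f2 _, f3⟩,
      fun x hx _ K' hK' => Option.mem_unique hK hK' ▸ f4 hx⟩
  choose φ k1 k2 using k
  exact le_of_le_of_eq (c0_prod hP.bg hC (one_pos.trans_eq e'.symm) hc (g := fun _ => 0) (G := 0) contMDiff_const
    (isOpen_Vx P σ 1) (fun x hx => by simp [(hE x hx).1, Pre.D_def, dv_const])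
    (fun x hx => (hE x hx).2) k1 fun x hx => ⟨fun i => k2 i x (hx i), by simp⟩) (by rw [e'])

variable (κ lam ν) in
/-- **EC-C0V** -/
theorem c0v : End23.C0vStmt κ lam ν := ⟨crude, vx⟩

end Crest.Agent.X212.Sw88
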