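import Crest.Agent.X212.Sw88.Amd
import Crest.Agent.X212.Pnt66.Ex
import Crest.Agent.X212.Eqv71.Nk1

/-! Row 212, A-EX (helper88): charts at the solutions of a part on which the wall `a` is broken. -/

set_option autoImplicit false
set_option linter.unusedSectionVars false
noncomputable section
open scoped Manifold ContDiff Topology InnerProductSpace
open MeasureTheory Set Function Filter

namespace Crest.Agent.X212.Sw88.Aex
open An M Nd18 Mod61 Nk89 Cht98 Rf65 Pte3 Fk18 Eqv71 Pnt66 Rdc90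
open An.Job (SolOn)

section gen
variable {E3 : Type} [NormedAddCommGroup E3] [NormedSpace ℝ E3] [FiniteDimensional ℝ E3]
  [MeasurableSpace E3] [BorelSpace E3]
  {H3 : Type} [TopologicalSpace H3] {I3 : ModelWithCorners ℝ E3 H3} [I3.Boundaryless]
  {Y : Type} [TopologicalSpace Y] [ChartedSpace H3 Y] [IsManifold I3 ∞ Y] [T2Space Y]
  [MeasurableSpace Y] [BorelSpace Y] [SecondCountableTopology Y] [CompactSpace Y]
  {κ : Type} [Fintype κ] {lam : Type} [Fintype lam] {D : YD I3 Y κ lam} {β : YC Y κ lam}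
  {E : Type} [NormedAddCommGroup E] [NormedSpace ℝ E] [FiniteDimensional ℝ E]
  [MeasurableSpace E] [BorelSpace E]
  {HM : Type} [TopologicalSpace HM] {I : ModelWithCorners ℝ E HM} [I.Boundaryless]
  {Z : Type} [TopologicalSpace Z] [ChartedSpace HM Z] [IsManifold I ∞ Z]
  [MeasurableSpace Z] [T2Space Z] [BorelSpace Z] [SecondCountableTopology Z]
  {B : Base Z (Option κ) lam} {G : Geo I Z (Option κ) lam} {K : Nk D B G} {r : ℕ}
  {c : Cfg Z (Option κ) lam r} {ζ : Circle} {l : Filter ℝ} {d : ℝ}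

theorem elim_phs (hJ : c.m.J * c.m.J = -1) (ξ : Circle) (H : K.ELim d c β ζ l) :
    K.ELim d (phs ξ⁻¹ c) β (ζ * ξ) l :=
  let ⟨u, S, a, b, f, H⟩ := H
  ⟨u, S, a, b, cls_phs (c := K.pb c) ξ hJ f, fun k => (H k).imp fun _ H s hs =>
    cls_phs (c := K.pb c) ξ hJ (H s hs)⟩

/-- the limit of a configuration without spinor has no spinor -/
theorem lim_zr [l.NeBot] (h0 : ∀ z ∈ K.ψ.target, c.Φ z = 0) (H : K.Lim c β ζ l) : D.Zr β :=
  fun y => norm_le_zero_iff.1 (le_of_forall_pos_le_add fun η hη => by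
    obtain ⟨u, H⟩ := H
    obtain ⟨S, a, b, f⟩ := H 0 η hη
    obtain ⟨s, hs⟩ := Filter.nonempty_of_mem a
    have : ‖YD.dP (K.pb c) β u ζ (y, s)‖ ≤ η := f.P [] le_rfl (y, s) ⟨trivial, hs⟩
    rwa [YD.dP, show (K.pb c).Φ (y, s) = 0 from h0 _ (K.ψ.map_source (K.mem_src.2 (b hs))),
      map_zero, cs_zero, zero_sub, norm_neg, ← zero_add η] at this)

theorem eqOn_phs {F : Fr I Z (Option κ)} {O : Set Z} {c' : Cfg Z (Option κ) lam r} {ξ : Circle}
    {w : Z → CL c.m.V c'.m.V} (e : EqOn B F O (phs ξ c) c' w 1) : EqOn B F O c c' w ξ :=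
  ⟨e.m, e.W, fun x hx => (e.Φ x hx).trans ((cs_one _ _).trans (map_cs (e.m.J x hx) _ _)),
    e.z.trans (by rw [Circle.coe_one, one_pow, one_smul])⟩

end gen

variable {Wi : Type} {X : Mf 4} {A κ lam : Type} [Fintype A] [Fintype κ] [Fintype lam]
  [DecidableEq lam] {M : Mark X A κ} {W : World M} {N : ML M lam} {Λ : Lns W N}
  {A' h : Type} [Fintype A'] [DecidableEq A'] [Fintype h] {r n : ℕ}
  {J : Job Wi Λ A' h r n} {c : M.Cl} {a : A} {σ : Cel A'} {p : Prt A A' h}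

/-- the ends of other pieces lie off the pieces `P` -/
theorem end_off (hJ : J.OK) {P : Set (Reg A)} (hP : ∀ π ∈ P, M.sys.Piece c.1 π) {i : Ed c}
    (hi : i ∉ EdP c P) {t : Prm A} (ha : Act J.m c i.1 (some i.2) t) :
    (J.K c i.1 _ _ ha).ψ.target ⊆ (W.un c P)ᶜ := fun z hz k => by
  obtain ⟨π, h1, h2⟩ := mem_un.1 k
  have := M.con
  obtain ⟨π', h3, h4⟩ := (Sys.existsUnique_adj c.2 i.1.2.1 i.2).exists
  have h5 := hJ.end_sub ha (P := {π'}) (fun _ e => e ▸ h3) ⟨π', rfl, h4⟩ hz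
  rw [un_one] at h5
  exact hi ⟨π, h1, Cyl58.pc_unique _ h3 (hP π h1) h5 h2 ▸ h4⟩

instance (b : Bool) : (dr b).NeBot := by
  cases b
  exacts [inferInstanceAs (NeBot atTop), inferInstanceAs (NeBot atBot)]

theorem zr (H : PG J c σ p) {q : Wi →₀ ℝ} {y : J.Obc c} (S : SolOn p σ q y) {i : Ed c}
    (hi : i ∈ EdP c p.P) (hi' : i ∉ EdP c p.P') : (J.xs i.1).D.Zr (y.β i.1 i.2) :=
  have ha : Act J.m c i.1 (some i.2) (J.Θ y.s) :=
    ⟨i.1.2.2, H.ok.memBr H.mem S.ov, H.ok.memO H.mem S.ov, i.1.2.1⟩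
  lim_zr (l := dr i.2) (fun z hz => S.off z (end_off H.ok (fun π k => H.pok.pc π (H.pok.sub k))
    hi' ha hz)) (S.lim _ _ ha hi)

/-- **A-EX**, given that the limits on the other walls have no spinor -/
theorem exA' (hz : MJ J c a → ∀ x ∈ cylW c, x ≠ a → ∀ β, (J.xs x).N.Crit (J.xs x).D β →
    (J.xs x).D.Zr β) (hD : DeA J c a) : ExA J c a := fun hM => by
  filter_upwards [hD hM, Ioc_mem_nhdsGT dl0_pos] with δ hD ⟨d0, d1⟩
  refine hD.mono fun Adm hD σ p H q y ha S => ?_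
  let b : Bp J c := ⟨y.s, H.ok.memBr H.mem S.ov, H.ok.memO H.mem S.ov⟩
  obtain ⟨ξ, hξ⟩ : ∃ ξ : Circle, ∀ b, p.En a b → y.ζ a b * ξ = 1 := by
    by_cases k : p.En a false
    · refine ⟨(y.ζ a false)⁻¹, fun b hb => ?_⟩
      cases b
      exacts [mul_inv_cancel _, (S.one k hb).2 ▸ mul_inv_cancel _]
    · refine ⟨(y.ζ a true)⁻¹, fun b hb => ?_⟩
      cases b
      exacts [(k hb).elim, mul_inv_cancel _]
  let t : Tq p Empty := (fun a => y.s a, 0)
  have e : b.θ p Empty t = y.s := funext fun a => by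
    unfold Bp.θ; split_ifs <;> rfl
  have ac := fun i => H.act_iff (U := Empty) (b := b) d0 d1 (i := i)
  have cr := fun (i : Ed c) (hi : i ∈ EdP c p.P) => S.crit _ i.1.2 _ hi
  have ad := ad0_phs ξ⁻¹ (ad0 S.adm)
  obtain ⟨o, R, x, w, k1, k2, k3, k4, -, k5, k6⟩ := pnt (H.ends Empty b d0 d1) (t := t)
    (c := phs ξ⁻¹ y.x) (β := fun i : Ed c => y.β i.1 i.2) (η := fun _ => 0) (l := fun _ => 0)
    (ζ := fun i : Ed c => y.ζ i.1 i.2 * ξ) (show J.Θ (b.θ p Empty t) ∈ M.O c.1 from e ▸ b.O)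
    (show Adm0 (phs ξ⁻¹ y.x) (J.B c) (J.G c (b.θ p Empty t)) from
      e ▸ ⟨ad.ok, ad.conn, ad.sm, ad.pos⟩)
    (fun z hz => (congrArg _ (S.off z hz)).trans (cs_zero _ _)) fun (i : Ed c) hi => by
      have k := cr i ((ac i).1 hi)
      obtain ⟨d, j1, j2⟩ := hD σ p H q y ha S.toSolOn i ((ac i).1 hi) ⟨i.1.2.2, b.br, b.O, i.1.2.1⟩
      have k'' : ((H.ends Empty b d0 d1).P i).l = dr i.2 := by obtain ⟨_, _ | _⟩ := i <;> rfl
      refine ⟨⟨k.sol.toAdm, k.tmp⟩, fo_zero, d, by linarith, ?_⟩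
      rw [smul_zero, Rd78.bh_zero, k'']
      exact elim_phs S.adm.ok.Jsq ξ j2
  choose! v hv using k6
  choose ψ hψ using fun i : p.H =>
    exists_cut (Λ.B_ok J.m c) S.adm.ok o.ok k3 (J.cut c i) (y.ψ i)
  let E : EC b p Empty δ := ⟨o, R, fun i => y.β i.1 i.2, fun _ => 0, fun _ => none, v⟩
  have rep : E.RepC y x ψ := ⟨fun a => by rw [k2], w, ξ⁻¹, by rw [k2]; exact eqOn_phs k4, hψ⟩
  refine ⟨b, δ, E, x, ψ, rfl, ⟨⟨d0, d1, k1.le, k1.lit, fun _ _ k => (k rfl).elim,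
    fun i hi t' ht' => ?_⟩, S.ov, rfl, LinearMap.ext fun t' => funext fun z =>
      k5 t' z fun _ _ k => (k rfl).elim, cr, fun i hi hi' => zr H S.toSolOn hi hi',
      fun _ k k' => (S.one k k').1, q, y, x, ψ, S.toSolOn, rep⟩, rep, fun i hi => ?_⟩
  · have := hv i ((ac i).2 hi) t' ht'
    by_cases k : i.1.1 = a
    · rwa [show y.ζ i.1 i.2 * ξ = 1 from k ▸ hξ i.2 (k ▸ hi), inv_one] at this
    · exact eqOn_one (fun z => (add_zero _).trans (hz hM _ i.1.2 k _ (cr i hi) z)) this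
  · rw [Amd.lim_eq]
    exact eqv_refl (H.ok.xs _).1.yd ⟨(cr i hi).sol.toAdm, (cr i hi).tmp⟩

end Crest.Agent.X212.Sw88.Aex
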