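import Crest.Agent.X212.Sw88.BigA
import Crest.Agent.X212.Sw88.Nsi

/-!
# Row 212, lane END-S (helper88): EC-BIG, the spinor is not small on the root
-/

set_option autoImplicit false
set_option linter.unusedSectionVars false
noncomputable section
open scoped Manifold ContDiff Topology InnerProductSpace ENNReal
open MeasureTheory Set Function Filter

namespace Crest.Agent.X212.Sw88.Big
open An Cyf70 Sw Sw.En3 End23
open Wz78 (SA)
open Nd18 (Jv)
open M (Mf)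

theorem ex_t {f g : ℝ → ℝ≥0∞} {I : Set ℝ} (hI : MeasurableSet I)
    (hf : AEMeasurable f (volume.restrict I)) {x y : ℝ≥0∞} (h1 : ∫⁻ t in I, f t ≤ x)
    (h2 : ∫⁻ t in I, g t ≤ y) (hv : x + y < volume I) : ∃ t ∈ I, f t + g t < 1 := by
  by_contra! h
  refine hv.not_ge ((setLIntegral_one I).symm.trans_le ((setLIntegral_mono' hI h).trans ?_))
  rw [lintegral_add_left' hf]
  exact add_le_add h1 h2

theorem ex_pos {N : Type} [Finite N] {f : N → ℝ} (h : ∀ i, 0 < f i) : ∃ r > 0, ∀ i, r ≤ f i :=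
  ((eventually_mem_nhdsWithin (a := 0) (s := Ioi 0)).and (eventually_all.2 fun i =>
    mem_of_superset (Ioc_mem_nhdsGT (h i)) fun _ k => k.2)).exists

theorem en_le {V : Type} [NormedAddCommGroup V] {v : V} {r : ℝ} (h : ‖v‖ ^ 2 ≤ r) :
    ‖v‖ₑ ^ 2 ≤ ENNReal.ofReal r := by
  rw [← ofReal_norm, ← ENNReal.ofReal_pow (norm_nonneg _)]
  exact ENNReal.ofReal_le_ofReal h

variable {κ lam ν : Type} [Fintype κ] [Fintype lam] [Fintype ν] [DecidableEq ν]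

section neck
variable {e : En3 κ lam ν}

theorem red_lf {θ : (lf e).YC} (h : Red θ) : Red (⟨θ.a, 0⟩ : e.YC) := by
  obtain ⟨a, Φ⟩ := θ
  obtain ⟨⟨h1, h2, h3⟩, rfl : Φ = 0⟩ := h
  refine ⟨⟨⟨h1.1, h1.2, h1.3, h1.4⟩, fun k y => Eq.trans ?_ (h2 k y), fun y => Eq.trans ?_ (h3 y)⟩,
    rfl⟩
  · have : ∀ b : Bg (IC e.Y.I) (e.Y.M × ℝ) κ lam ν 0, b.qd (y, 0) 0 0 = 0 := fun b => by
      ext s
      simp [Bg.qd]
    simp only [gr, Bg.eC, fz, Pi.zero_apply, this, smul_zero]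
    rfl
  · simp only [gr, Pi.zero_apply, smul_zero]
    rfl

theorem lint_nm {A : e.ZC} {I : Set ℝ} (hI : MeasurableSet I) (h : ContinuousOn A.Φ (univ ×ˢ I)) :
    ∫⁻ t in I, ENNReal.ofReal (nm (sl A t)) ≤ ∫⁻ x in univ ×ˢ I, ‖A.Φ x‖ₑ ^ 2 ∂e.D.Z.μ := by
  have m := (h.aemeasurable (μ := e.D.F.μ.prod volume) (MeasurableSet.univ.prod hI)).enorm.pow_const 2
  change _ ≤ ∫⁻ x in univ ×ˢ I, _ ∂e.D.F.μ.prod volume
  rw [← Measure.prod_restrict, Measure.restrict_univ] at m ⊢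
  rw [lintegral_prod_symm _ m]
  exact lintegral_mono fun t => (Real.ofReal_le_enorm _).trans
    ((enorm_integral_le_lintegral_enorm _).trans_eq (by simp [sl]))

variable (e) in
/-- a reducible filling of the neck -/
def Fill (a : ℝ) (q : Option ℝ) (L δ : ℝ) (A : e.ZC) : Prop := ∃ t, a + 2 < t ∧ t + 3 ≤ a + L ∧
  ∃ (θ : e.YC) (c : e.ZC), Red θ ∧ e.cyl.AdmOn c (univ ×ˢ Jv (some a) q) ∧ c.Φ = 0 ∧
    (∀ x, x.2 < t → ∀ i, c.a i x = A.a i x) ∧ (∀ x, t + 2 ≤ x.2 → ∀ i, c.a i x = (fz θ).a i x) ∧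
    ∫⁻ x in univ ×ˢ Ici t, ‖Er c x‖ₑ ^ 2 ∂e.D.Z.μ ≤ ENNReal.ofReal δ

theorem fill (hH : HdgStmt κ lam ν) (hS : SlcStmt κ lam ν) (hC : C0uStmt κ lam ν) {u}
    (hK : Kn e u) (C : ℝ) {δ : ℝ} (δ0 : 0 < δ) : ∃ L : ℝ, ∃ η > 0, ∀ c ≥ 0, ∀ B : ℝ, ∃ w₀ > 0,
    ∀ w ∈ Ioc 0 w₀, ∀ S ψ, (lv e c w S ψ).OK → ∀ a q L', L ≤ L' → (∀ r ∈ q, a + L' + 2 ≤ r) →
    ∀ A : e.ZC, NS (e := lv e c w S ψ) (some a) q C η A →
      (∀ x ∈ univ ×ˢ Jv (some a) q, √w * ‖A.Φ x‖ ≤ B) → (∀ t ∈ Jv (some a) q, 0 < nm (sl A t)) →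
      ∫⁻ x in univ ×ˢ Ioo a (a + L'), ‖A.Φ x‖ₑ ^ 2 ∂e.D.Z.μ ≤ ENNReal.ofReal B →
      Fill e a q L' δ A := by
  have he := hK.1
  have om : e.om = 0 := by
    rcases hK.2.2 with ⟨_, h, -⟩ | ⟨_, h, -⟩ | h
    exacts [h.om, h.om, h.2.1]
  obtain ⟨H⟩ := hH e u he hK.2.1
  obtain ⟨a₀, σ, K₀, Sp, f0, -, -, hS⟩ := hS e u hK H
  obtain ⟨K, K0, hL⟩ := cylL he H (Ray9.of_fo f0) σ
  obtain ⟨C', hC⟩ := hC e he om C
  obtain ⟨ρ, ρ0, K', K1, hS⟩ := hS C'
  obtain ⟨ε, ε0, ε1, ε2⟩ : ∃ ε > 0, ε ≤ 1 ∧ K * (2 * ε) ≤ δ / 2 :=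
    ⟨min 1 (δ / 2 / (2 * (K + 1))), by positivity, min_le_left _ _, (mul_le_mul
      (le_add_of_nonneg_right zero_le_one) (mul_le_mul_of_nonneg_left (min_le_right _ _) zero_le_two)
      (by positivity) (by positivity)).trans_eq (by field_simp)⟩
  obtain ⟨η, η0, hS⟩ := hS ε ε0
  refine ⟨K' / ε * |C| + 7, min η 1, by positivity, fun c c0 B => ?_⟩
  obtain ⟨w₁, w1, hS⟩ := hS c c0
  obtain ⟨w₂, w2, hC⟩ := hC B c c0
  refine ⟨min (min w₁ w₂) (ρ / (|B| + 1)), by positivity,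
    fun w hw S ψ ok a q L hL' hq A ns sb pos ms => ?_⟩
  simp only [mem_Ioc, le_min_iff] at hw
  have sb' := hC w ⟨hw.1, hw.2.1.2⟩ S ψ ok _ q A (Nck9.ns_mono ns le_rfl (min_le_right _ _)) fun x hx =>
    (mul_le_mul_of_nonneg_right (Real.sqrt_le_sqrt (half_le_self hw.1.le)) (norm_nonneg _)).trans
      (sb x hx)
  have l0 : 0 ≤ K' / ε * |C| := by positivity
  have s1 : Ioo (a + 2) (a + L - 3) ⊆ Jd (some a) q 2 := fun t m => Nck9.mem_Jd.2
    ⟨fun _ k => Option.some.inj k ▸ m.1, fun r k => by linarith [hq r k, m.2]⟩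
  have s2 := s1.trans (Nck9.Jd_Jv two_pos)
  have cn := (cd_nm (c := A) Nd18.isOpen_Jv ns.adm.sΦ).continuousOn.mono s2
  obtain ⟨t, ht, h⟩ := ex_t (f := fun t => ENNReal.ofReal (|B| + 1)⁻¹ * ENNReal.ofReal (nm (sl A t)))
    (g := fun t => ENNReal.ofReal (K' / ε) * ENNReal.ofReal (gn (e := lv e c w S ψ) (sl A t)))
    (x := 1) (y := ENNReal.ofReal (K' / ε * |C|)) measurableSet_Ioo
    ((cn.aemeasurable measurableSet_Ioo).ennreal_ofReal.const_mul _) (by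
      rw [lintegral_const_mul' _ _ ENNReal.ofReal_ne_top]
      refine (mul_le_mul_right ((lint_nm measurableSet_Ioo (ns.adm.sΦ.continuousOn.mono
        (prod_mono_right s2))).trans ((lintegral_mono_set (prod_mono_right (Ioo_subset_Ioo
          (by linarith) (by linarith)))).trans ms)) _).trans ?_
      rw [← ENNReal.ofReal_mul (by positivity), ENNReal.ofReal_le_one, inv_mul_le_one₀
        (by positivity)]
      linarith [le_abs_self B]) (by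
      rw [lintegral_const_mul' _ _ ENNReal.ofReal_ne_top, ENNReal.ofReal_mul (by positivity)]
      exact mul_le_mul_right ((lintegral_mono_set s1).trans (ns.en.trans
        (ENNReal.ofReal_le_ofReal (le_abs_self C)))) _) (by
      rw [Real.volume_Ioo, ← ENNReal.ofReal_one, ← ENNReal.ofReal_add zero_le_one l0]
      exact (ENNReal.ofReal_lt_ofReal_iff_of_nonneg (by positivity)).2 (by linarith))
  have h1 := le_self_add.trans_lt h
  have h2 := le_add_self.trans_lt h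
  rw [← ENNReal.ofReal_mul (by positivity), ENNReal.ofReal_lt_one] at h1 h2
  rw [inv_mul_lt_one₀ (by positivity)] at h1
  rw [div_mul_eq_mul_div, div_lt_one ε0] at h2
  obtain j | ⟨j1, -, ⟨θ, j2, j3⟩, -⟩ := hS w ⟨hw.1, hw.2.1.1⟩ S ψ ok A _ Nd18.isOpen_Jv ns.adm t
    (s2 ht) (fun x j => sb' x ⟨trivial, j.2 ▸ Nck9.Jd_mono (by norm_num) (s1 ht)⟩) (pos t (s2 ht))
    ((mul_le_mul hw.2.2 h1.le (nm_nonneg _) (by positivity)).trans_eq (by field_simp)) fun y => by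
      have := (ns.τ [] zero_le_two (y, t) ⟨trivial, s2 ht⟩).trans (min_le_left _ _)
      rwa [List.map_nil, Pre.Dw, rm, Nck9.ct_Jd (s1 ht), one_mul] at this
  · exact absurd (j.trans_lt (h2.trans_le ε1)) (lt_irrefl _)
  obtain ⟨c', k1, k2, k3, k4, k5⟩ := hL A _ t Nd18.isOpen_Jv ⟨ns.adm.sa, ns.adm.sΦ, ns.adm.pa,
    ns.adm.pΦ⟩ ((Icc_subset_Ioo (by linarith) (by linarith)).trans (Nck9.Jd_sub (s1 ht))) _
    (red_lf j2) j3 (δ / 2) (half_pos δ0)
  refine ⟨t, ht.1, by linarith [ht.2], _, c', red_lf j2, k1, k2, k3, k4,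
    k5.trans (ENNReal.ofReal_le_ofReal ?_)⟩
  have : Ray9.rk H a₀ σ A t ≤ 2 * ε := (j1.trans (add_le_add_right h2.le _)).trans_eq (two_mul _).symm
  linarith [mul_le_mul_of_nonneg_left this K0]

end neck

variable {X : Mf 4} {nc : ℕ}

theorem lint_tm {e : En3 κ lam ν} {b : Bg X.I X.M κ lam ν nc} (K : Nk e b) {J : Set ℝ}
    (hJ : MeasurableSet J) (g : X.M → ℝ≥0∞) : ∫⁻ x in K.tm ⁻¹' J ∩ K.ψ.target, g x ∂b.F.μ =
      ∫⁻ x in univ ×ˢ (J ∩ K.J), g (K.ψ x) ∂e.D.Z.μ := by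
  have m := K.cont.measurable hJ
  have m' : MeasurableSet ((univ : Set e.Y.M) ×ˢ J) := MeasurableSet.univ.prod hJ
  rw [← Measure.restrict_restrict m, ← lintegral_indicator m, ← Nka63.setLIntegral_comp K.iso,
    show univ ×ˢ (J ∩ K.J) = univ ×ˢ J ∩ K.ψ.source by rw [K.src, prod_inter_prod, inter_self],
    ← Measure.restrict_restrict m', ← lintegral_indicator m']
  exact setLIntegral_congr_fun K.ψ.open_source.measurableSet fun x hx => by
    have : K.ψ x ∈ K.tm ⁻¹' J ↔ x ∈ univ ×ˢ J := by simp [K.tm_ψ x hx]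
    by_cases h : x ∈ univ ×ˢ J
    · simp only [indicator_of_mem h, indicator_of_mem (this.2 h)]
    · simp only [indicator_of_notMem h, indicator_of_notMem (this.not.2 h)]

variable {N : Type} [Fintype N] {e : N → En3 κ lam ν} {P : Pz X nc e} {L δ : ℝ}
  {A : Sw.Cfg X.M κ ν}

theorem isOpen_Rt : IsOpen (Rt P L) := by
  rw [show Rt P L = ⋂ i, ⋂ K ∈ {K | K ∈ P.nk i}, ⋂ a ∈ {a | Ct K L a}, {x | K.tm x < a + L} from
    Set.ext fun x => by simp only [mem_iInter]; rfl]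
  exact isOpen_iInter_of_finite fun i => (Set.Subsingleton.finite fun _ h _ h' =>
    Option.mem_unique h h').isOpen_biInter fun K _ => (Set.Subsingleton.finite fun _ h _ h' =>
      Option.mem_unique h.1 h'.1).isOpen_biInter fun a _ => isOpen_lt K.cont continuous_const

theorem vol_Rt (h : ∀ i, ¬P.Inf i false) {C : ℝ} (hC : P.bg.F.μ (P.thick 3) ≤ ENNReal.ofReal C) :
    P.bg.F.μ (Rt P L) ≤ ENNReal.ofReal C + ∑ i, (e i).D.F.μ univ * ENNReal.ofReal (L + 2) := by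
  have s : Rt P L ⊆ P.thick 3 ∪ ⋃ i, {x | x ∈ Rt P L ∧ ∃ K ∈ P.nk i, x ∈ K.ψ.target} :=
    fun x hx => or_iff_not_imp_left.2 fun k => by
      simp only [Pz.thick, mem_ofPred, not_forall, not_not] at k
      obtain ⟨i, K, hK, z, hz, rfl⟩ := k
      exact mem_iUnion.2 ⟨i, hx, K, hK, K.ψ.map_source (K.mem_src.2 (Pb50.deep_J K three_pos hz.2))⟩
  refine (measure_mono s).trans ((measure_union_le _ _).trans (add_le_add hC
    ((measure_iUnion_fintype_le _ _).trans (Finset.sum_le_sum fun i _ => ?_))))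
  rcases hK : P.nk i with _ | K
  · simp
  obtain ⟨a, ha⟩ := Option.ne_none_iff_exists'.1 fun k => h i ⟨K, hK, k⟩
  have s : {x | x ∈ Rt P L ∧ ∃ K' ∈ some K, x ∈ K'.ψ.target} ⊆
      K.tm ⁻¹' Ioo a (a + (L + 2)) ∩ K.ψ.target := by
    rintro x ⟨hx, _, ⟨⟩, k⟩
    have j : K.tm x ∈ K.J := by rwa [K.tgt] at k
    refine ⟨⟨j.1 a ha, ?_⟩, k⟩
    by_contra! l
    linarith [hx i K hK a ⟨ha, fun r hr => by linarith [j.2 r hr]⟩]
  refine (measure_mono s).trans ?_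
  rw [← setLIntegral_one, lint_tm K measurableSet_Ioo, setLIntegral_one]
  refine (Measure.prod_prod _ _).trans_le (mul_le_mul_right ((measure_mono inter_subset_left).trans
    ?_) _)
  rw [Real.volume_Ioo, add_sub_cancel_left]

variable (P L δ A) in
/-- the correction `D` of the connection on the neck `i`, in the zone `O` -/
structure Cor (i : N) (D : Option κ → X.M → ℝ) (O : Set X.M) : Prop where
  sa : ∀ x ∈ Rt P L, ∀ k, SA X.I (D k) x ∧ ∑ j, P.bg.B.P k j x * D j x = D k x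
  off : ∀ x, (∀ K ∈ P.nk i, x ∉ K.ψ.target) → ∀ k, D k x = 0
  ms : MeasurableSet O
  out : ∀ x ∉ O, ∀ k, D k =ᶠ[𝓝 x] 0 ∧ ∀ K ∈ P.nk i, x ∈ K.ψ.target → ∀ y, D k (K.ψ (y, K.tm x)) = 0
  bd : ∀ K ∈ P.nk i, ∀ a, Ct K L a → K.ψ '' (univ ×ˢ Ioo a (a + L)) ⊆ Rt P L →
    ∃ θ : (e i).YC, Red θ ∧ ∀ x ∈ univ ×ˢ Ioo (a + L - 1) (a + L), ∀ k,
      A.a k (K.ψ x) + D k (K.ψ x) = (fz θ).a k x
  er : ∀ c : Sw.Cfg X.M κ ν, c.Φ = 0 →
    (∀ K ∈ P.nk i, ∀ x ∈ K.ψ.target, ∀ k, c.a k x = A.a k x + D k x) →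
    ∫⁻ x in O ∩ Rt P L, ‖P.bg.eC c x - P.p0.C c x‖ₑ ^ 2 ∂P.bg.F.μ ≤ ENNReal.ofReal δ

theorem cor_of (hP : P.OK) (hA : P.bg.Adm A) {i : N} (h : ∀ K ∈ P.nk i, ∀ a, Ct K L a →
    K.ψ '' (univ ×ˢ Ioo a (a + L)) ⊆ Rt P L → Fill (e i) a K.q L δ (K.pb A)) :
    ∃ D O, Cor P L δ A i D O := by
  by_cases g : ∃ K ∈ P.nk i, ∃ a, Ct K L a ∧ K.ψ '' (univ ×ˢ Ioo a (a + L)) ⊆ Rt P L
  swap
  · exact ⟨0, ∅, fun x _ k => ⟨contMDiffAt_const, by simp⟩, fun _ _ _ => rfl, .empty,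
      fun _ _ _ => ⟨.rfl, fun _ _ _ _ => rfl⟩, fun K hK a h1 h2 => (g ⟨K, hK, a, h1, h2⟩).elim,
      fun _ _ _ => by simp⟩
  obtain ⟨K, hK, a, ct, sub⟩ := g
  obtain ⟨t, t1, t2, θ, c, hθ, c1, c2, c3, c4, c5⟩ := h K hK a ct sub
  rw [← ct.1] at c1
  obtain ⟨D, hD⟩ : ∃ D : Option κ → X.M → ℝ, D = fun k =>
    K.ψ.target.indicator fun x => c.a k (K.ψ.symm x) - A.a k x := ⟨_, rfl⟩
  have d1 : ∀ x ∉ K.ψ.target, ∀ k, D k x = 0 := fun x hx k => hD ▸ indicator_of_notMem hx _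
  have d2 : ∀ x ∈ K.ψ.target, ∀ k, D k x = c.a k (K.ψ.symm x) - A.a k x := fun x hx k =>
    hD ▸ indicator_of_mem hx _
  have d3 : ∀ z ∈ K.ψ.source, ∀ k, A.a k (K.ψ z) + D k (K.ψ z) = c.a k z := fun z hz k => by
    rw [d2 _ (K.ψ.map_source hz), K.ψ.left_inv hz, add_sub_cancel]
  have d4 : ∀ x, K.tm x < t → ∀ k, D k x = 0 := fun x hx k => by
    by_cases j : x ∈ K.ψ.target
    · rw [d2 x j, c3 _ (by rwa [K.snd_symm j])]
      exact sub_eq_zero.2 (congrArg _ (K.ψ.right_inv j))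
    · exact d1 x j k
  have d5 : ∀ x, K.tm x < t → ∀ k, D k =ᶠ[𝓝 x] 0 := fun x hx k =>
    ((K.cont.tendsto x).eventually (gt_mem_nhds hx)).mono fun z hz => d4 z hz k
  have r1 : ∀ s, a < s → s < a + L → s ∈ K.J := fun s h1 h2 =>
    ⟨fun _ k => Option.mem_unique k ct.1 ▸ h1, fun r k => by linarith [ct.2 r k]⟩
  have r2 : ∀ x ∈ Rt P L, t ≤ K.tm x → x ∈ K.ψ.target := fun x hx k => by
    rw [K.tgt]; exact r1 _ (by linarith) (hx i K hK a ct)
  refine ⟨D, K.tm ⁻¹' Ici t, fun x hx k => ?_, fun x hx => d1 x (hx K hK),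
    K.cont.measurable measurableSet_Ici, fun x hx k => ⟨d5 x (not_le.1 hx) k, fun K' h' j y => ?_⟩,
    fun K' h' a' ct' _ => ?_, fun c' z1 z2 => ?_⟩
  · rcases lt_or_ge (K.tm x) t with j | j
    · exact ⟨contMDiffAt_const.congr_of_eventuallyEq (d5 x j k), by simp [d4 x j]⟩
    have j1 := r2 x hx j
    have j2 := K.ψ.map_target j1
    have l := Pb50.LA.of_on c1 Pb50.isOpen_prod (x := K.ψ.symm x) ⟨trivial, K.mem_src.1 j2⟩
    refine ⟨((ContMDiffAt.comp x (l.sa k) (K.iso.sm'.contMDiffAt (K.ψ.open_target.mem_nhds j1))).sub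
      (hA.sa k x)).congr_of_eventuallyEq (mem_of_superset (K.ψ.open_target.mem_nhds j1)
        fun z hz => d2 z hz k), ?_⟩
    simp only [d2 x j1, mul_sub, Finset.sum_sub_distrib, hA.pa]
    refine congrArg (· - _) (Eq.trans (Finset.sum_congr rfl fun j _ => ?_) (l.pa k))
    rw [← congrArg (P.bg.B.P k j) (K.ψ.right_inv j1), K.P k j _ j2]
    rfl
  · obtain rfl := Option.mem_unique hK h'
    refine d4 _ ?_ k
    rw [K.tm_ψ _ (K.mem_src.2 (by rwa [K.tgt] at j))]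
    exact not_le.1 hx
  · obtain rfl := Option.mem_unique hK h'
    obtain rfl := Option.mem_unique ct.1 ct'.1
    exact ⟨θ, hθ, fun x hx k => (d3 x (K.mem_src.2 (r1 _ (by linarith [hx.2.1]) hx.2.2)) k).trans
      (c4 x (by linarith [hx.2.1]) k)⟩
  have s : K.tm ⁻¹' Ici t ∩ Rt P L ⊆ K.tm ⁻¹' Ico t (a + L) ∩ K.ψ.target := fun x hx =>
    ⟨⟨hx.1, hx.2 i K hK a ct⟩, r2 x hx.2 hx.1⟩
  refine (lintegral_mono_set s).trans ((lint_tm K measurableSet_Ico _).trans_le (le_trans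
    (setLIntegral_congr_fun (MeasurableSet.univ.prod (measurableSet_Ico.inter
      Nd18.isOpen_Jv.measurableSet)) fun x hx => ?_).le ((lintegral_mono_set (prod_mono_right
        fun _ k => k.1.1)).trans c5)))
  have hs := K.mem_src.2 hx.2.2
  have k1 : ∀ z ∈ K.ψ.source, ∀ k, (K.pb c').a k z = c.a k z := fun z hz k =>
    (z2 K hK _ (K.ψ.map_source hz) k).trans (d3 z hz k)
  have k2 : (sl (K.pb c') x.2).a = (sl c x.2).a := funext₂ fun k y => k1 _ (Pb50.src K hx.2.2 y) _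
  have k3 : K.cut 1 x.2 = 1 := Nd18.ct_one ⟨fun _ k => Option.mem_unique k ct.1 ▸ by
    linarith [hx.2.1.1], fun r k => by linarith [ct.2 r k, hx.2.1.2]⟩
  have h0 : P.p0.C c' (K.ψ x) = -(deriv (e i).f (hol (sl c x.2)) • (e i).ζ x.1) := by
    refine (Pb50.sum_nk hP hK (K.ψ.map_source hs) (fun _ K' => K'.hl c' (K.ψ x))
      fun j K' h => ?_).trans ?_
    · rw [Nk.hl, K'.ext_zero _ h, smul_zero]
    · simp only [Nk.hl, K.ext_ψ _ hs, K.tm_ψ x hs, neg_smul, k3, one_smul, hol, k2]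
  simp only [h0, Pb50.eC_ψ K hs, sub_neg_eq_add, Er, eC_congr (b := (e i).cyl) (c := K.pb c') (c' := c)
    (fun k => (Pb50.ev_src K hs).mono fun z hz => k1 z hz k) (.of_eq (by
      simp only [Sw.Cfg.pb, z1, c2]; rfl))]

theorem nr_le (hP : P.OK) (hA : P.bg.Adm A) (hL : 1 ≤ L) (hN : Nr P L δ) {δ' : ℝ} {g : X.M → ℝ≥0∞}
    (h : ∀ i, ∃ D O, Cor P L δ' A i D O)
    (hg : ∀ x, ‖P.bg.p2 x (P.bg.fc A x) - P.bg.om x - P.p0.C A x‖ₑ ^ 2 ≤ g x) :
    ENNReal.ofReal δ ≤ ∫⁻ x in Rt P L, g x ∂P.bg.F.μ + Fintype.card N * ENNReal.ofReal δ' := by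
  choose D O h using h
  obtain ⟨c, hc⟩ : ∃ c : Sw.Cfg X.M κ ν, c = ⟨fun k x => A.a k x + ∑ i, D i k x, 0⟩ := ⟨_, rfl⟩
  have c0 : c.Φ = 0 := hc ▸ rfl
  have c1 : ∀ k x, c.a k x = A.a k x + ∑ i, D i k x := fun _ _ => hc ▸ rfl
  have c2 : ∀ i, ∀ K ∈ P.nk i, ∀ x ∈ K.ψ.target, ∀ k, c.a k x = A.a k x + D i k x :=
    fun i K hK x hx k => (c1 k x).trans (congrArg _ (Finset.sum_eq_single i (fun j _ ij =>
      (h j).off x (fun K' h' => disjoint_left.1 (hP.dj ij.symm K hK K' h') hx) k) (by simp)))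
  refine (hN c c0 (Pb50.admOn_of fun x hx => ⟨fun k => ?_, c0 ▸ contMDiffAt_const, fun k => ?_,
    c0 ▸ map_zero _⟩) fun i K hK a ct sub => ?_).trans ?_
  · rw [funext (c1 k)]
    exact (hA.sa k x).add (SA.sum _ fun i _ => ((h i).sa x hx k).1)
  · simp only [c1, mul_add, Finset.sum_add_distrib, hA.pa, Finset.mul_sum]
    rw [Finset.sum_comm]
    simp only [fun i => ((h i).sa x hx k).2]
  · refine ((h i).bd K hK a ct sub).imp fun θ j => ⟨j.1, fun x hx k => ?_⟩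
    refine (c2 i K hK _ (K.ψ.map_source (K.mem_src.2 ⟨fun _ k => Option.mem_unique k ct.1 ▸ ?_,
      fun r k => by linarith [ct.2 r k, hx.2.2]⟩)) k).trans (j.2 x hx k)
    linarith [hx.2.1]
  have s : Rt P L ⊆ (Rt P L \ ⋃ i, O i) ∪ ⋃ i, O i ∩ Rt P L := fun x hx => by
    by_cases k : x ∈ ⋃ i, O i
    exacts [.inr (mem_iUnion.2 ((mem_iUnion.1 k).imp fun _ j => ⟨j, hx⟩)), .inl ⟨hx, k⟩]
  refine (lintegral_mono_set s).trans ((lintegral_union_le _ _ _).trans (add_le_add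
    ((setLIntegral_mono' (isOpen_Rt.measurableSet.diff (.iUnion fun i => (h i).ms))
      fun x hx => ?_).trans (lintegral_mono_set sdiff_subset)) ((lintegral_iUnion_le _ _).trans ?_)))
  · have o := fun i => (h i).out x fun k => hx.2 (mem_iUnion.2 ⟨i, k⟩)
    have e1 : P.bg.fc c x = P.bg.fc A x := fc_congr fun k =>
      (eventually_all.2 fun i => (o i k).1).mono fun z hz => by simp [c1, hz]
    have e2 : P.p0.C c x = P.p0.C A x := Finset.sum_congr rfl fun i _ => Pb50.elim_congr fun K hK => by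
      by_cases j : x ∈ K.ψ.target
      · have : (sl (K.pb c) (K.tm x)).a = (sl (K.pb A) (K.tm x)).a := funext₂ fun k y =>
          (c2 i K hK _ (K.ψ.map_source (Pb50.src K (by rwa [K.tgt] at j) y)) _).trans
            (add_eq_left.2 ((o i _).2 K hK j y))
        simp only [Nk.hl, hol, this]
      · simp only [Nk.hl, K.ext_zero _ (Pb50.off K j), smul_zero]
    rw [eC_zero (congrFun c0 x), e1, e2]
    exact hg x
  · rw [tsum_fintype, ← nsmul_eq_mul]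
    exact Finset.sum_le_card_nsmul _ _ _ fun i _ => (h i).er c c0 (c2 i)

/-- **EC-BIG** -/
theorem big (hH : HdgStmt κ lam ν) (hS : SlcStmt κ lam ν) (hC : C0uStmt κ lam ν) :
    BigStmt κ lam ν := by
  intro N _ e u hK C δ δ0
  have n0 : (0 : ℝ) ≤ Fintype.card N := Nat.cast_nonneg _
  choose L η η0 h using fun i => fill hH hS hC (hK i) C (δ := δ / 4 / (Fintype.card N + 1))
    (by positivity)
  obtain ⟨L₀, hL⟩ := Finite.bddAbove_range L
  obtain ⟨η₀, e0, e1⟩ := ex_pos η0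
  obtain ⟨V, V0, hV⟩ : ∃ V > 0, ENNReal.ofReal C + ∑ i, (e i).D.F.μ univ *
      ENNReal.ofReal (max 4 L₀ + 2) ≤ ENNReal.ofReal V := ⟨_ + 1, by positivity,
    (ENNReal.ofReal_toReal (ENNReal.add_ne_top.2 ⟨ENNReal.ofReal_ne_top, ENNReal.sum_ne_top.2
      fun i _ => ENNReal.mul_ne_top (measure_ne_top _ _) ENNReal.ofReal_ne_top⟩)).symm.trans_le
      (ENNReal.ofReal_le_ofReal (le_add_of_nonneg_right zero_le_one))⟩
  obtain ⟨η₁, e2, e3, e4⟩ : ∃ r > 0, r ≤ η₀ ∧ 2 * r ^ 2 * V ≤ δ / 4 :=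
    ⟨min η₀ √(δ / 4 / (2 * V)), by positivity, min_le_left _ _, (mul_le_mul_of_nonneg_right
      (mul_le_mul_of_nonneg_left (pow_le_pow_left₀ (by positivity) (min_le_right _ _) 2)
        zero_le_two) V0.le).trans_eq (by rw [Real.sq_sqrt (by positivity)]; field_simp)⟩
  refine ⟨max 4 L₀, le_max_left _ _, η₁, e2, fun c c0 B => ?_⟩
  choose w₀ w0 h using fun i => h i c c0 B
  obtain ⟨w₁, w1, w2⟩ := ex_pos w0
  refine ⟨min w₁ (δ / 4 / (B ^ 2 * |B| + 1)), by positivity,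
    fun w hw S ψ ok X nc P hP hv hN hI A hA hE hB hn => lt_of_not_ge fun ms => ?_⟩
  simp only [mem_Ioc, le_min_iff] at hw
  refine absurd (nr_le hP hA (le_max_of_le_left (by norm_num)) hN
    (δ' := δ / 4 / (Fintype.card N + 1))
    (g := fun x => ENNReal.ofReal (2 * η₁ ^ 2) + ENNReal.ofReal (w * B ^ 2) * ‖A.Φ x‖ₑ ^ 2)
    (fun i => cor_of hP hA fun K hK a ct sub => ?_) fun x => ?_) fun k => ?_
  rotate_right
  · rw [lintegral_add_left measurable_const, lintegral_const_mul' _ _ ENNReal.ofReal_ne_top,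
      setLIntegral_const] at k
    replace k := k.trans (add_le_add (add_le_add (mul_le_mul_right ((vol_Rt hI hv).trans hV) _)
      (mul_le_mul_right (ms.trans (ENNReal.ofReal_le_ofReal (le_abs_self B))) _)) le_rfl)
    have w0 := hw.1
    rw [← ENNReal.ofReal_natCast, ← ENNReal.ofReal_mul n0, ← ENNReal.ofReal_mul (by positivity),
      ← ENNReal.ofReal_mul (by positivity), ← ENNReal.ofReal_add (by positivity) (by positivity),
      ← ENNReal.ofReal_add (by positivity) (by positivity),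
      ENNReal.ofReal_le_ofReal_iff (by positivity)] at k
    have k1 : Fintype.card N * (δ / 4 / (Fintype.card N + 1)) ≤ δ / 4 :=
      (mul_le_mul_of_nonneg_right (le_add_of_nonneg_right zero_le_one) (by positivity)).trans_eq
        (mul_div_cancel₀ _ (by positivity))
    have k2 := (le_div_iff₀ (by positivity)).1 hw.2.2
    nlinarith
  · have j := hn i K hK
    rw [Nd18.Nk.J, ct.1] at j
    have s : Ioo a (a + max 4 L₀) ⊆ K.J := fun s hs =>
      ⟨fun _ k => Option.mem_unique k ct.1 ▸ hs.1, fun r k => by linarith [ct.2 r k, hs.2]⟩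
    exact h i w ⟨hw.1, hw.2.1.trans (w2 i)⟩ _ _ (ok i) a K.q _ (le_max_of_le_right (hL ⟨i, rfl⟩))
      ct.2 _ (Nck9.ns_mono j.1 le_rfl (e3.trans (e1 i))) (fun x _ => hB _) j.2
      ((lint_pb K isOpen_Ioo s fun x => ‖A.Φ x‖ₑ ^ 2).trans ((lintegral_mono_set sub).trans ms))
  · have e5 : P.bg.p2 x (P.bg.fc A x) - P.bg.om x - P.p0.C A x = ((P.re w (fun _ r => c * prf r) S
        ψ).bg.eC A x - P.p0.C A x) + w • P.bg.p2 x (P.bg.qd x (A.Φ x) (A.Φ x)) := by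
      have : (P.re w (fun _ r => c * prf r) S ψ).bg.eC A x = P.bg.p2 x (P.bg.fc A x -
        w • P.bg.qd x (A.Φ x) (A.Φ x)) - P.bg.om x := rfl
      rw [this, map_sub, map_smul]
      abel
    have e6 := (norm_add_le _ _).trans (add_le_add (hE x) ((norm_smul w _).trans_le
      (mul_le_mul_of_nonneg_left ((norm_p2 hP.bg (x := x) _).trans_eq (norm_qd hP.bg (hA.pΦ x)))
        (norm_nonneg _))))
    have e7 := pow_le_pow_left₀ (by positivity) (hB x) 2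
    rw [mul_pow, Real.sq_sqrt hw.1.le] at e7
    rw [← ofReal_norm (A.Φ x), ← ENNReal.ofReal_pow (norm_nonneg _), ← ENNReal.ofReal_mul
      (mul_nonneg hw.1.le (sq_nonneg _)), ← ENNReal.ofReal_add (by positivity)
      (mul_nonneg (mul_nonneg hw.1.le (sq_nonneg _)) (sq_nonneg _)), e5]
    refine en_le ((pow_le_pow_left₀ (norm_nonneg _) e6 2).trans ((add_sq_le ..).trans ?_))
    rw [Real.norm_of_nonneg hw.1.le]
    have := mul_nonneg hw.1.le (sq_nonneg ‖A.Φ x‖)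
    nlinarith [mul_le_mul_of_nonneg_left e7 this, mul_nonneg this (sq_nonneg B)]

end Crest.Agent.X212.Sw88.Big
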