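import Crest.Agent.X212.Nck9.Main
import Crest.Agent.X212.Wp42.Lev

/-!
# Row 212, lane END-S (helper88): EC-BIG, part A: a reducible filling of a neck
-/

set_option autoImplicit false
set_option linter.unusedSectionVars false
noncomputable section
open scoped Manifold ContDiff Topology InnerProductSpace ENNReal
open MeasureTheory Set Function Filter

namespace Crest.Agent.X212.Sw88.Big
open An Cyf70 Sw Sw.En3 Sob92 Ray9 Dl42
open Wz78 (SA)
open Nd18 (fl)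
open End23 (Red Hd n1)
open Lw78 (da)

theorem ex_m : ∃ K : ℝ, ∀ t τ : ℝ, 0 < τ → τ ≤ 1 → ∃ m : ℝ → ℝ, ContDiff ℝ ∞ m ∧
    (∀ s ≤ t, m s = s ∧ deriv m s = 1) ∧ (∀ s ≥ t, m s ∈ Icc t (t + 1)) ∧
    (∀ s > t + τ, m s = t ∧ deriv m s = 0) ∧ ∀ s, |deriv m s| ≤ K := by
  obtain ⟨C, hC⟩ := Nd18.bd_dfl
  refine ⟨C 0, fun t τ h0 h1 => ?_⟩
  have d : ∀ s, deriv (fun s => t + τ * fl ((s - t) / τ)) s = deriv fl ((s - t) / τ) := fun s => by
    have := ((((Nd18.contDiff_fl.differentiable (by simp) _).hasDerivAt.comp s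
      (((hasDerivAt_id s).sub_const t).div_const τ)).const_mul τ).const_add t).deriv
    exact this.trans (by field_simp; rfl)
  refine ⟨fun s => t + τ * fl ((s - t) / τ), contDiff_const.add (contDiff_const.mul
    (Nd18.contDiff_fl.comp ((contDiff_id.sub contDiff_const).div_const τ))), fun s h => ?_,
    fun s h => ?_, fun s h => ?_, fun s => by simpa [d] using hC.2 0 0 le_rfl _⟩
  · have k : (s - t) / τ < 1 / 2 :=
      (div_nonpos_of_nonpos_of_nonneg (by linarith) h0.le).trans_lt one_half_pos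
    refine ⟨by simp only [Nd18.fl_le k.le]; field_simp; ring, (d s).trans ?_⟩
    rw [EventuallyEq.deriv_eq (f₁ := fl) (f := id) ((gt_mem_nhds k).mono fun x hx => Nd18.fl_le hx.le),
      deriv_id]
  · have k : 0 ≤ (s - t) / τ := div_nonneg (by linarith) h0.le
    have a := Real.smoothTransition.nonneg (2 * ((s - t) / τ) - 1)
    have b := Real.smoothTransition.le_one (2 * ((s - t) / τ) - 1)
    have c : fl ((s - t) / τ) ∈ Icc (0 : ℝ) 1 := by
      rcases le_total ((s - t) / τ) 1 with j | j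
      · exact ⟨mul_nonneg k (by linarith), mul_le_one₀ j (by linarith) (by linarith)⟩
      · rw [Nd18.fl_ge j]; exact ⟨le_rfl, zero_le_one⟩
    exact ⟨le_add_of_nonneg_right (mul_nonneg h0.le c.1),
      add_le_add_right (mul_le_one₀ h1 c.1 c.2) t⟩
  · have k : 1 < (s - t) / τ := (one_lt_div h0).2 (by linarith)
    refine ⟨by simp only [Nd18.fl_ge k.le, mul_zero, add_zero], (d s).trans ?_⟩
    rw [EventuallyEq.deriv_eq (f := fun _ => 0)
      ((lt_mem_nhds k).mono fun x hx => Nd18.fl_ge hx.le), deriv_const]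

theorem ex_n : ∃ K ≥ (1 : ℝ), ∀ t : ℝ, ∃ n : ℝ → ℝ, ContDiff ℝ ∞ n ∧ (∀ s ≤ t, n s = 0) ∧
    (∀ s ≥ t + 2, n s = 1) ∧ (∀ s > t + 2, deriv n s = 0) ∧
    ∀ s, |n s| ≤ K ∧ |n s - 1| ≤ K ∧ |deriv n s| ≤ K := by
  obtain ⟨C, hC⟩ := Nd18.bd_st
  refine ⟨max 1 (C 1), le_max_left _ _, fun t => ?_⟩
  have o : ∀ s ≥ t + 2, Real.smoothTransition (s + -t) = 1 := fun s h =>
    Real.smoothTransition.one_of_one_le (by linarith)
  refine ⟨fun s => Real.smoothTransition (s + -t), (hC.shift _).1, fun s h =>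
    Real.smoothTransition.zero_of_nonpos (by linarith), o, fun s h => ?_, fun s => ?_⟩
  · rw [EventuallyEq.deriv_eq (f := fun _ => 1) ((lt_mem_nhds h).mono fun x hx => o x hx.le),
      deriv_const]
  have a := Real.smoothTransition.nonneg (s + -t)
  have b := Real.smoothTransition.le_one (s + -t)
  exact ⟨le_max_of_le_left (abs_le.2 ⟨by linarith, b⟩), le_max_of_le_left (abs_le.2 ⟨by linarith,
    by linarith⟩), le_max_of_le_right (by simpa using (hC.shift (-t)).2 1 1 le_rfl s)⟩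

variable {κ lam ν : Type} [Fintype κ] [Fintype lam] [Fintype ν] [DecidableEq ν]

theorem nle {η F Z : F2 κ} {K : ℝ} (h : ∀ p, |η p| ≤ K * (|F p| + |Z p|)) :
    ‖η‖ ^ 2 ≤ 2 * K ^ 2 * (‖F‖ ^ 2 + ‖Z‖ ^ 2) := by
  simp only [PiLp.norm_sq_eq_of_L2, Real.norm_eq_abs, ← Finset.sum_add_distrib, Finset.mul_sum]
  refine Finset.sum_le_sum fun p _ => (pow_le_pow_left₀ (abs_nonneg _) (h p) 2).trans ?_
  nlinarith [mul_nonneg (sq_nonneg K) (sq_nonneg (|F p| - |Z p|))]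

theorem eC_zero {X : M.Mf 4} {nc : ℕ} {b : Bg X.I X.M κ lam ν nc} {c : Sw.Cfg X.M κ ν} {x : X.M}
    (h : c.Φ x = 0) : b.eC c x = b.p2 x (b.fc c x) - b.om x := by
  rw [Bg.eC, h, ← zero_smul ℝ (0 : Eu ν), qd_smul, zero_mul, zero_smul, smul_zero, sub_zero]

variable {e : En3 κ lam ν} {c : e.ZC} {m n : ℝ → ℝ} {β : κ → e.Y.M → ℝ}

/-- the error of the curvature equation -/
def Er (c : e.ZC) (x : e.Y.M × ℝ) : F2 κ :=
  e.cyl.eC c x + deriv e.f (hol (sl c x.2)) • e.ζ x.1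

variable (c m n β) in
/-- the pull-back under a change of time, plus a static term -/
def tc : e.ZC := ⟨fun i x => i.elim (deriv m x.2 * c.a none (x.1, m x.2)) fun k =>
  c.a (some k) (x.1, m x.2) + n x.2 * β k x.1, 0⟩

variable (β) in
/-- the components of the static term -/
def zz (y : e.Y.M) : F2 κ := WithLp.toLp 2 fun p => p.1.elim (p.2.elim 0 fun k => β k y) fun i =>
  p.2.elim (β i y) fun j => da e.D.F β y (i, j)

theorem lint_le {f : e.Y.M × ℝ → ℝ≥0∞} {I : Set ℝ} (hI : MeasurableSet I) {g : e.Y.M → ℝ}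
    (hg : Continuous g) (g0 : ∀ y, 0 ≤ g y) (h : ∀ y, ∀ s ∈ I, f (y, s) ≤ ENNReal.ofReal (g y)) :
    ∫⁻ x in univ ×ˢ I, f x ∂e.D.Z.μ ≤ ENNReal.ofReal (∫ y, g y ∂e.D.F.μ) * volume I := by
  refine (setLIntegral_mono' (g := fun x => ENNReal.ofReal (g x.1) * 1) (MeasurableSet.univ.prod hI)
    fun x hx => (h _ _ hx.2).trans_eq (mul_one _).symm).trans_eq ?_
  change ∫⁻ x in univ ×ˢ I, _ ∂e.D.F.μ.prod volume = _
  rw [← Measure.prod_restrict, Measure.restrict_univ, lintegral_prod_mul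
    (f := fun y => ENNReal.ofReal (g y)) (g := fun _ => 1) hg.measurable.ennreal_ofReal.aemeasurable
    aemeasurable_const, ofReal_integral_eq_lintegral_ofReal (Sep15.S.integrable_Y hg)
    (.of_forall g0), setLIntegral_one]

variable (he : e.OK) (hc : e.cyl.Adm c) (hm : ContDiff ℝ ∞ m) (hn : ContDiff ℝ ∞ n) (hβ : β ∈ FS e)
include hc hm hn hβ

theorem adm_tc : e.cyl.Adm (tc c m n β) := by
  have s : ∀ i, Sm (IC e.Y.I) fun x : e.Y.M × ℝ => c.a i (x.1, m x.2) := fun i =>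
    (hc.sa i).comp (contMDiff_fst.prodMk (sm_snd hm))
  refine ⟨fun i => ?_, contMDiff_const, fun i x => ?_, fun _ => map_zero _⟩
  · cases i
    exacts [(sm_snd (contDiff_infty_iff_deriv.1 hm).2).mul (s _),
      (s _).add ((sm_snd hn).mul (sm_fst (hβ.1 _)))]
  rw [Fintype.sum_option]
  rcases i with _ | k
  · exact (congrArg₂ (· + ·) (one_mul _) (Finset.sum_eq_zero fun k _ => zero_mul _)).trans
      (add_zero _)
  · exact (congrArg (· + _) (zero_mul _)).trans ((zero_add _).trans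
      ((add_mem (ay_sl hc (m x.2)).fs ((FS e).smul_mem (n x.2) hβ)).2 k x.1))

include he

theorem fc_tc_ss (y s) (i j : κ) : e.cyl.fc (tc c m n β) (y, s) (some i, some j) =
    e.cyl.fc c (y, m s) (some i, some j) + n s * da e.D.F β y (i, j) := by
  rw [fc_ss he (adm_tc hc hm hn hβ), fc_ss he hc, show (sl (tc c m n β) s).a =
    (sl c (m s)).a + n s • β from rfl, da_add (ay_sl hc _).fs ((FS e).smul_mem _ hβ),
    da_smul _ hβ, add_assoc]
  rfl

theorem fc_tc_n (y s) (k : κ) : e.cyl.fc (tc c m n β) (y, s) (none, some k) =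
    deriv m s * e.cyl.fc c (y, m s) (none, some k) + deriv n s * β k y := by
  have A := adm_tc hc hm hn hβ
  have d1 := (((hasDerivAt_slice e.D.F.toPre (hc.sa (some k)) y (m s)).comp s
    (hm.differentiable (by simp) s).hasDerivAt).add
    ((hn.differentiable (by simp) s).hasDerivAt.mul_const (β k y))).deriv
  have d2 := congrFun (e.D.F.D_smul (sm_slice_fst (hc.sa none) (m s)) (deriv m s) k) y
  rw [fc_n he A _ (.inl rfl), fc_n he hc _ (.inl rfl)]
  refine (congrArg₂ (· - ·) ((D_none e.D.F.toPre (A.sa (some k)) (y, s)).trans d1)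
    ((D_some e.D.F.toPre (A.sa none) k (y, s)).trans d2)).trans ?_
  rw [show e.D.Z.D (some k) (c.a none) (y, m s) = _ from D_some e.D.F.toPre (hc.sa _) k _]
  simp only [Pi.smul_apply, smul_eq_mul]
  change e.D.Z.D none _ _ * _ + _ - _ = _
  ring

omit hm hn hβ in
theorem fc_anti (x) (i) : e.cyl.fc c x (i, none) = -e.cyl.fc c x (none, i) := by
  rw [fc_n he hc _ (.inl rfl), fc_n he hc _ (.inr rfl), neg_sub]

omit hm hn hβ in
theorem fc_nn (x) : e.cyl.fc c x (none, none) = 0 := by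
  rw [fc_n he hc _ (.inl rfl), sub_self]

theorem fc_tc_le {K : ℝ} (y s) (h1 : 1 ≤ K) (h2 : |deriv m s| ≤ K) (h3 : |n s| ≤ K)
    (h4 : |deriv n s| ≤ K) : ‖e.cyl.fc (tc c m n β) (y, s)‖ ^ 2 ≤
      2 * K ^ 2 * (‖e.cyl.fc c (y, m s)‖ ^ 2 + ‖zz β y‖ ^ 2) := by
  have A := adm_tc hc hm hn hβ
  have k : ∀ {a b u v : ℝ}, |a| ≤ K → |b| ≤ K → |a * u + b * v| ≤ K * (|u| + |v|) := fun ha hb =>
    (abs_add_le _ _).trans (by rw [abs_mul, abs_mul, mul_add]; gcongr)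
  refine nle fun ⟨i, j⟩ => ?_
  rcases i with _ | i <;> rcases j with _ | j
  · rw [fc_nn he A, abs_zero]; positivity
  · rw [fc_tc_n he hc hm hn hβ]; exact k h2 h4
  · rw [fc_anti he A, fc_anti he hc, abs_neg, abs_neg, fc_tc_n he hc hm hn hβ]; exact k h2 h4
  · rw [fc_tc_ss he hc hm hn hβ]
    exact (congrArg (fun r => |r + _|) (one_mul _).symm).trans_le (k (abs_one.trans_le h1) h3)

theorem fc_tc_sub {θ : e.YC} (hθ : Ay θ) {K : ℝ} (y s) (h0 : θ.a = (sl c (m s)).a + β)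
    (h2 : deriv m s = 0) (h3 : |n s - 1| ≤ K) (h4 : |deriv n s| ≤ K) :
    ‖e.cyl.fc (tc c m n β) (y, s) - e.cyl.fc (fz θ) (y, 0)‖ ^ 2 ≤ 2 * K ^ 2 * ‖zz β y‖ ^ 2 := by
  have A := adm_tc hc hm hn hβ
  have K0 := (abs_nonneg _).trans h3
  refine (nle (F := 0) (Z := zz β y) (K := K) fun ⟨i, j⟩ => ?_).trans_eq (by simp)
  rw [PiLp.sub_apply, PiLp.zero_apply, abs_zero, zero_add]
  rcases i with _ | i <;> rcases j with _ | j
  · rw [fc_nn he A, fc_n0 he hθ _ (.inl rfl), sub_zero, abs_zero]; positivity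
  · rw [fc_tc_n he hc hm hn hβ, fc_n0 he hθ _ (.inl rfl), h2, zero_mul, zero_add, sub_zero, abs_mul]
    exact mul_le_mul_of_nonneg_right h4 (abs_nonneg _)
  · rw [fc_anti he A, fc_tc_n he hc hm hn hβ, fc_n0 he hθ _ (.inr rfl), h2, zero_mul, zero_add,
      sub_zero, abs_neg, abs_mul]
    exact mul_le_mul_of_nonneg_right h4 (abs_nonneg _)
  · rw [fc_tc_ss he hc hm hn hβ, fc_ss he hc, fc_ss he hθ.adm, show (sl (fz θ) 0).a = θ.a from rfl,
      h0, da_add (ay_sl hc _).fs hβ, PiLp.add_apply, show ∀ a b d r : ℝ, a + b + r * d -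
        (a + (b + d)) = (r - 1) * d from fun _ _ _ _ => by ring, abs_mul]
    exact mul_le_mul_of_nonneg_right h3 (abs_nonneg _)

omit hc hm hn in
theorem hol_le {φ : e.Y.M → Eu ν} : |hol (⟨β, φ⟩ : e.YC)| ≤
    4 * (∑ k, e.D.F.nrm 0 fun y => e.ζ y (none, some k)) * n1 e 1 β := by
  have s := fun k => sm_ζ he (none, some k)
  have i : ∀ k, Integrable (fun y => e.ζ y (none, some k) * β k y) e.D.F.μ := fun k =>
    ii e.D.F.toPre ((s k).mul (hβ.1 k))
  rw [hol, integral_const_mul, integral_finsetSum _ fun k _ => i k, abs_mul, mul_assoc,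
    Finset.sum_mul, abs_of_pos four_pos]
  refine mul_le_mul_of_nonneg_left ((Finset.abs_sum_le_sum_abs _ _).trans
    (Finset.sum_le_sum fun k _ => ?_)) zero_le_four
  have := abs_real_inner_le_norm (tH e.D.F.toPre 0 (β k))
    (tH e.D.F.toPre 0 fun y => e.ζ y (none, some k))
  rw [inner_tH _ (hβ.1 k) (s k), norm_tH _ _ (hβ.1 k), norm_tH _ _ (s k), mul_comm] at this
  exact this.trans (mul_le_mul_of_nonneg_left ((nrm_mono zero_le_one _).trans
    (Finset.single_le_sum (f := fun k => e.D.F.nrm 1 (β k)) (fun _ _ => nrm_nonneg _ _)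
      (Finset.mem_univ k))) (nrm_nonneg _ _))

omit hc hm hn in
theorem hol_add {v θ : e.YC} (hθ : θ.a ∈ FS e) {r : ℝ} (h : v.a = θ.a + r • β) :
    hol v - hol θ = r * hol (⟨β, 0⟩ : e.YC) := by
  have i : ∀ {a}, a ∈ FS e → Integrable (fun y => 4 * ∑ k, e.ζ y (none, some k) * a k y) e.D.F.μ :=
    fun h => (integrable_finsetSum _ fun k _ =>
      ii e.D.F.toPre ((sm_ζ he (none, some k)).mul (h.1 k))).const_mul 4
  rw [hol, hol, hol, h, ← integral_sub (i (add_mem hθ ((FS e).smul_mem r hβ))) (i hθ),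
    ← integral_const_mul]
  congr 1 with y
  simp only [Pi.add_apply, Pi.smul_apply, smul_eq_mul, mul_add, Finset.sum_add_distrib,
    mul_left_comm _ r, ← Finset.mul_sum]
  ring

omit hc hm hn he in
theorem cont_zz : Continuous (zz β) :=
  (PiLp.continuous_toLp 2 _).comp (continuous_pi fun ⟨i, j⟩ => by
    rcases i with _ | i <;> rcases j with _ | j
    exacts [continuous_const, (hβ.1 _).continuous, (hβ.1 _).continuous,
      ((e.D.F.sm_D (hβ.1 _) _).continuous.sub (e.D.F.sm_D (hβ.1 _) _).continuous).sub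
        (continuous_finsetSum _ fun k _ => (e.D.F.c_sm _ _ _).continuous.mul (hβ.1 _).continuous)])

theorem er_fine {θ : e.YC} (hθ : Red θ) {K C : ℝ} (hC : ∀ r, |iteratedDeriv 2 e.f r| ≤ C) (y s)
    (h0 : θ.a = (sl c (m s)).a + β) (h2 : deriv m s = 0) (h3 : |n s - 1| ≤ K)
    (h4 : |deriv n s| ≤ K) : ‖Er (tc c m n β) (y, s)‖ ^ 2 ≤
      K ^ 2 * (4 * ‖zz β y‖ ^ 2 + 2 * (C * hol (⟨β, 0⟩ : e.YC)) ^ 2 * ‖e.ζ y‖ ^ 2) := by
  have A := ay_of hθ.1.1
  have e1 := Wp42.crit_eC he hθ.1 y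
  rw [eC_zero (X := e.Z) (congrFun hθ.2 y), sub_eq_iff_eq_add, neg_add_eq_sub] at e1
  have e2 : Er (tc c m n β) (y, s) = e.cyl.p2 (y, 0) (e.cyl.fc (tc c m n β) (y, s) -
      e.cyl.fc (fz θ) (y, 0)) + (deriv e.f (hol (sl (tc c m n β) s)) - deriv e.f (hol θ)) • e.ζ y := by
    have ho : e.cyl.om (y, s) = e.cyl.om (y, 0) := rfl
    rw [Er, eC_zero (X := e.Z) (c := tc c m n β) rfl, map_sub, e1, sub_smul, Mp86.En.p2_inv y s, ho]
    abel
  have e3 := hol_add he hβ (v := sl (tc c m n β) s) A.fs (r := n s - 1) (by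
    rw [h0, show (sl (tc c m n β) s).a = (sl c (m s)).a + n s • β from rfl]; module)
  have e4 := convex_univ.norm_image_sub_le_of_norm_deriv_le (f := deriv e.f) (C := C) (fun r _ =>
    (contDiff_infty_iff_deriv.1 he.sf).2.differentiable (by simp) r) (fun r _ => by
      simpa only [iteratedDeriv_succ, iteratedDeriv_zero, Real.norm_eq_abs] using hC r) (mem_univ (hol θ))
    (mem_univ (hol (sl (tc c m n β) s)))
  have C0 := (abs_nonneg _).trans (hC 0)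
  rw [e3, norm_mul] at e4
  have e5 := pow_le_pow_left₀ (norm_nonneg _) ((norm_smul _ (e.ζ y)).trans_le
    (mul_le_mul_of_nonneg_right (e4.trans (mul_le_mul_of_nonneg_left
      (mul_le_mul_of_nonneg_right h3 (norm_nonneg _)) C0)) (norm_nonneg _))) 2
  have e6 := (pow_le_pow_left₀ (norm_nonneg _) (norm_p2 he.cyl (x := (y, 0)) _) 2).trans
    (fc_tc_sub he hc hm hn hβ A y s h0 h2 h3 h4)
  rw [mul_pow, mul_pow, mul_pow, Real.norm_eq_abs, sq_abs] at e5
  rw [e2]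
  refine (pow_le_pow_left₀ (norm_nonneg _) (norm_add_le _ _) 2).trans ((add_sq_le ..).trans ?_)
  linarith

omit hm hn hβ in
theorem int_zz {u : e.Y.M → ℂ} (H : Hd e u) {a₀} (h0 : a₀ ∈ FS e) (σ t) :
    ∫ y, ‖zz ((hv H a₀ σ (sl c t)).a - (sl c t).a) y‖ ^ 2 ∂e.D.F.μ ≤
      (2 * Fintype.card κ * (H.K + n1 e 1 H.η) ^ 2 + 1) * rk H a₀ σ c t ∧
    n1 e 1 ((hv H a₀ σ (sl c t)).a - (sl c t).a) ^ 2 ≤ (H.K + n1 e 1 H.η) ^ 2 * rk H a₀ σ c t := by
  obtain ⟨s1, -, s3⟩ := small_of H σ he h0 hc t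
  have A := ay_sl hc t
  have A' := ay_hv H σ h0 A
  have hβ := sub_mem A'.fs A.fs
  rw [← neg_sub, ← neg_one_smul ℝ, n1_smul 1 _ hβ, abs_neg, abs_one, one_mul] at s1
  replace s1 := pow_le_pow_left₀ (n1_nonneg 1) s1 2
  rw [mul_pow, Real.sq_sqrt s3] at s1
  refine ⟨?_, s1⟩
  generalize hb : (hv H a₀ σ (sl c t)).a - (sl c t).a = β at *
  have c1 : Continuous (df a₀ c t) := (cont_fc he hc t).sub (cont_fc he (fo_of h0) 0)
  have i1 := fun k => Sep15.S.integrable_Y ((hβ.1 k).continuous.norm.pow 2)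
  have i2 := (integrable_finsetSum Finset.univ fun k _ => i1 k).const_mul 2
  have i3 := Sep15.S.integrable_Y (c1.norm.pow 2)
  refine (integral_mono_of_nonneg (.of_forall fun _ => sq_nonneg _) (i2.add i3)
    (.of_forall fun y => ?_)).trans ((integral_add i2 i3).trans_le ?_)
  · have h1 := da_add A.fs hβ y
    rw [← hb, add_sub_cancel, hb] at h1
    have h2 : ∀ i j, ‖da e.D.F β y (i, j)‖ = ‖df a₀ c t y (some i, some j)‖ := fun i j => by
      rw [df, ← fc_hv he H σ h0 A, PiLp.sub_apply, fc_ss he hc, fc_ss he A'.adm,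
        show (sl (fz (hv H a₀ σ (sl c t))) 0).a = (hv H a₀ σ (sl c t)).a from rfl, h1,
        PiLp.add_apply, ← norm_neg]
      congr 1; ring
    simp only [PiLp.norm_sq_eq_of_L2, Fintype.sum_prod_type, Fintype.sum_option, zz, Option.elim,
      h2, Finset.sum_add_distrib, Pi.add_apply, Pi.pow_apply, norm_zero]
    have p : ∀ i, 0 ≤ ∑ k, ‖df a₀ c t y (i, some k)‖ ^ 2 := fun _ => by positivity
    have p' : 0 ≤ ∑ k, ‖df a₀ c t y (some k, none)‖ ^ 2 := by positivity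
    linarith [p none, sq_nonneg ‖df a₀ c t y (none, none)‖]
  · rw [integral_const_mul, integral_finsetSum _ fun k _ => i1 k, add_mul, one_mul, mul_assoc,
      mul_assoc]
    refine add_le_add (mul_le_mul_of_nonneg_left ((Finset.sum_le_card_nsmul _ _ _ fun k _ =>
      le_trans ?_ s1).trans_eq (nsmul_eq_mul _ _)) zero_le_two)
      (le_add_of_nonneg_right (sq_nonneg _))
    refine (sq_tH e.D.F.toPre (hβ.1 k)).symm.trans_le (pow_le_pow_left₀ (norm_nonneg _) ?_ 2)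
    exact (norm_tH _ _ (hβ.1 k)).trans_le ((nrm_mono zero_le_one _).trans (Finset.single_le_sum
      (f := fun k => e.D.F.nrm 1 (β k)) (fun _ _ => nrm_nonneg _ _) (Finset.mem_univ k)))

omit hc hm hn hβ in
theorem cylG {u : e.Y.M → ℂ} (H : Hd e u) {a₀} (h0 : a₀ ∈ FS e) (σ) : ∃ K ≥ (0 : ℝ), ∀ c : e.ZC,
    e.cyl.Adm c → ∀ t, ∀ θ : e.YC, Red θ → θ.a = (hv H a₀ σ (sl c t)).a → ∀ δ > 0, ∃ c' : e.ZC,
      e.cyl.Adm c' ∧ c'.Φ = 0 ∧ (∀ x, x.2 ≤ t → ∀ i, c'.a i x = c.a i x) ∧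
      (∀ x, t + 2 ≤ x.2 → ∀ i, c'.a i x = (fz θ).a i x) ∧
      ∫⁻ x in univ ×ˢ Ici t, ‖Er c' x‖ₑ ^ 2 ∂e.D.Z.μ ≤ ENNReal.ofReal (δ + K * rk H a₀ σ c t) := by
  obtain ⟨K₁, hm⟩ := ex_m
  obtain ⟨K₂, k2, hn⟩ := ex_n
  obtain ⟨C₁, h1⟩ := he.bf 1
  obtain ⟨C₂, h2⟩ := he.bf 2
  have cζ : Continuous e.ζ := he.sζ.continuous
  set k := (H.K + n1 e 1 H.η) ^ 2
  set z := (4 * ∑ k, e.D.F.nrm 0 fun y => e.ζ y (none, some k)) ^ 2
  set z' := ∫ y, ‖e.ζ y‖ ^ 2 ∂e.D.F.μ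
  have z0 : 0 ≤ z' := integral_nonneg fun _ => sq_nonneg _
  refine ⟨2 * (K₂ ^ 2 * (4 * (2 * Fintype.card κ * k + 1) + 2 * (C₂ ^ 2 * (z * k)) * z')),
    by positivity, fun c hc t θ hθ ha δ δ0 => ?_⟩
  obtain ⟨j1, j2⟩ := int_zz he hc H h0 σ t
  have r0 := (small_of H σ he h0 hc t).2.2
  rw [← ha] at j1 j2
  have hβ := sub_mem (ay_of hθ.1.1).fs (ay_sl hc t).fs
  obtain ⟨β, hb⟩ : ∃ β, β = θ.a - (sl c t).a := ⟨_, rfl⟩
  rw [← hb] at j1 j2 hβ
  obtain ⟨M, hM⟩ := (isCompact_univ.prod (isCompact_Icc (a := t) (b := t + 1))).exists_bound_of_continuousOn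
    (Mp86.En.sm_fc' he.cyl hc).continuous.continuousOn
  have co : Continuous e.om := (PiLp.continuous_toLp 2 _).comp
    (continuous_pi fun s => (sm_om he s).continuous)
  obtain ⟨g, hg⟩ : ∃ g : e.Y.M → ℝ, g = fun y => 2 * (2 * max K₁ K₂ ^ 2 * (M ^ 2 + ‖zz β y‖ ^ 2)) +
    2 * (‖e.om y‖ + C₁ * ‖e.ζ y‖) ^ 2 := ⟨_, rfl⟩
  have cz := cont_zz hβ
  have cg : Continuous g := by rw [hg]; fun_prop
  have g0 : ∀ y, 0 ≤ g y := fun y => by rw [hg]; positivity
  have G0 : 0 ≤ ∫ y, g y ∂e.D.F.μ := integral_nonneg g0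
  obtain ⟨τ, τ0, τ1, τ2⟩ : ∃ τ > 0, τ ≤ 1 ∧ (∫ y, g y ∂e.D.F.μ) * τ ≤ δ :=
    ⟨min 1 (δ / (∫ y, g y ∂e.D.F.μ + 1)), by positivity, min_le_left _ _,
      (mul_le_mul (le_add_of_nonneg_right zero_le_one) (min_le_right _ _) (by positivity)
        (by positivity)).trans_eq (mul_div_cancel₀ _ (by positivity))⟩
  obtain ⟨m, m1, m2, m3, m4, m5⟩ := hm t τ τ0 τ1
  obtain ⟨n, n1', n2, n3, n4, n5⟩ := hn t
  have fine := fun y s (hs : t + τ < s) K => er_fine he hc m1 n1' hβ hθ (K := K) h2 y s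
    (by rw [(m4 s hs).1, hb, add_sub_cancel]) (m4 s hs).2
  have en : ∀ {v : F2 κ} {r}, ‖v‖ ^ 2 ≤ r → ‖v‖ₑ ^ 2 ≤ ENNReal.ofReal r := fun h => by
    rw [← ofReal_norm, ← ENNReal.ofReal_pow (norm_nonneg _)]
    exact ENNReal.ofReal_le_ofReal h
  refine ⟨tc c m n β, adm_tc hc m1 n1' hβ, rfl, fun x hx i => ?_, fun x hx i => ?_, ?_⟩
  · cases i <;> simp only [tc, Option.elim, m2 _ hx, n2 _ hx, one_mul, zero_mul, add_zero]
  · have := m4 x.2 (by linarith)
    cases i <;> simp [tc, this, n3 _ hx, hb, fz, Nd18.ca, sl]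
  have s : univ ×ˢ Ici t ⊆ (univ : Set e.Y.M) ×ˢ Icc t (t + τ) ∪ (univ ×ˢ Ioc (t + τ) (t + 2) ∪
      univ ×ˢ Ioi (t + 2)) := fun x hx => by
    rcases le_or_gt x.2 (t + τ) with a | a
    exacts [.inl ⟨trivial, hx.2, a⟩, .inr ((le_or_gt x.2 (t + 2)).imp (⟨trivial, a, ·⟩)
      (⟨trivial, ·⟩))]
  have b1 := lint_le (f := fun x => ‖Er (tc c m n β) x‖ₑ ^ 2) (I := Icc t (t + τ))
    measurableSet_Icc cg g0 fun y s hs => en (by
      have a1 := fc_tc_le he hc m1 n1' hβ y s (le_max_of_le_right k2) (le_max_of_le_left (m5 s))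
        (le_max_of_le_right (n5 s).1) (le_max_of_le_right (n5 s).2.2)
      have a2 := pow_le_pow_left₀ (norm_nonneg _) (hM (y, m s) ⟨trivial, m3 s hs.1⟩) 2
      have a3 : ‖Er (tc c m n β) (y, s)‖ ≤ ‖e.cyl.fc (tc c m n β) (y, s)‖ +
          (‖e.om y‖ + C₁ * ‖e.ζ y‖) := by
        rw [Er, eC_zero (X := e.Z) rfl, ← add_assoc]
        refine (norm_add_le _ _).trans (add_le_add ((norm_sub_le _ _).trans
          (add_le_add (norm_p2 he.cyl _) le_rfl)) ((norm_smul _ _).trans_le ?_))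
        exact mul_le_mul_of_nonneg_right (by simpa using h1 _) (norm_nonneg _)
      refine (pow_le_pow_left₀ (norm_nonneg _) a3 2).trans ((add_sq_le ..).trans ?_)
      rw [hg]
      nlinarith [mul_le_mul_of_nonneg_left a2 (sq_nonneg (max K₁ K₂))])
  have b2 := lint_le (f := fun x => ‖Er (tc c m n β) x‖ₑ ^ 2) (I := Ioc (t + τ) (t + 2))
    measurableSet_Ioc (by fun_prop) (fun _ => by positivity) fun y s hs =>
      en (fine y s hs.1 K₂ (n5 s).2.1 (n5 s).2.2)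
  have b3 := lint_le (f := fun x => ‖Er (tc c m n β) x‖ₑ ^ 2) (I := Ioi (t + 2)) measurableSet_Ioi
    continuous_zero (fun _ => le_rfl) fun y s hs => en ((fine y s (by linarith [hs.out]) 0
      (by rw [n3 s hs.out.le, sub_self, abs_zero]) (by rw [n4 s hs, abs_zero])).trans_eq (by simp))
  simp only [Pi.zero_apply, integral_zero, ENNReal.ofReal_zero, zero_mul] at b3
  refine (lintegral_mono_set s).trans ((lintegral_union_le _ _ _).trans ((add_le_add b1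
    ((lintegral_union_le _ _ _).trans (add_le_add b2 b3))).trans ?_))
  rw [add_zero, Real.volume_Icc, Real.volume_Ioc, ← ENNReal.ofReal_mul G0, ← ENNReal.ofReal_mul
    (integral_nonneg fun _ => by positivity), ENNReal.ofReal_add δ0.le (by positivity),
    add_sub_cancel_left]
  refine add_le_add (ENNReal.ofReal_le_ofReal τ2) (ENNReal.ofReal_le_ofReal ?_)
  have i1 := (Sep15.S.integrable_Y (cz.norm.fun_pow 2)).const_mul 4
  have i2 := (Sep15.S.integrable_Y (cζ.norm.fun_pow 2)).const_mul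
    (2 * (C₂ * hol (⟨β, 0⟩ : e.YC)) ^ 2)
  have j3 := pow_le_pow_left₀ (abs_nonneg _) (hol_le he hβ (φ := 0)) 2
  rw [sq_abs, mul_pow] at j3
  replace j3 := j3.trans (mul_le_mul_of_nonneg_left j2 (sq_nonneg _))
  rw [integral_const_mul, integral_add i1 i2, integral_const_mul, integral_const_mul,
    mul_comm _ (_ - _), mul_assoc 2 (K₂ ^ 2 * _)]
  refine mul_le_mul (by linarith) ?_ (by positivity) zero_le_two
  rw [mul_assoc (K₂ ^ 2), add_mul, mul_pow]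
  refine mul_le_mul_of_nonneg_left (add_le_add (by linarith) ?_) (sq_nonneg _)
  nlinarith [mul_le_mul_of_nonneg_left j3 (mul_nonneg (sq_nonneg C₂) z0)]

omit hc hm hn hβ in
theorem cylL {u : e.Y.M → ℂ} (H : Hd e u) {a₀} (h0 : a₀ ∈ FS e) (σ) : ∃ K ≥ (0 : ℝ),
    ∀ (A : e.ZC) (J : Set ℝ) t, IsOpen J → e.cyl.AdmOn A (univ ×ˢ J) → Icc (t - 1) (t + 1) ⊆ J →
      ∀ θ : e.YC, Red θ → θ.a = (hv H a₀ σ (sl A t)).a → ∀ δ > 0, ∃ c' : e.ZC,
      e.cyl.AdmOn c' (univ ×ˢ J) ∧ c'.Φ = 0 ∧ (∀ x, x.2 < t → ∀ i, c'.a i x = A.a i x) ∧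
      (∀ x, t + 2 ≤ x.2 → ∀ i, c'.a i x = (fz θ).a i x) ∧
      ∫⁻ x in univ ×ˢ Ici t, ‖Er c' x‖ₑ ^ 2 ∂e.D.Z.μ ≤ ENNReal.ofReal (δ + K * rk H a₀ σ A t) := by
  obtain ⟨K, K0, h⟩ := cylG he H h0 σ
  refine ⟨K, K0, fun A J t hJ hA ht θ hθ ha δ δ0 => ?_⟩
  let φ : ContDiffBump t := ⟨1 / 2, 1, one_half_pos, one_half_lt_one⟩
  have h2 : ∀ y : e.Y.M, ∀ᶠ x in 𝓝 (y, t), φ x.2 = 1 := fun y =>
    (continuous_snd.tendsto (y, t)).eventually φ.eventuallyEq_one
  have h3 := adm_cut (isOpen_univ.prod hJ) hA (sm_snd φ.contDiff) fun x hx => ⟨trivial, ht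
    (Real.closedBall_eq_Icc ▸ φ.tsupport_eq ▸ tsupport_comp_subset_preimage _ continuous_snd hx)⟩
  have h4 : sl (cut (fun x => φ x.2) A) t = sl A t := by
    simp only [sl, cut, show φ t = 1 from φ.eventuallyEq_one.self_of_nhds, one_smul]
  have h5 : rk H a₀ σ (cut (fun x => φ x.2) A) t = rk H a₀ σ A t := by
    simp only [rk, df, h4, fun y => fc_congr (b := e.cyl) (cut_a (c := A) (h2 y))]
  obtain ⟨c, c1, c2, c3, c4, c5⟩ := h _ h3 t θ hθ (h4 ▸ ha) δ δ0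
  obtain ⟨c', hc'⟩ : ∃ c' : e.ZC, c' = ⟨fun i x => if x.2 < t then A.a i x else c.a i x, 0⟩ :=
    ⟨_, rfl⟩
  have k1 : ∀ x, x.2 < t → ∀ i, c'.a i x = A.a i x := fun x hx i => hc' ▸ if_pos hx
  have k2 : ∀ x, t - 1 / 2 < x.2 → ∀ i, c'.a i x = c.a i x := fun x hx i => by
    by_cases k : x.2 < t
    · have : φ x.2 = 1 := φ.one_of_mem_closedBall (by
        rw [Real.closedBall_eq_Icc]; exact ⟨hx.le, k.le.trans (le_add_of_nonneg_right φ.rIn_pos.le)⟩)
      simp only [k1 x k, c3 x k.le, cut, this, one_smul]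
    · exact hc' ▸ if_neg k
  have k3 : ∀ x, t - 1 / 2 < x.2 → ∀ i, c'.a i =ᶠ[𝓝 x] c.a i := fun x hx i =>
    (continuous_snd.tendsto x).eventually (lt_mem_nhds hx) |>.mono fun z hz => k2 z hz i
  have k4 : c'.Φ = 0 := hc' ▸ rfl
  refine ⟨c', Pb50.admOn_of fun x hx => ?_, k4, k1, fun x hx i => (k2 x (by linarith) i).trans
    (c4 x hx i), le_trans (setLIntegral_congr_fun (MeasurableSet.univ.prod measurableSet_Ici)
      fun x hx => ?_).le (h5 ▸ c5)⟩
  · refine ⟨fun i => ?_, k4 ▸ contMDiffAt_const, fun i => ?_, k4 ▸ map_zero _⟩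
    all_goals rcases lt_or_ge x.2 t with k | k
    · exact ((Pb50.LA.of_on hA (isOpen_univ.prod hJ) hx).sa i).congr_of_eventuallyEq
        ((continuous_snd.tendsto x).eventually (gt_mem_nhds k) |>.mono fun z hz => k1 z hz i)
    · exact (c1.sa i x).congr_of_eventuallyEq (k3 x (by linarith) i)
    · simp only [k1 x k, hA.pa i x hx]
    · simp only [k2 x (by linarith), c1.pa i x]
  · have k : t - 1 / 2 < x.2 := by linarith [hx.2.out]
    have : (sl c' x.2).a = (sl c x.2).a := funext₂ fun i y => k2 (y, x.2) k _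
    simp only [Er, hol, this, eC_congr (b := e.cyl) (k3 x k) (.of_eq (k4.trans c2.symm))]

end Crest.Agent.X212.Sw88.Big
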