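import Crest.Agent.X212.Sw88.Gd
import Crest.Agent.X212.End23.Defs
import Crest.Agent.X212.Dr9.Main

/-!
# Row 212, layer AN-S (helper88): the gradient at reducible slices of marked ends
-/

set_option autoImplicit false
set_option linter.unusedSectionVars false
noncomputable section
open scoped Manifold ContDiff Topology InnerProductSpace
open MeasureTheory Set Function Filter

namespace Crest.Agent.X212.Sw88
open An Cyf70 Sw Sw.En3 Flo2

theorem exists_stp {g : ℝ → ℝ} (hg : Continuous g) {p r₀ : ℝ} (hp : 0 < p) (hper : Periodic g p)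
    (h1 : ∀ r, g r ≤ 1) (h0 : 0 < g r₀) :
    ∃ φ l, Stp φ l ∧ ∀ r, deriv φ r ≠ 0 → g r₀ / 2 ≤ g r := by
  set h : ℝ → ℝ := fun r => max (g r - g r₀ / 2) 0 with hh
  have c : Continuous h := (hg.sub continuous_const).max continuous_const
  have pe : Periodic h p := fun r => by simp only [hh, hper r]
  have d : deriv (fun r => ∫ x in (0 : ℝ)..r, h x) = h := funext fun r => c.deriv_integral _ _ _
  have m : 0 < ∫ x in r₀..r₀ + p, h x := by
    have := intervalIntegral.integral_lt_integral_of_continuousOn_of_le_of_exists_lt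
      (f := fun _ => (0 : ℝ)) (g := h) (lt_add_of_pos_right r₀ hp) continuousOn_const c.continuousOn
      (fun _ _ => le_max_right _ _)
      ⟨r₀, ⟨le_rfl, by linarith⟩, lt_max_of_lt_left (by linarith)⟩
    simpa using this
  obtain ⟨n, hn⟩ := exists_int_ge (∫ x in r₀..r₀ + p, h x)⁻¹
  refine ⟨fun r => ∫ x in (0 : ℝ)..r, h x, n • p, ⟨contDiff_one_iff_deriv.2
    ⟨fun r => (c.integral_hasStrictDerivAt _ _).hasDerivAt.differentiableAt, d.symm ▸ c⟩, fun r => ?_,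
    fun r => ?_⟩, fun r k => ?_⟩
  · rw [d]
    exact ⟨le_max_right _ _, max_le (by linarith [h1 r]) zero_le_one⟩
  · rw [← intervalIntegral.integral_add_adjacent_intervals (c.intervalIntegrable 0 r)
      (c.intervalIntegrable r (r + n • p)), pe.intervalIntegral_add_zsmul_eq n r c.intervalIntegrable,
      pe.intervalIntegral_add_eq r r₀, zsmul_eq_mul]
    exact add_le_add le_rfl ((inv_le_iff_one_le_mul₀ m).1 hn)
  · rw [d] at k
    by_contra! a
    exact k (max_eq_right (by linarith))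

variable {κ lam ν : Type} [Fintype κ] [Fintype lam] [Fintype ν] [DecidableEq ν]
  {e : En3 κ lam ν}

theorem gn_red {v : e.YC} (h : v.Φ = 0) (w : ℝ) (β : ℝ → ℝ) (S : Set ℝ) (ψ : ℝ → ℝ) :
    gn (⟨v.a, 0⟩ : (e.re w β S ψ).YC) = gn v := by
  obtain ⟨a, Φ⟩ := v
  obtain rfl : Φ = 0 := h
  have k : ∀ (e : En3 κ lam ν) a, gn (⟨a, 0⟩ : e.YC) = ∫ y, 2 * ∑ k, (2 * (e.cyl.p2 (y, 0)
      (e.cyl.fc (fz (⟨a, 0⟩ : e.YC)) (y, 0)) - e.om y + deriv e.f (hol (⟨a, 0⟩ : e.YC)) • e.ζ y)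
        (none, some k)) ^ 2 ∂e.D.F.μ := fun e a => by
    refine integral_congr_ae (.of_forall fun y => ?_)
    have h1 : (gr (⟨a, 0⟩ : e.YC)).Φ y = 0 := by
      have : (fz (⟨a, 0⟩ : e.YC)).Φ = fun _ => 0 := rfl
      simp [gr, Bg.eD, Wz78.dir, Wz78.nab, this, Sob92.dv_const]
    have h2 : e.cyl.qd (y, 0) 0 0 = 0 := by ext s; simp [Bg.qd]
    have h3 : e.cyl.eC (fz (⟨a, 0⟩ : e.YC)) (y, 0) =
        e.cyl.p2 (y, 0) (e.cyl.fc (fz (⟨a, 0⟩ : e.YC)) (y, 0)) - e.om y := by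
      show e.cyl.p2 _ (_ - _ • e.cyl.qd (y, 0) 0 0) - _ = _
      rw [h2, smul_zero, sub_zero]
      rfl
    simp only [h1, inner_zero_left, mul_zero, add_zero, sq]
    simp only [gr, h3]
  rw [k, k]
  rfl

theorem red_gap (hP : PsyStmt κ lam ν) (he : e.OK) (hw : 0 < e.w) {g : ℝ → ℝ} (hg : Continuous g)
    (inv : ∀ v v' : e.YC, e.cyl.Adm (fz v) → Eqv v v' → g (hol v') = g (hol v)) {γ : ℝ}
    (cr : ∀ v : e.YC, Crit v → g (hol v) < γ) :
    ∃ δ > 0, ∀ v : e.YC, e.cyl.Adm (fz v) → v.Φ = 0 → γ ≤ g (hol v) → δ ≤ gn v := by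
  by_contra! h
  choose v h1 h2 h3 h4 using fun n : ℕ => h (1 / (n + 1)) (by positivity)
  obtain ⟨v₀, v', c0, ev, hd, -⟩ := hP.ps e he hw 0 ℕ (hyperfilter ℕ) v
    (fun n => ⟨h1 n, fun y => by simp [h2 n]⟩)
    ((squeeze_zero (fun n => Sep15.S.gn_nonneg hw.le _) (fun n => (h4 n).le)
      tendsto_one_div_add_atTop_nhds_zero_nat).mono_left
        (Nat.cofinite_eq_atTop ▸ hyperfilter_le_cofinite))
  obtain ⟨K, K0, hK⟩ := Dr9.hol_lip he
  have t : Tendsto (fun n => hol (v' n)) (hyperfilter ℕ) (𝓝 (hol v₀)) :=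
    tendsto_iff_norm_sub_tendsto_zero.2 (squeeze_zero (fun _ => norm_nonneg _) (fun n =>
      (hK _ _ (Pb50.Eqv.adm he (h1 n) (ev n)) c0.1).trans (mul_le_mul_of_nonneg_left
        (Dr9.dist_mono zero_le_one _ _) K0)) (by simpa using hd.const_mul K))
  exact (cr _ c0).not_ge (ge_of_tendsto' ((hg.tendsto _).comp t) fun n =>
    (h3 n).trans_eq (inv _ _ (h1 n) (ev n)).symm)

theorem hol_eqv (he : e.OK) {u : e.Y.M → ℂ} (hu : End23.Lg e u) {v v' : e.YC}
    (hv : e.cyl.Adm (fz v)) (h : Eqv v v') :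
    ∃ n : ℤ, hol v' = hol v + hol (YC.act (e := e) (fun y => u y ^ n) ⟨0, 0⟩) := by
  obtain ⟨u', h1, h2⟩ := h
  obtain ⟨n, χ, h3, h4⟩ := hu.2 u' h1
  have g := gau_zpow hu.1 n
  refine ⟨n, (Dr9.hol_eq0 he (Pb50.Eqv.adm he hv (eqv_act g v)) ⟨χ, h3, ?_⟩).trans
    (hol_yact he g hv)⟩
  rw [fz_act g, Pb50.act_act he.cyl (Pb50.gau_fst g) (Pb50.gau_fst (g := fun y =>
    Complex.exp (χ y * Complex.I)) ⟨(Complex.contDiff_exp.comp (Complex.ofRealCLM.contDiff.mul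
      contDiff_const)).contMDiff.comp h3, fun _ => Complex.norm_exp_ofReal_mul_I _⟩), h2]
  simp only [h4, mul_comm]

theorem gap_dead (hP : PsyStmt κ lam ν) (h : End23.Dead e) :
    ∃ δ > 0, ∀ v : e.YC, e.cyl.Adm (fz v) → v.Φ = 0 → δ ≤ gn v := by
  obtain ⟨δ, h0, k⟩ := red_gap hP h.1 two_pos (g := fun _ => 0) continuous_const
    (fun _ _ _ _ => rfl) (γ := 0) fun v hv => (h.2.2.2 v hv).elim
  exact ⟨δ, h0, fun v a b => (k ⟨v.a, 0⟩ ⟨a.1, contMDiff_const, a.3, fun _ => map_zero _⟩ rfl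
    le_rfl).trans_eq (gn_red b _ _ _ _)⟩

variable {mk : Mk κ lam ν}

theorem gr_tor (hP : PsyStmt κ lam ν) {ε : Ty κ lam ν} (ok : ε.1.OK mk)
    (h : End23.Tor ε.en ε.1.u) : ∃ δ > 0, ∃ l, Gr ε.en δ l := by
  obtain ⟨M, hM, hp, no, -⟩ := h
  have p0 : per ε 1 ≠ 0 := fun k => hp (by
    have := Dr9.hol_act (ok.ok ε.2) adm_zero ok.u.1 (fz_act (e := ε.en) ok.u ⟨0, 0⟩)
    simp only [per, zpow_one] at k
    rw [k, show hol (⟨0, 0⟩ : ε.en.YC) = 0 by simp [hol], zero_sub, eq_comm, neg_eq_zero] at this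
    exact this)
  set g : ℝ → ℝ := fun r => ∏ j, Real.sin (Real.pi * ((r - hol (M.θ j)) / per ε 1)) ^ 2 with hg
  have c : Continuous g := by fun_prop
  have pe : Periodic g (per ε 1) := fun r => Finset.prod_congr rfl fun j _ => by
    rw [add_sub_right_comm, add_div, div_self p0, mul_add, mul_one, Real.sin_add_pi, neg_sq]
  have inv : ∀ v v' : (End23.lf ε.en).YC, (End23.lf ε.en).cyl.Adm (fz v) → Eqv v v' →
      g (hol v') = g (hol v) := fun v v' a b => by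
    obtain ⟨n, k⟩ := hol_eqv hM.ok ⟨ok.u, ok.lg⟩ a b
    rw [k]
    exact (congrArg (fun x => g (hol v + x)) (per_eq ok n)).trans (pe.int_mul n _)
  obtain ⟨r₀, h0⟩ : ∃ r₀, r₀ ∉ ⋃ j, range fun n : ℤ => hol (M.θ j) + n * per ε 1 := by
    by_contra! k
    exact Cardinal.not_countable_real ((countable_iUnion fun j => countable_range _).mono
      fun r _ => k r)
  have g0 : 0 < g r₀ := Finset.prod_pos fun j _ => sq_pos_of_ne_zero fun k => by
    obtain ⟨n, k⟩ := Real.sin_eq_zero_iff.1 k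
    rw [mul_comm, mul_right_inj' Real.pi_ne_zero, eq_div_iff p0] at k
    exact h0 (mem_iUnion.2 ⟨j, n, by linarith⟩)
  obtain ⟨φ, l, s1, s2⟩ := exists_stp c (abs_pos.2 p0)
    (by rcases abs_choice (per ε 1) with k | k <;> rw [k]; exacts [pe, pe.neg])
    (fun r => Finset.prod_le_one (fun _ _ => sq_nonneg _) fun _ _ => Real.sin_sq_le_one _) g0
  obtain ⟨δ, d0, k⟩ := red_gap hP hM.ok two_pos c inv (γ := g r₀ / 2) fun v hv => by
    obtain ⟨i | j, k⟩ := hM.all v hv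
    · obtain ⟨y, a⟩ := hM.irr i
      exact (a (congrFun (no _ (hM.crit (.inl i))) y)).elim
    · rw [inv _ _ (hM.crit _).1 k, show g (hol (M.pt (.inr j))) = 0 from
        Finset.prod_eq_zero (Finset.mem_univ j) (by simp [Gen.pt])]
      exact half_pos g0
  exact ⟨δ, d0, l, .inr ⟨φ, s1, fun v a b d => (k ⟨v.a, 0⟩
    ⟨a.1, contMDiff_const, a.3, fun _ => map_zero _⟩ rfl (s2 _ d)).trans_eq (gn_red b _ _ _ _)⟩⟩

/-- the marks of END-S together with positive scalar curvature -/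
theorem mkP (hP : PsyStmt κ lam ν)
    (hT : ∀ e, mk.tor e → ∀ c, End23.Tor (e.en c) e.u ∧ Wp (e.en c) 0)
    (hD : ∀ e, mk.dead e → ∀ c, End23.Dead (e.en c) ∧ Wp (e.en c) 0) : MkP mk :=
  ⟨fun ε h k => let a := hT _ (h.tor k).1 ε.2; ⟨a.2, gr_tor hP h a.1⟩,
    fun ε h k => let a := hD _ (h.dead k).1 ε.2; ⟨a.2, gap_dead hP a.1⟩⟩

end Crest.Agent.X212.Sw88
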