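import Crest.Agent.X212.Sw88.RadA
import Crest.Agent.X212.Sw88.C0
import Crest.Agent.X212.Lvo97.Main
import Crest.Agent.X212.Pb50.Nk

/-!
# Row 212, lane RAD-S (helper88): `Flo2.RadStmt` from its leaves
-/

set_option autoImplicit false
set_option linter.unusedSectionVars false
noncomputable section
open scoped Manifold ContDiff Topology InnerProductSpace
open MeasureTheory Set Function Filter

namespace Crest.Agent.X212.Sw88
open An Cyf70 Sw Sw.En3 Sob92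
open Flo2 (Gc Ty Mk Gr Plc Tm Tk bm)
open Rad94 (EvQ Prt Dat Rdx Lvl TwId sft)
open M (Mf pm)

variable {κ lam ν : Type} [Fintype κ] [Fintype lam] [Fintype ν] [DecidableEq ν]

section scl
variable {X : Mf 4} {nc : ℕ} {b : Bg X.I X.M κ lam ν nc} {c : Sw.Cfg X.M κ ν} {r : ℝ}

/-- scaling of the spinor -/
def scl (r : ℝ) (c : Sw.Cfg X.M κ ν) : Sw.Cfg X.M κ ν := ⟨c.a, fun x => r • c.Φ x⟩

theorem scl_scl (h : r ≠ 0) (c : Sw.Cfg X.M κ ν) : scl r⁻¹ (scl r c) = c :=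
  Sw.Cfg.ext rfl (funext fun _ => inv_smul_smul₀ h _)

theorem scl_scl' (h : r ≠ 0) (c : Sw.Cfg X.M κ ν) : scl r (scl r⁻¹ c) = c :=
  Sw.Cfg.ext rfl (funext fun _ => smul_inv_smul₀ h _)

theorem adm_scl (r : ℝ) (h : b.Adm c) : b.Adm (scl r c) :=
  ⟨h.sa, (r • ContinuousLinearMap.id ℝ _).contMDiff.comp h.sΦ, h.pa, fun x => by
    simp only [scl, map_smul, h.pΦ x]⟩

theorem act_scl (r : ℝ) (u : X.M → ℂ) : b.act u (scl r c) = scl r (b.act u c) :=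
  Sw.Cfg.ext rfl (funext fun x => by simp only [Bg.act, scl, map_smul, cs, smul_add, smul_comm r])

theorem eD_scl (r : ℝ) (h : b.Adm c) (x : X.M) : b.eD (scl r c) x = r • b.eD c x := by
  have := dir_smul b.F.toPre b.m.ρ (b.W c) (f := fun _ => r) contMDiffAt_const (h.sΦ x)
  simp only [Pre.D_def, dv_const, Pi.zero_apply, zero_smul, Finset.sum_const_zero, zero_add] at this
  rw [Bg.eD, Bg.eD, smul_add, ← this, ← map_smul]
  rfl

theorem sol_scl [IsEmpty (Fin nc)] {w : ℝ} (hw : 0 < w) {f : X.M → F2 κ} {τ : Pt X.M κ ν nc}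
    (hτ : ∀ c x, τ.D c x = 0 ∧ τ.C c x = f x) :
    ({ b with w := w } : Bg X.I X.M κ lam ν nc).Sol τ c ↔ (sft b f 1).Sol ⟨0, 0, 0⟩ (scl √w c) := by
  have r0 := (Real.sqrt_pos.2 hw).ne'
  have e : ∀ x, (sft b f 1).eC (scl √w c) x =
      ({ b with w := w } : Bg X.I X.M κ lam ν nc).eC c x - f x := fun x => by
    have := qd_smul (b := b) (x := x) √w √w (c.Φ x) (c.Φ x)
    rw [Real.mul_self_sqrt hw.le] at this
    rw [Bg.eC, Bg.eC, sub_sub, one_smul]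
    exact congrArg (fun v => b.p2 x (b.fc c x - v) - (b.om x + f x)) this
  have k : b.Adm c → (({ b with w := w } : Bg X.I X.M κ lam ν nc).EqOn τ c univ ↔
      (sft b f 1).EqOn ⟨0, 0, 0⟩ (scl √w c) univ) := fun a => forall₂_congr fun x _ => by
    rw [(hτ c x).1, (hτ c x).2, e, ← sub_eq_zero (b := f x)]
    refine and_congr_left' ?_
    change b.eD c x = 0 ↔ b.eD (scl √w c) x = 0
    rw [eD_scl _ a, smul_eq_zero_iff_right r0]
  refine ⟨fun h => ?_, fun h => ?_⟩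
  · have a : b.Adm c := ⟨h.sa, h.sΦ, h.pa, h.pΦ⟩
    have a' := adm_scl √w a
    exact ⟨⟨a'.sa, a'.sΦ, a'.pa, a'.pΦ⟩, (k a).1 h.eq, isEmptyElim⟩
  · have a : b.Adm c := scl_scl r0 c ▸ adm_scl _ (⟨h.sa, h.sΦ, h.pa, h.pΦ⟩ : b.Adm (scl √w c))
    exact ⟨⟨a.sa, a.sΦ, a.pa, a.pΦ⟩, (k a).2 h.eq, isEmptyElim⟩

theorem pt_off {d : Dt κ lam ν} {N : Type} [Fintype N] {ty : N → d.𝓔} (P : Pc d X nc ty)
    (h : ∀ i, P.Off i) (q : d.W →₀ ℝ) (c : Sw.Cfg X.M κ ν) (x : X.M) :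
    (P.pt q).D c x = 0 ∧ (P.pt q).C c x = q.sum fun w r => r • P.fo w x := by
  have k : ∀ i, ∀ K ∈ P.nk i, K.χ x = 0 := fun i K hK => by
    obtain ⟨a, h1, h2⟩ := h i K hK
    simp only [Nd18.Nk.χ, Nd18.Nk.cut, Nd18.ct, h1, h2, Option.elim]
    rcases le_total (K.tm x) (a + 1) with e | e
    · rw [Real.smoothTransition.zero_of_nonpos (by linarith), zero_mul]
    · rw [Real.smoothTransition.zero_of_nonpos (x := a + 2 - _ - _) (by linarith), mul_zero]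
  refine ⟨Finset.sum_eq_zero fun i _ => Pb50.elim_zero fun K hK => by
    rw [Nk.rad, k i K hK, zero_mul, zero_smul], ?_⟩
  change ∑ i, _ + _ = _
  rw [Finset.sum_eq_zero fun i _ => Pb50.elim_zero fun K hK => by
    rw [Nk.hl, Nd18.Nk.ext, k i K hK, zero_smul, smul_zero], zero_add]
  refine Finsupp.sum_congr fun w _ => ?_
  rw [Pc.tm, Finset.sum_eq_zero fun i _ => Pb50.elim_zero fun K hK => Pb50.elim_zero fun T _ => by
    rw [Nk.ms, Nd18.Nk.ext, k i K hK, zero_smul, smul_zero], add_zero]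

end scl

variable {G : Gr κ lam ν} {mk : Mk κ lam ν} {g : Gc κ lam ν} (H : RadH G mk) (hg : g.Gd mk)
include H hg

theorem hi1 (h : mk.hi1 g) : ∃ n : ℚ, ∀ x, n ≤ x →
    g.EvW mk fun p l Γ _ yt τ q => ∀ β, p.InV Γ β → p.dp G l β g.pin false = x →
      ∃ β', p.InV Γ β' ∧ (∀ j, β' j false = β j false) ∧
        p.dp G l β' g.pout true = x + G.dg g ∧ p.One l yt τ β' q := by
  obtain ⟨ε, D, hD⟩ := H.mks.hi1 g h
  choose dg N tw using fun s => H.twid (ε s) (D.h s ▸ hg.2 _) (D.h s ▸ kd_two hg.1 D.prt s)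
    (D.base.ok.en s)
  obtain ⟨Λ, hΛ⟩ := H.small g hg _ D.prt
  obtain ⟨n₀, h₀⟩ := hD (max Λ 1)
  obtain ⟨n₁, h₁⟩ := (tw false).1.big n₀
  refine ⟨max (N false) n₁, fun x hx 𝓔 _ ty Sl _ p hty => ?_⟩
  have d : ∀ (l : Flo2.Lv 𝓔) β, p.dp G l β g.pin false = G.d l _ (β (p.ι (D.ι false)) false) :=
    fun l β => by rw [D.prt.pin]; rfl
  by_cases k : ∃ l₀ > 0, Rad94.Ev (ε false).en l₀ ∧ dg false l₀ = x
  · obtain ⟨l₀, a1, a2, rfl⟩ := k
    obtain ⟨l, rfl, b1, b2⟩ := h₀ l₀ a2 (h₁ l₀ a1 a2 (le_of_max_le_right hx))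
    refine (two p H hg D b2 (Bool.forall_bool.2 ⟨a1, one_pos.trans_le (le_of_max_le_right b1)⟩)
      (fun s => (tw s).1) (le_of_max_le_left hx) hty ((hΛ l a1 (le_of_max_le_left b1) 𝓔 ty Sl p
        hty).imp fun _ hS μ hμ => ?_)).mono
      fun lv Γ ⟨i, c1, c2, c3⟩ W yt τ hτ => evQ_mono (c3 W yt τ hτ) fun q c β hβ e => ?_
    · obtain ⟨C, η, a, hS⟩ := hS μ hμ
      exact ⟨C, η, a, Ew.mono hS fun lv Γ _ c W yt τ hτ L tr R => evQ_mono (c W yt τ hτ)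
        fun q c β hβ hl t ht c' s => have s' := (R.sol β q t ht c').2 s
          c β hβ hl ⟨(t, c'), trivial, s'.1.1⟩ ⟨⟨s', Subsingleton.elim _ _⟩, ht⟩⟩
    · obtain ⟨i', e'⟩ := gen_two p hg.1 D.prt hty hβ false
      obtain rfl := c1 i' (by rw [← e', ← d, e])
      obtain ⟨β', f1, f2⟩ := exists_at p hg.1 D.prt i e'
      exact ⟨β', f1.1, f2, by rw [c2 β' f1, d, f2, ← d, e], c β' f1⟩
  · have e : ε false = ty (p.ι (D.ι false)).1 := ((p.ty _).trans (D.h _)).symm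
    refine ⟨1, fun μ hμ => (Ew.at (p.ι (D.ι false)).1 ((e ▸ (tw false).1).lab x
      (le_of_max_le_left hx) μ (one_pos.trans_le hμ) 1 one_pos)).mono
      fun lv Γ _ c W yt τ _ => ⟨0, fun q _ β hβ e' => absurd ?_ k⟩⟩
    obtain ⟨i, a⟩ := gen_two p hg.1 D.prt hty hβ false
    obtain ⟨l, b1, b2, b3, -⟩ := c i (by rw [← e', d, a])
    exact ⟨l, b1.1, e ▸ b2, b3⟩

theorem hi0 (hn : g.NoRed) (h3 : g.p3 = none) (hw : ∀ c, g.wl c = none) :
    ∃ n : ℚ, ∀ x, n ≤ x → g.EvW mk fun p l Γ _ yt τ q => ∀ β, p.InV Γ β →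
      p.dp G l β g.pin false = x → p.dp G l β g.pout true = x + G.dg g → p.M l yt τ β q = ∅ := by
  rcases h1 : g.pin with _ | i
  · exact ⟨1, fun x hx _ _ _ _ _ _ _ => .of_forall fun _ _ _ _ _ _ => ⟨0, fun _ _ _ _ e =>
      absurd (hx.trans_eq e.symm) (not_le.2 one_pos)⟩⟩
  rcases h2 : g.pout with _ | j
  · exact ⟨1 - G.dg g, fun x hx _ _ _ _ _ _ _ => .of_forall fun _ _ _ _ _ _ => ⟨0, fun _ _ _ _ _ e =>
      absurd ((sub_le_iff_le_add.1 hx).trans_eq e.symm) (not_le.2 one_pos)⟩⟩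
  have P : Prt g fun s => bif s then j else i := ⟨h1, h2, h3, hw⟩
  obtain ⟨Λ, hΛ⟩ := H.small g hg _ P
  obtain ⟨μ₀, h₀⟩ : ∃ n : Bool → ℚ, _ := Classical.skolem.1 fun s =>
    H.twhi _ (hg.2 _) (kd_two hg.1 P s) (max Λ 1)
  refine ⟨max (μ₀ false) (μ₀ true - G.dg g), fun x hx 𝓔 _ ty Sl _ p hty => ?_⟩
  choose l l1 l2 using fun s => h₀ s (bif s then x + G.dg g else x) (by
    cases s
    exacts [le_of_max_le_left hx, sub_le_iff_le_add.1 (le_of_max_le_right hx)])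
  obtain ⟨μ₁, hN⟩ := H.nrc g hg _ P hn 𝓔 ty Sl p hty
  obtain ⟨μ₂, hS⟩ := hΛ l (one_pos.trans_le (le_of_max_le_right (l1 _)))
    (le_of_max_le_left (l1 _)) 𝓔 ty Sl p hty
  refine ev_of (.of_forall fun _ _ => trivial) (max (max μ₁ 0) μ₂) fun μ hμ => ?_
  simp only [gt_iff_lt, max_lt_iff] at hμ
  obtain ⟨C, η, a, hS⟩ := hS μ hμ.2.le
  refine ((Ew.and hS (hN μ hμ.1.1.le C)).and (Ew.bool (P := fun s lv Γ => ∀ k, G.d lv _
    ((Γ.g (p.ι (bif s then j else i)).1).x k) = (bif s then x + G.dg g else x) →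
      |bm μ (nm ((Γ.g _).x k)) - l s| ≤ η) fun s => Ew.at _ ((p.ty _).symm ▸ l2 s μ hμ.1.2 η a :))).mono ?_
  rintro lv Γ rfl ⟨⟨c1, c2⟩, c3⟩ - W yt τ hτ
  refine evQ_mono (evQ_and (c1 W yt τ hτ) (c2 W yt τ hτ)) fun q c β hβ e1 e2 =>
    eq_empty_of_forall_notMem fun y hy => ?_
  obtain ⟨z, hz⟩ := c.2 β hβ y hy
  refine hz.not_ge (c.1 β hβ (fun s => ?_) y hy z)
  obtain ⟨i', a⟩ := gen_two p hg.1 P hty hβ s
  rw [a]
  refine c3 s i' (a ▸ ?_)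
  cases s
  exacts [e1, e2]

theorem al1 (h : mk.al1 g) (x : ℚ) :
    g.EvW mk fun p l Γ _ yt τ q => ∀ β, p.InV Γ β → p.dp G l β g.pin false = x →
      p.dp G l β g.pout true = x + G.dg g → p.One l yt τ β q := by
  obtain ⟨ε, D, hD, ps, ⟨r, r0, hr⟩, ⟨K, hK⟩, σ, σ0, hσ⟩ := H.mks.al1 g h
  have ok : ε.1.OK mk := D.h false ▸ hg.2 _
  have kd : ε.1.kd = .qhs := D.h false ▸ kd_two hg.1 D.prt false
  obtain ⟨dg, -, -, tw⟩ := H.twid ε ok kd (D.base.ok.en false)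
  replace tw := tw ps
  intro 𝓔 _ ty Sl _ p hty
  have e : ∀ s, ε = ty (p.ι (D.ι s)).1 := fun s => ((p.ty _).trans (D.h _)).symm
  have d : ∀ (l : Flo2.Lv 𝓔) β, p.dp G l β g.pin false = G.d l _ (β (p.ι (D.ι false)) false) :=
    fun l β => by rw [D.prt.pin]; rfl
  have d' : ∀ (l : Flo2.Lv 𝓔) β, p.dp G l β g.pout true = G.d l _ (β (p.ι (D.ι true)) true) :=
    fun l β => by rw [D.prt.pout]; rfl
  by_cases k : ∀ s, ∃ l > 0, Rad94.Ev ε.en l ∧ dg l = bif s then x + G.dg g else x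
  · obtain ⟨l₀, a1, a2, a3⟩ := k false
    obtain ⟨l₁, a4, a5, a6⟩ := k true
    obtain rfl : dg l₀ = x := a3
    obtain ⟨l, rfl, b1, b2⟩ := hD l₀ a1 a2 (.inr ⟨l₁, ⟨a4, (tw.mono.lt_iff_lt ⟨a4, a5⟩ ⟨a1, a2⟩).1
      (a6.trans_lt (add_lt_iff_neg_left.2 (H.ind.tp g hg r hr ▸ r0)))⟩, a5⟩)
    have l0 : ∀ s, 0 < l s := Bool.forall_bool.2 ⟨a1, b1⟩
    obtain ⟨w₀, N, tow⟩ := H.tow _ (hty (p.ι (D.ι true)).1)
    refine ((two p H hg D b2 l0 (dg := fun _ => dg) (fun _ => tw) trivial hty ⟨0, fun μ _ => ?_⟩).and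
      (((tow (ty (p.ι (D.ι true)).1).2).thin (.inr (e true ▸ ⟨kd, ps⟩))).at (p.ι (D.ι true)).1)).mono
      fun lv Γ ⟨⟨i, c1, c2, c3⟩, c4⟩ W yt τ hτ => evQ_mono (c3 W yt τ hτ) fun q c β hβ e1 e2 => ?_
    · obtain ⟨C, hC⟩ := H.psc _ _ _ _ D.Z D.z _ _ _ K D.base.ok hK σ σ0 hσ (fun _ => bm μ)
        fun _ => ⟨cd_bm μ, fun _ => bm_zero⟩
      refine ⟨C, min (l false) (l true) / 2, half_pos (lt_min a1 b1), (ew_le one_pos).mono ?_⟩
      rintro lv Γ rfl hw W yt τ - L tr R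
      refine evQ_mono (hC lv.w ⟨Γ.w0, hw⟩ W L) fun q c β hβ hl => c _ fun s => ⟨R.crit β s ?_, ?_⟩
      · obtain ⟨i, a⟩ := gen_two p hg.1 D.prt hty hβ s
        exact a ▸ (Γ.ok _).crit (.inl i)
      · refine not_lt.1 fun a => ?_
        have b := hl s
        rw [← R.nm, bm_zero a.le, zero_sub, abs_neg, abs_of_pos (l0 s)] at b
        cases s <;> linarith [min_le_left (l false) (l true), min_le_right (l false) (l true)]
    · obtain ⟨i', e'⟩ := gen_two p hg.1 D.prt hty hβ false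
      obtain rfl := c1 i' (by rw [← e', ← d, e1])
      obtain ⟨β', f1, f2⟩ := exists_at p hg.1 D.prt i e'
      obtain ⟨i'', e''⟩ := gen_two p hg.1 D.prt hty hβ true
      obtain rfl : i'' = i true := c4 (by
        change G.d lv _ ((Γ.g _).x i'') = G.d lv _ ((Γ.g _).x (i true))
        rw [← e'', ← f1.2 true, ← d', ← d', c2 β' f1, d, f2, ← d, e1, e2])
      exact c β ⟨hβ, Bool.forall_bool.2 ⟨e', e''⟩⟩
  · obtain ⟨s, k⟩ := not_forall.1 k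
    refine ⟨1, fun μ hμ => (Ew.at (p.ι (D.ι s)).1 ((e s ▸ tw).lab (bif s then x + G.dg g else x)
      trivial μ (one_pos.trans_le hμ) 1 one_pos)).mono
      fun lv Γ _ c W yt τ _ => ⟨0, fun q _ β hβ e1 e2 => absurd ?_ k⟩⟩
    obtain ⟨i, a⟩ := gen_two p hg.1 D.prt hty hβ s
    obtain ⟨l, b1, b2, b3, -⟩ := c i (by
      change G.d lv _ _ = _
      rw [← a]
      cases s
      exacts [d lv β ▸ e1, d' lv β ▸ e2])
    exact ⟨l, b1.1, e s ▸ b2, b3⟩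

theorem ex1 (hi : g.Ir) (h : mk.ex1 g) : g.pin = none ∧ g.pout = none ∧ G.dg g = 0 ∧
    g.EvW mk fun p l _ _ yt τ q => ∀ β, p.One l yt τ β q := by
  obtain ⟨k0, n0, h1, h2, h3, hS⟩ := H.mks.ex1 g h
  have : IsEmpty (Fin g.k) := k0 ▸ inferInstance
  have : IsEmpty (Fin g.nc) := n0 ▸ inferInstance
  have ni : ∀ i s, ¬g.s.Inf i s := fun i s => by
    cases s
    · simp [hg.1.inn, h1]
    · simp [hg.1.out, h2, h3]
  have off : ∀ (𝓔 : Type) [Fintype 𝓔] (ty : 𝓔 → Ty κ lam ν) (Sl : Type) [Fintype Sl]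
      (p : Plc ty Sl g) (l : Flo2.Lv 𝓔) t j, (p.lev l (g.P t)).Off j := fun 𝓔 _ ty Sl _ p l t j => by
    by_cases a : ∃ i, p.ι i = j
    · obtain ⟨i, rfl⟩ := a
      refine (Lvo97.lev_off p l).2 (hg.1.off i (Option.eq_none_iff_forall_not_mem.2 fun K hK => ?_)
        isEmptyElim t)
      exact let ⟨s, a⟩ := hg.1.fam.ends i K hK; ni i s ⟨K, hK, a⟩
    · intro K hK
      rw [p.lev_none _ l (not_exists.1 a)] at hK
      cases hK
  have one : ∀ (𝓔 : Type) [Fintype 𝓔] (ty : 𝓔 → Ty κ lam ν) (Sl : Type) [Fintype Sl]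
      (p : Plc ty Sl g) (l : Flo2.Lv 𝓔), 0 < l.w → ∀ (W : Type) (yt : l.YT ty W) (τ : Tm g W), τ.OK →
      EvQ fun q => ∀ β, p.One l yt τ β q := fun 𝓔 _ ty Sl _ p l hw W yt τ hτ => by
    obtain ⟨j, η, η0, hS⟩ := hS 0
    choose C hC using fun v => Cb_of_hcs (F := (g.P 0).bg.F.toPre) (hτ.sf v 0).1 (hτ.sf v 0).2.1
    refine evQ_mono (evQ_le (fun v => C v j) η0) fun q hq β => ?_
    have nf : ∀ i s, ∀ K ∈ (p.lev l (g.P 0)).nk i, ¬K.Inf s := fun i s K hK a => by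
      obtain ⟨r, a1, a2⟩ := off 𝓔 ty Sl p l 0 i K hK
      cases s <;> simp [Nk.Inf, a1, a2] at a
    have sm : ∀ v, Sm g.X.I fun x => q v • τ.fo v 0 x := fun v =>
      (q v • ContinuousLinearMap.id ℝ _).contMDiff.comp (hC v).1
    have cb : ∀ j, (g.P 0).bg.F.CB j (fun x => q.sum fun v r => r • τ.fo v 0 x)
        (q.sum fun v r => |r| * C v j) := fun j => CB_sum q.support (fun v _ => sm v) fun v _ =>
      CB_mono (CB_clm (q v • ContinuousLinearMap.id ℝ _) (hC v).1 ((hC v).2 j))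
        (mul_le_mul_of_nonneg_right (ContinuousLinearMap.opNorm_le_bound _ (abs_nonneg _)
          fun z => (norm_smul (q v) z).le) ((norm_nonneg _).trans (CB_bound ((hC v).2 j)
            (hg.1.fam.site.con.toNonempty.some))))
    obtain ⟨c, c1, ⟨x, c2⟩, c3⟩ := hS (fun x => q.sum fun v r => r • τ.fo v 0 x)
      ⟨⟨_, contMDiff_finsetSum fun v _ => sm v, cb⟩, fun x => by
        simp only [Finsupp.sum, map_sum, map_smul, (hτ.sf _ 0).2.2 x]⟩ (CB_mono (cb j) hq)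
    have r0 := (Real.sqrt_pos.2 hw).ne'
    have s := fun c => sol_scl (b := (g.P 0).bg) (c := c) hw
      (pt_off ((p.fam l yt τ).P 0) (off 𝓔 ty Sl p l 0) q)
    have c4 := (s _).2 ((scl_scl' r0 c).symm ▸ c1)
    have c5 : (p.lev l (g.P 0)).As β (scl (√l.w)⁻¹ c) :=
      ⟨c4.toAdm, fun i s K hK a => absurd a (nf i s K hK)⟩
    refine ⟨⟨(0, _), trivial, c5⟩, ⟨⟨⟨⟨c5, x, smul_ne_zero (inv_ne_zero r0) c2⟩, c4⟩,
      Subsingleton.elim _ _⟩, isEmptyElim⟩, ?_⟩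
    rintro ⟨⟨t, c'⟩, a⟩ hy
    obtain rfl : t = 0 := Subsingleton.elim _ _
    obtain ⟨u, u1, u2⟩ := c3 _ ((s c').1 hy.1.1.2)
    refine ⟨rfl, u, ⟨u1, fun i s K hK a => absurd a (nf i s K hK)⟩, ?_⟩
    change c' = (g.P 0).bg.act u (scl _ c)
    rw [act_scl, ← u2, scl_scl r0]
  refine ⟨h1, h2, ?_, fun 𝓔 _ ty Sl _ p _ => .of_forall fun l Γ => one 𝓔 ty Sl p l Γ.w0⟩
  let p : Plc g.ty Unit g := ⟨fun i => (i, ()), fun _ _ e => congrArg Prod.fst e, fun _ => rfl⟩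
  obtain ⟨l, Γ, a⟩ := (dg0 p H hg isEmptyElim hi hg.2).exists H.ex hg.2
  have := a (fun _ _ => ⟨0, 0⟩) (fun i s k => absurd k (ni i s)) 1 one_pos 0 (fun _ _ => univ)
    (fun j b k => let ⟨i, _, k⟩ := (p.lev_inf _ l j b).1 k; absurd k (ni i b))
    fun W yt τ hτ => evQ_mono (one _ _ _ p l Γ.w0 W yt τ hτ) fun q k =>
      ⟨(k _).imp fun y a => ⟨a.1, by simp [eq_univ_of_forall (s := g.dom) fun _ => isEmptyElim], a.2⟩,
        fun y _ j K hK t ht => ?_, fun _ _ _ _ _ _ _ _ _ => trivial⟩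
  · rw [h1, h2, h3] at this
    simpa [Plc.dp] using this
  · obtain ⟨r, a1, a2⟩ := off _ _ _ p l y.1.1 j K hK
    have b1 := ht.1 (r + 3) (by rw [a1]; rfl)
    have b2 := ht.2 (r + 2 - 3) (by rw [a2]; rfl)
    linarith

omit hg in
/-- **RAD-TOP** -/
theorem radStmt : Flo2.RadStmt G mk :=
  ⟨fun _ hg _ h => hi1 H hg h, fun _ hg hn _ h3 hw => hi0 H hg hn h3 hw,
    fun _ hg _ h => al1 H hg h, fun _ hg hi h => ex1 H hg hi h⟩

end Crest.Agent.X212.Sw88
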