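import Crest.Agent.X212.Sw88.RadA
import Crest.Agent.X212.Lvo97.Main
import Crest.Agent.X212.Pb50.Nk
import Crest.Agent.X212.Ext33.Sys
import Crest.Agent.X212.Prm93.Chg

/-!
# Row 212, lane RAD-S (helper88): RIDX (the canonical form of a cell with two ends) and RICH
-/

set_option autoImplicit false
set_option linter.unusedSectionVars false
noncomputable section
open scoped Manifold ContDiff Topology InnerProductSpace
open MeasureTheory Set Function Filter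

namespace Crest.Agent.X212.Sw88
open An Cyf70 Sw Sw.En3 Sob92 Prm93
open Flo2 (Gc Ty Mk Gr Plc Tm Tk bm)
open Rad94 (EvQ Prt Dat Rdx)
open M (Mf pm)

variable {κ lam ν : Type} [Fintype κ] [Fintype lam] [Fintype ν] [DecidableEq ν]
  {X : Mf 4} {nc : ℕ}

theorem χ_off {e : En3 κ lam ν} {b : Bg X.I X.M κ lam ν nc} {K : Nk e b}
    (h : ∃ a, K.p = some a ∧ K.q = some (a + 2)) (x : X.M) : K.χ x = 0 := by
  obtain ⟨a, h1, h2⟩ := h
  simp only [Nd18.Nk.χ, Nd18.Nk.cut, Nd18.ct, h1, h2, Option.elim]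
  rcases le_total (K.tm x) (a + 1) with e | e
  · rw [Real.smoothTransition.zero_of_nonpos (by linarith), zero_mul]
  · rw [Real.smoothTransition.zero_of_nonpos (x := a + 2 - _ - _) (by linarith), mul_zero]

theorem sub_core {N : Type} [Fintype N] {e : N → En3 κ lam ν} (P : Pz X nc e) {K : Set X.M}
    (hK : IsCompact K) : ∃ r, K ⊆ P.core r := by
  have h : ∀ i, ∃ r, ∀ K' ∈ P.nk i, ∀ x ∈ K, ‖K'.tm x‖ ≤ r := fun i => by
    rcases P.nk i with _ | K'
    · simp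
    · simpa using hK.exists_bound_of_continuousOn K'.cont.continuousOn
  choose r hr using h
  obtain ⟨R, hR⟩ := Finite.bddAbove_range r
  refine ⟨R, fun x hx i s K' h _ ⟨z, hz, e⟩ =>
    (show R < pm s * z.2 from hz.2.2).not_ge ?_⟩
  have := (hr i K' h x hx).trans (hR ⟨i, rfl⟩)
  rw [← e, K'.tm_ψ z (K'.mem_src.2 hz.2.1), Real.norm_eq_abs, abs_le] at this
  cases s <;> simp only [pm] <;> simp <;> linarith

section sub
variable {d : Dt κ lam ν} {N N' : Type} [Fintype N] [Fintype N'] {ty : N → d.𝓔}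
  (P : Pc d X nc ty) (f : N' → N)

/-- the piece with the necks `f i` -/
def psub : Pc ⟨N', fun s => d.e (ty (f s)), d.W, fun w s => d.yt w (ty (f s))⟩ X nc id :=
  ⟨⟨P.bg, fun s => P.nk (f s)⟩, P.fo, P.η⟩

variable {P f} (hf : Injective f) (hO : ∀ j ∉ range f, P.Off j)
include hO

theorem all_sub {C : ∀ j, Bool → Nk (d.e (ty j)) P.bg → Prop} :
    (∀ i s, ∀ K ∈ P.nk (f i), K.Inf s → C (f i) s K) ↔ ∀ j s, ∀ K ∈ P.nk j, K.Inf s → C j s K := by
  refine ⟨fun h j s K hK a => ?_, fun h i => h (f i)⟩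
  by_cases k : j ∈ range f
  · obtain ⟨i, rfl⟩ := k
    exact h i s K hK a
  · obtain ⟨r, a1, a2⟩ := hO j k K hK
    cases s <;> simp [Nk.Inf, a1, a2] at a

theorem eqv_sub (c c' : Sw.Cfg X.M κ ν) : P.Eqv c c' ↔ (psub P f).Eqv c c' :=
  exists_congr fun u => and_congr_left' (and_congr_right' (all_sub hO
    (C := fun _ s K => K.AsyG s u)).symm)

include hf

theorem ok_sub (h : P.OK) : (psub P f).OK :=
  ⟨⟨h.bg, h.vol, h.con, fun _ => h.en _, fun _ _ a => h.dj (hf.ne a), fun T => by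
    convert h.cpt T using 1
    exact ext fun x => all_sub hO (C := fun _ s K => x ∉ K.ψ '' univ ×ˢ K.far s T)⟩,
    h.sf, h.cf, h.pf, h.η⟩

theorem sum_sub {V : Type} [AddCommMonoid V] (x : X.M) {F : ∀ j, Nk (d.e (ty j)) P.bg → V}
    (h : ∀ j K, K.χ x = 0 → F j K = 0) :
    ∑ i, (P.nk (f i)).elim 0 (F (f i)) = ∑ j, (P.nk j).elim 0 (F j) :=
  Fintype.sum_of_injective f hf _ _
    (fun j k => Pb50.elim_zero fun K hK => h j K (χ_off (hO j k K hK) x)) fun _ => rfl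

theorem pt_sub (q : d.W →₀ ℝ) : (psub P f).pt q = P.pt q := by
  refine congrArg₂ (Pt.mk · · _) (funext₂ fun c x => ?_) (funext₂ fun c x => congrArg₂ (· + ·) ?_
    (Finsupp.sum_congr fun w _ => congrArg (q w • ·) (congrArg (P.fo w x + ·) ?_)))
  · exact sum_sub hf hO x (F := fun _ K => K.rad c x) fun _ K h => by
      rw [Nk.rad, h, zero_mul, zero_smul]
  · exact sum_sub hf hO x (F := fun _ K => K.hl c x) fun _ K h => by
      rw [Nk.hl, Nd18.Nk.ext, h, zero_smul, smul_zero]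
  · exact sum_sub hf hO x (F := fun j K => (d.yt w (ty j)).elim 0 fun T => K.ms T c x) fun _ K h =>
      Pb50.elim_zero fun T _ => by rw [Nk.ms, Nd18.Nk.ext, h, zero_smul, smul_zero]

theorem sol_sub (β : BCs fun i => d.e (ty i)) (q : d.W →₀ ℝ) (c : Sw.Cfg X.M κ ν) :
    P.Sol β q c ↔ (psub P f).Sol (fun s => β (f s)) q c :=
  and_congr (and_congr_left' (and_congr_right' (all_sub hO
    (C := fun j s K => K.Asy s (β j s) c)).symm)) (by rw [pt_sub hf hO]; rfl)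

end sub

theorem sb_dom {ι V : Type} [Fintype ι] [NormedAddCommGroup V] [NormedSpace ℝ V] {k : ℕ}
    {F : Pre X.I X.M ι} {f : Tk k → X.M → V} (h : SB F univ f) :
    (∀ j, ∃ C, ∀ t ∈ Icc (0 : Tk k) 1, F.CB j (f t) C) ∧
      ∃ C, ∀ t ∈ Icc (0 : Tk k) 1, ∀ t' ∈ Icc (0 : Tk k) 1, ∀ x, ‖f t x - f t' x‖ ≤ C * ‖t - t'‖ := by
  refine ⟨fun j => ?_, ?_⟩
  · obtain ⟨C, hC⟩ := isCompact_Icc.exists_bound_of_continuousOn
      ((h.sm j).continuousOn.mono (subset_univ (Icc 0 1)))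
    exact ⟨C, fun t ht => fn_toB (k := j) (h.cb t trivial) ▸ CB_mono (B.CB _) (hC t ht)⟩
  · obtain ⟨C, hC⟩ := ((h.sm 0).mono (subset_univ _)).exists_lipschitzOnWith (by simp)
      (convex_Icc 0 1) isCompact_Icc
    refine ⟨C, fun t ht t' ht' x => le_trans ?_ (hC.norm_sub_le ht ht')⟩
    have := CB_bound (B.CB (toB F 0 (f t) - toB F 0 (f t'))) x
    rwa [map_sub, fn_toB (h.cb t trivial), fn_toB (h.cb t' trivial)] at this

theorem jc_dom {k : ℕ} {f : Tk k → R4 → Eu ν} (h : JC univ f) : ∃ C R, ∀ t ∈ Icc (0 : Tk k) 1, ∀ y,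
    (R < ‖y‖ → f t y = 0) ∧ ‖f t y‖ ≤ C ∧ ∀ t' ∈ Icc (0 : Tk k) 1, ‖f t y - f t' y‖ ≤ C * ‖t - t'‖ := by
  obtain ⟨h, K, hK, h0⟩ := h
  obtain ⟨R, hR⟩ := hK.isBounded.subset_closedBall 0
  have c := (isCompact_Icc (a := (0 : Tk k)) (b := 1)).prod (isCompact_closedBall (0 : R4) R)
  have h' := h.mono (prod_mono (subset_univ (Icc 0 1)) (subset_univ (Metric.closedBall 0 R)))
  obtain ⟨C, hC⟩ := c.exists_bound_of_continuousOn h'.continuousOn
  obtain ⟨L, hL⟩ := h'.exists_lipschitzOnWith (by simp) ((convex_Icc 0 1).prod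
    (convex_closedBall 0 R)) c
  have z : ∀ t y, R < ‖y‖ → f t y = 0 := fun t y a => h0 t trivial y fun k =>
    a.not_ge (mem_closedBall_zero_iff.1 (hR k))
  refine ⟨max |C| L, R, fun t ht y => ⟨z t y, ?_⟩⟩
  rcases lt_or_ge R ‖y‖ with a | a
  · simp only [z _ y a, norm_zero, sub_zero]
    exact ⟨by positivity, fun _ _ => by positivity⟩
  · have m := mem_closedBall_zero_iff.2 a
    refine ⟨le_max_of_le_left ((hC (t, y) ⟨ht, m⟩).trans (le_abs_self _)), fun t' ht' =>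
      (hL.norm_sub_le (x := (t, y)) (y := (t', y)) ⟨ht, m⟩ ⟨ht', m⟩).trans ?_⟩
    rw [Prod.mk_sub_mk, sub_self, Prod.norm_mk, norm_zero, max_eq_left (norm_nonneg _)]
    exact mul_le_mul_of_nonneg_right (le_max_right _ _) (norm_nonneg _)

variable (κ lam ν) in
/-- **RIDX** -/
theorem ridx : Rad94.RidxStmt κ lam ν := by
  rintro g ε ⟨ι, h, prt, Z, z, ϖ, φ, ψ, r, a₀, hbg, hng, base⟩ hg 𝓔 _ ty Sl _ p lv Γ W yt τ hτ
  obtain rfl : ε = fun s => ty (p.ι (ι s)).1 := funext fun s => ((p.ty _).trans (h s)).symm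
  have fam := Lvo97.lev κ lam ν g hg 𝓔 ty Sl p lv W yt τ (fun ε => (Γ.ok ε).ok) Γ.w0 hτ
  have inj : Injective fun s => p.ι (ι s) := p.inj.comp fun s s' e => by
    have k : ι false ≠ ι true := fun e => (hg.cyl _ prt.pin).1 (e ▸ prt.pout)
    cases s <;> cases s' <;> first | rfl | exact absurd e k | exact absurd e.symm k
  have off : ∀ t, ∀ j ∉ range fun s => p.ι (ι s), ((p.fam lv yt τ).P t).Off j := fun t j k => by
    by_cases a : j ∈ range p.ι
    · obtain ⟨i, rfl⟩ := a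
      refine (Lvo97.lev_off p lv).2 (hg.off i (Option.eq_none_iff_forall_not_mem.2 fun K hK => ?_)
        (by simp [prt.wl]) t)
      obtain ⟨s, a⟩ := hg.fam.ends i K hK
      exact k ⟨s, congrArg p.ι ((inf_ι hg prt i s).1 ⟨K, hK, a⟩).symm⟩
    · exact Lvo97.off_lev p lv a
  have d := dom_eq prt.wl
  have d0 : (0 : Tk g.k) ∈ g.dom := d ▸ ⟨le_rfl, zero_le_one⟩
  have ng : ∀ t ∈ g.dom, ∀ s, ∃ K ∈ ((p.fam lv yt τ).P t).nk (p.ι (ι s)), K.ng = (z.K s).ng :=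
    fun t ht s => let ⟨K, a, b⟩ := hng t ht s; ⟨_, Lvo97.lk_mem p lv a, b⟩
  have n2 : ∀ s {nc} {b : Bg g.X.I g.X.M κ lam ν nc} (K : Nk (lv.e ty (p.ι (ι s)).1) b),
      K.ng = (z.K s).ng → ∀ (c : Sw.Cfg g.X.M κ ν) τ',
        nm (sl (K.pb c) (z.gm.tt s τ')) = z.gm.n2 s c.Φ τ' := fun s _ _ K e c τ' => by
    have : K.ψ = (z.K s).ψ := congrArg (·.2.2.1) e
    simp only [nm, sl, Nk.pb, Cfg.pb, this]
    rfl
  have F : (g.P 0).bg.F = Z.bg.F := by rw [hbg 0 d0]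
  have Q : ∀ t, t ∈ g.𝓕.Q := fun t => hg.Q ▸ trivial
  refine ⟨⟨fun s => lv.S (p.ι (ι s)).1, fun s => lv.ψ (p.ι (ι s)).1, fun w s => yt w (p.ι (ι s)).1,
    fun t => psub ((p.fam lv yt τ).P t) fun s => p.ι (ι s),
    fun t _ => ok_sub inj (off t) (fam.ok t trivial), fun t ht => ?_, ng, fun v => ?_,
    fun v j => d ▸ jc_dom (hτ.jc v j), fun s => Γ.g _, fun s => Γ.ok _⟩, fun β s => β (p.ι (ι s)),
    fun _ _ => rfl, fun _ _ => id, fun _ _ _ => id, fun β q t _ c => sol_sub inj (off t) β q c,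
    fun t _ => eqv_sub (off t), fun j b => ?_, fun s K hK => ?_, fun β y η hy k j K hK t ht => ?_⟩
  · change ({ (g.P t).bg with w := lv.w } : Bg _ _ κ lam ν g.nc) = _
    rw [hbg t ht]
  · obtain ⟨a1, a2⟩ := sb_dom (F ▸ (hg.fam.mix 0 (Q 0)).SB (fun a b => (hg.fam.sS a b).cb 0 (Q 0))
      (hτ.sb v) : SB Z.bg.F.toPre univ (τ.fo v))
    obtain ⟨R, hR⟩ := hτ.cf v
    have c : ∀ s, Continuous (z.gm.ht s) := fun s =>
      (continuous_const.mul ((z.K s).cont.sub continuous_const)).sub continuous_const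
    choose T hT using fun s => (hg.fam.site.cpt R).exists_bound_of_continuousOn (c s).continuousOn
    refine ⟨d ▸ a1, ⟨max (T false) (T true), fun t _ x hx => hR t x fun k => hx fun s =>
      ((le_abs_self _).trans (hT s x k)).trans ?_⟩, d ▸ a2⟩
    cases s
    exacts [le_max_left _ _, le_max_right _ _]
  · rw [p.lev_inf]
    exact ⟨fun ⟨i, a, k⟩ => a ▸ congrArg p.ι ((inf_ι hg prt i b).1 k),
      fun a => ⟨_, a.symm, (inf_ι hg prt _ b).2 rfl⟩⟩
  · obtain ⟨K', a, b⟩ := fam.en 0 trivial _ K hK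
    obtain ⟨K'', a', b'⟩ := ng 0 d0 s
    exact n2 s K (b.symm.trans (Option.mem_unique a a' ▸ b'))
  · by_cases a : j ∈ range fun s => p.ι (ι s)
    · obtain ⟨s, rfl⟩ := a
      obtain ⟨K', a, b⟩ := ng _ hy s
      obtain rfl := Option.mem_unique hK a
      have h1 : K.p = _ := (congrArg (·.1) b).trans (z.hp s)
      have h2 : K.q = _ := (congrArg (·.2.1) b).trans (z.hq s)
      have h3 : z.gm.tt s (pm s * (t - z.o s) - 1) = t := by cases s <;> simp [Rad94.Gm.tt, pm]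
      rw [← h3, n2 s K b]
      refine k s _ ?_
      cases s
      · have := ht.2 (z.o false - 3) (by rw [h2]; rfl)
        simp only [pm]; simp; linarith
      · have := ht.1 (z.o true + 3) (by rw [h1]; rfl)
        simp only [pm]; simp; linarith
    · obtain ⟨r, a1, a2⟩ := off _ j a K hK
      have b1 := ht.1 (r + 3) (by rw [a1]; rfl)
      have b2 := ht.2 (r + 2 - 3) (by rw [a2]; rfl)
      linarith

variable (κ lam ν) in
/-- **RICH** -/
theorem rich : Rad94.RichStmt κ lam ν := by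
  intro g hg hw
  have Q : ∀ t, t ∈ g.𝓕.Q := fun t => hg.Q ▸ trivial
  have p2 : ∀ t, (g.P t).bg.p2 = g.s.bg.p2 := fun t => funext fun x => by
    rw [Bg.p2, Bg.p2, hg.fam.B t (Q t)]
  refine ⟨Sec g.X.I g.s.bg.p2 × {η // Ext33.Ts g η}, ⟨fun w _ => w.1.1, fun w _ => w.2.1⟩,
    ⟨fun w t => (p2 t).symm ▸ w.1.2, fun w => .fixed (Cb_of_hcs w.1.2.1 w.1.2.2.1), fun w => ?_,
      fun w c i k => by simp [hw] at k, fun w t j => w.2.2 j t, fun w j =>
        ⟨((w.2.2 j 0).sm.comp contDiff_snd).contDiffOn, _, (w.2.2 j 0).cpt,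
          fun _ _ _ => image_eq_zero_of_notMem_tsupport⟩, fun w => ?_⟩,
    fun t _ => ⟨fun f hf => ⟨(⟨f, p2 t ▸ hf⟩, ⟨0, Ext33.ts_zero⟩), rfl, rfl⟩,
      fun j η h => ⟨(0, ⟨_, Ext33.ts_single hg h⟩), rfl, rfl⟩⟩⟩
  · exact (sub_core g.s w.1.2.2.1).imp fun r k _ x hx =>
      image_eq_zero_of_notMem_tsupport fun a => hx (k a)
  · obtain ⟨r, k⟩ := sub_core g.s w.1.2.2.1
    obtain ⟨s, h⟩ := Cyc79.xf_bds hg (fo := fun _ => w.1.1) (.fixed (Cb_of_hcs w.1.2.1 w.1.2.2.1))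
      (r := r) (fun _ x hx => image_eq_zero_of_notMem_tsupport fun a => hx (k a))
      (D := g.dom) (dom_eq hw ▸ isCompact_Icc)
    obtain ⟨s', h'⟩ := Finite.bddAbove_range fun j => ∫ y, ‖w.2.1 j y‖ ∂leb R4
    refine ⟨max s s', fun t => ?_⟩
    have G : (g.P t).bg.G = (g.P (g.clp t)).bg.G := by rw [hg.G, hg.G, ← hg.ret]
    have := h _ (Hp13.Ext.clp_dom t)
    rw [Bg.F, ← G] at this
    exact ⟨CB_mono this.1 (le_max_left _ _), this.2.trans (le_max_left _ _),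
      fun j => (h' ⟨j, rfl⟩).trans (le_max_right _ _)⟩

end Crest.Agent.X212.Sw88
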