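import Crest.Agent.X212.Tla99.Pat
import Crest.Agent.X212.Bki64.Eng
import Crest.Agent.X212.Cht98.Cov
import Crest.Agent.X212.Cay24.Out

/-!
# Row 212, A-TL (helper88): uniform pointwise bounds
-/

set_option autoImplicit false
set_option linter.unusedSectionVars false
noncomputable section
open scoped Manifold ContDiff Topology InnerProductSpace
open MeasureTheory Set Function Filter Real

namespace Crest.Agent.X212.Sw88.Ub
open An Nd18 Cyf70 Pj41 Cmp73 Bki64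
open Tmp64 (AdmOn admOn_univ Eq0)
open Dgr80 (Gd LB)
open Loc66 (Bub)
open Wz78 (nab)

variable {E : Type} [NormedAddCommGroup E] [NormedSpace ℝ E] [FiniteDimensional ℝ E]
  [MeasurableSpace E] [BorelSpace E]
  {HM : Type} [TopologicalSpace HM] {I : ModelWithCorners ℝ E HM} [I.Boundaryless]
  {M : Type} [TopologicalSpace M] [ChartedSpace HM M] [IsManifold I ∞ M]
  [MeasurableSpace M] [T2Space M] [BorelSpace M] [SecondCountableTopology M] {r r' : ℕ}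

section gen
variable {ι lam : Type} [Fintype ι] [Fintype lam] {B : Base M ι lam} {G : Geo I M ι lam}
  {F : Fr I M ι} {c : Cfg M ι lam r} {O K : Set M} {x : M} {C C' : ℝ}

variable (F c x C) in
/-- bounds at a point -/
def Pb : Prop := ‖c.Φ x‖ ^ 2 ≤ C ∧ ‖c.m.Fg F c.W x‖ ^ 2 ≤ C ∧ ∀ a, qN F c a x ≤ C

theorem Pb.mono (h : Pb F c x C) (e : C ≤ C') : Pb F c x C' :=
  ⟨h.1.trans e, h.2.1.trans e, fun a => (h.2.2 a).trans e⟩

theorem norm_u {c' : Cfg M ι lam r'} {u : M → CL c.m.V c'.m.V} (hu : Iso0 I c.m c'.m O u)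
    (hc : AdmOn c B G O) (hm : OKOn I B c'.m O) (hx : x ∈ O) (ζ : Circle) :
    ‖cs c'.m.J ζ (u x (c.Φ x))‖ ^ 2 = ‖c.Φ x‖ ^ 2 := by
  rw [Mp86.norm_cs hm.Jsq hm.Jsk, Circle.norm_coe, one_mul, ← real_inner_self_eq_norm_sq,
    (hu.iso x hx).inner, hc.pΦ hx, real_inner_self_eq_norm_sq]

theorem Pb.eq0 {c' : Cfg M ι lam r} {u : M → CL c.m.V c'.m.V} (h : Pb G.F c x C)
    (e : Eq0 G.F c c' O u) (hO : IsOpen O) (hc : AdmOn c B G O) (hc' : AdmOn c' B G O)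
    (hx : x ∈ O) : Pb G.F c' x C := by
  refine ⟨?_, (Loc66.norm_Fg_loc e.iso hO hc.ok hc'.ok (fun a => hc.conn.sm a x hx)
    (fun a => hc'.conn.sm a x hx) e.par hx).trans_le h.2.1, fun a => le_of_eq_of_le ?_ (h.2.2 a)⟩
  · rw [e.Φ x hx, ← Eqv71.cs_one c'.m.J (u x _)]
    exact (norm_u e.iso hc hc'.ok hx 1).trans_le h.1
  · have k : nab I G.F.e (Wp G.F c c' u) a (fun y => c'.Φ y + dP c c' u 1 y) x =
        nab I G.F.e c'.W a c'.Φ x := by
      rw [Wz78.nab_congr (v := c'.Φ) a ((hO.eventually_mem hx).mono fun y hy => by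
        simp [dP, e.Φ y hy]), Wz78.nab, Wz78.nab, Wp, dA, cov, e.par x hx a]
      simp
    rw [qN_eq (ζ := 1) e.iso hO hc hx a, k, qN]

theorem pb_zero (h : ∀ y, c.Φ y = 0) (hF : ‖c.m.Fg F c.W x‖ ^ 2 ≤ C) : Pb F c x C := by
  have p := (sq_nonneg _).trans hF
  refine ⟨by simpa [h] using p, hF, fun a => ?_⟩
  rw [qN, funext h, Wz78.nab, Sob92.dv_const]
  simpa using p

theorem pb_cl (hB : B.OK I) {c' : Cfg M ι lam r'} {Ω : Set M} (hΩ : IsOpen Ω)
    (hc' : AdmOn c' B G Ω) (hK : IsCompact K) (hs : K ⊆ Ω) : ∃ C, ∀ r (c : Cfg M ι lam r) u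
      (ζ : Circle) O, O ⊆ Ω → AdmOn c B G O → Cl G.F c c' u (fun _ => ζ) O 1 1 → ∀ x ∈ O ∩ K,
        Pb G.F c x C := by
  obtain ⟨C, ⟨h1, h2⟩, h3, h4⟩ := (((q_bd hB hΩ hc' hK hs).and (exists_bd (I := I)
    (f := fun _ : Unit => c'.Φ) hK fun _ x hx => hc'.sm x (hs hx))).and ((exists_bd (I := I) hK
      fun s x hx => fsm_inner (fsm_Fg hB hΩ hc' (hs hx) s) (fsm_Fg hB hΩ hc' (hs hx) s)).and
        (exists_bd (I := I) hK fun a x hx =>
          fsm_inner (fsm_nab hc' (hs hx) a) (fsm_nab hc' (hs hx) a)))).exists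
  refine ⟨max ((1 + C) ^ 2) (max (∑ _s : ι × ι, (C + C * 1)) (C + C * 1)),
    fun r c u ζ O e hc h x hx => ?_⟩
  obtain ⟨k1, k2⟩ := h1 r c u ζ O 1 hc h le_rfl x hx
  refine ⟨le_max_of_le_left ?_, le_max_of_le_right (le_max_of_le_left ?_), fun a =>
    le_max_of_le_right (le_max_of_le_right ((sub_le_iff_le_add'.1 (abs_le.1 (k2 a)).2).trans
      (add_le_add_left ((le_abs_self _).trans (h4 a x hx.2)) _)))⟩
  · rw [← norm_u h.iso hc (hc'.ok.mono e) hx.1 ζ]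
    exact pow_le_pow_left₀ (norm_nonneg _) ((norm_le_norm_sub_add _ _).trans
      (add_le_add (h.P.le hx.1) (h2 () x hx.2))) 2
  · rw [PiLp.norm_sq_eq_of_L2]
    exact Finset.sum_le_sum fun s _ => (real_inner_self_eq_norm_sq _).ge.trans
      ((sub_le_iff_le_add'.1 (abs_le.1 (k1 s s)).2).trans
        (add_le_add_left ((le_abs_self _).trans (h3 s x hx.2)) _))

/-- bounds on compact sets -/
theorem pb_cpt {α : Type} {l : Filter α} [l.NeBot] {G : α → Geo I M ι lam} {G₀ : Geo I M ι lam}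
    {c : α → Cfg M ι lam r} {c₀ : Cfg M ι lam r} {u : ∀ n, M → CL (c n).m.V c₀.m.V}
    {ζ : α → Circle} (h : Bub l B O ∅ G G₀ (fun n => (c n).m) (fun n => (c n).W) c₀.m c₀.W u)
    (hc : ∀ᶠ n in l, (c n).Adm B (G n))
    (hΦ : Cv I l O (fun n x => cs c₀.m.J (ζ n) (u n x ((c n).Φ x))) c₀.Φ) (hK : IsCompact K)
    (hs : K ⊆ O) : ∃ C, ∀ᶠ n in l, ∀ x ∈ K, Pb (G n).F (c n) x C := by
  have s : K ⊆ O \ ∅ := fun _ k => ⟨hs k, id⟩
  obtain ⟨A, a1, a2, -, a4⟩ := h.iso_cpt hK s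
  have p := hΦ.mono le_rfl (sdiff_subset (t := ∅))
  have k := fun a => ((h.F.mono le_rfl sdiff_subset).D h.op p a).add
    (((Cv.fixed' (h.hW.cc.sm a)).sub (h.cv a)).app p)
  obtain ⟨C1, k1⟩ := Tla99.bdd_cpt (p.bil (innerSL ℝ) p) hK s
  obtain ⟨C2, k2⟩ := Tla99.bdd_cpt h.nF_cv hK s
  choose C3 k3 using fun a => Tla99.bdd_cpt ((k a).bil (innerSL ℝ) (k a)) hK s
  obtain ⟨C4, k4⟩ := (finite_range C3).bddAbove
  refine ⟨max C1 (max C2 C4), ?_⟩
  filter_upwards [a4, hc, k1, k2, eventually_all.2 k3] with n b1 b2 b3 b4 b5 x hx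
  have ad := (admOn_univ.2 b2).mono (subset_univ A)
  refine ⟨le_max_of_le_left ?_, le_max_of_le_right (le_max_of_le_left (b4 x hx)), fun a =>
    le_max_of_le_right (le_max_of_le_right (le_trans ?_ (k4 ⟨a, rfl⟩)))⟩
  · rw [← norm_u b1 ad (OK.on h.hm _) (a2 hx) (ζ n), ← real_inner_self_eq_norm_sq]
    exact b3 x hx
  · rw [qN_eq (ζ := ζ n) b1 a1 ad (a2 hx) a]
    simp only [dP, add_sub_cancel]
    exact b5 a x hx

variable {E' : Type} [NormedAddCommGroup E'] [NormedSpace ℝ E'] [FiniteDimensional ℝ E']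
  [MeasurableSpace E'] [BorelSpace E']
  {HM' : Type} [TopologicalSpace HM'] {I' : ModelWithCorners ℝ E' HM'} [I'.Boundaryless]
  {M' : Type} [TopologicalSpace M'] [ChartedSpace HM' M'] [IsManifold I' ∞ M']
  [MeasurableSpace M'] [T2Space M'] [BorelSpace M'] [SecondCountableTopology M']
  {F' : Fr I' M' ι} {ψ : M' → M} {U : Set M'} {z : M'}

theorem Pb.rel (h : FRel F' F ψ U) (hz : z ∈ U) (k : Pb F' (pb ψ c) z C) : Pb F c (ψ z) C :=
  ⟨k.1, (congrArg (‖·‖ ^ 2) (h.Fg hz c.W)).ge.trans k.2.1, fun a => by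
    have e := h.nab hz (A := (pb ψ c).W) (A' := c.W) (u := (pb ψ c).Φ) (u' := c.Φ) a rfl
      (.of_forall fun _ => rfl)
    exact (congrArg (fun v => ⟪v, v⟫_ℝ) e).ge.trans (k.2.2 a)⟩

theorem eq0_rel (h : FRel F' F ψ U) (hU : MapsTo ψ U O) {c' : Cfg M ι lam r}
    {u : M → CL c.m.V c'.m.V} (e : Eq0 F c c' O u) :
    Eq0 F' (pb ψ c) (pb ψ c') U fun z => u (ψ z) :=
  ⟨⟨fun _ hz => h.sm hz (e.iso.su _ (hU hz)), fun _ hz => e.iso.iso _ (hU hz),
    fun _ hz => e.iso.J _ (hU hz), fun _ hz => e.iso.ρ _ (hU hz), fun _ hz => e.iso.j _ (hU hz)⟩,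
    fun _ hz a => (congrArg (· + _ - _) (h.D hz a (.of_forall fun _ => rfl))).trans
      (e.par _ (hU hz) a), fun _ hz => e.Φ _ (hU hz), e.z⟩

end gen

variable {E3 : Type} [NormedAddCommGroup E3] [NormedSpace ℝ E3] [FiniteDimensional ℝ E3]
  [MeasurableSpace E3] [BorelSpace E3]
  {H3 : Type} [TopologicalSpace H3] {I3 : ModelWithCorners ℝ E3 H3} [I3.Boundaryless]
  {Y : Type} [TopologicalSpace Y] [ChartedSpace H3 Y] [IsManifold I3 ∞ Y] [T2Space Y]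
  [MeasurableSpace Y] [BorelSpace Y] [SecondCountableTopology Y] [CompactSpace Y]
  {κ : Type} [Fintype κ] {lam : Type} [Fintype lam] {D : YD I3 Y κ lam} {β : YC Y κ lam}
  {B : Base M (Option κ) lam}

/-- bounds near a point of the cross-section -/
theorem pb_near (hD : D.OK) (hβ : D.Adm β) : ∃ C, ∀ (G : Geo I M (Option κ) lam) (K : Nk D B G)
    (c : Cfg M (Option κ) lam r), c.Adm B G → ∀ x ∈ K.ψ.target, K.Near c (K.tm x) β 1 →
      Pb G.F c x C := by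
  obtain ⟨C, h⟩ := pb_cl (G := D.G) hD.B isOpen_univ (admOn_univ.2 hβ.adm) (cwin_cpt 0 1)
    (subset_univ _)
  refine ⟨C, fun G K c hc x hx ⟨h1, u, ζ, h2⟩ => ?_⟩
  have A : AdmOn (K.pb c) D.B D.G (univ ×ˢ _) :=
    (((nk_gRel K).admOn_iff (c := c)).2 ((admOn_univ.2 hc).mono (subset_univ _))).mono
      fun _ hz => K.mem_src.2 (h1 hz.2)
  have g := cl_of_cls hβ A h2
  have e : Tmp64.sq (· + K.tm x) ((K.ψ.symm x).1, 0) = K.ψ.symm x :=
    Prod.ext rfl ((zero_add _).trans (K.snd_symm hx).symm)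
  have k := h r _ _ ζ _ (subset_univ _) (admOn_sh A (K.tm x)) ((g.sh (K.tm x)).mono
    (g.sh (K.tm x)).op Subset.rfl (by simp) le_rfl) ((K.ψ.symm x).1, 0)
      ⟨⟨trivial, by simp [Tmp64.sq]⟩, trivial, by simp⟩
  have k' := Pb.rel (fRel_of_iso (F := D.Z) (F' := D.Z) (Cht98.iso_tau D.F.toPre (K.tm x)))
    trivial k
  have k'' : Pb D.Z (K.pb c) (K.ψ.symm x) C := e ▸ k'
  simpa only [K.ψ.right_inv hx] using Pb.rel K.rel (K.ψ.map_target hx) k''

/-- the a priori bounds of `Dec35` -/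
theorem bnd (C v : ℝ) : ∃ C', ∀ (G : Geo I M (Option κ) lam) (K : Nk D B G)
    (x : Cfg M (Option κ) lam r) w S, Gd B G x → Mp86.Wts G.F S w → (∀ y z, w y z ≤ 1) →
    (∀ y, LB G.F.μ (w y) v) → (∀ y ∈ K.dp 1, ∀ z ∈ K.dp 1,
      exp (-(√(1 + (K.tm z - K.tm y) ^ 2) / 4)) ≤ w y z) → (∀ z, Pb G.F x z C) →
    Dec35.Bnd K x w S C' := by
  obtain ⟨A, hA⟩ := cbs_Dτ (D := D)
  refine ⟨max (1 + |C| + |(|C| * v)|) ((∑ _a : Option κ, (∑ _k : Option κ, A 0 * √C) ^ 2) / 4 +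
    (∑ _k : Option κ, A 0 * √C) ^ 2), fun G K x w S h hw w1 wi lo b =>
      ⟨h.hG.vol, h.tame, hw, lo, Mp86.le_mono ?_ (le_max_left _ _),
        .inr fun z => le_max_of_le_right ?_⟩⟩
  · have k : ∀ x', LB G.F.μ (fun y => (w x' y * ‖x.m.Fg G.F x.W y‖) ^ 2) (|C| * v) := fun x' =>
      ((wi x').mul (abs_nonneg C)).mono (((hw.wt x').sm.continuous.mul
        (Mp86.sm_Fg h.hB h.hG h.ok h.conn).continuous.norm).pow 2).aestronglyMeasurable
        (fun _ => sq_nonneg _) fun y => by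
          have p := (hw.wt x').pos y
          have : w x' y ^ 2 ≤ w x' y := by nlinarith [w1 x' y]
          rw [mul_pow, mul_comm]
          exact mul_le_mul ((b y).2.1.trans (le_abs_self C)) this (sq_nonneg _) (abs_nonneg _)
    refine ⟨by linarith [abs_nonneg (|C| * v), abs_nonneg C], fun y => by
      linarith [(b y).1, le_abs_self C, abs_nonneg (|C| * v)], fun y => (k y).1,
      fun y => (k y).2.trans ?_⟩
    nlinarith [le_abs_self (|C| * v), abs_nonneg (|C| * v), abs_nonneg C,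
      sq_nonneg (|C| + |(|C| * v)|)]
  have t : ∀ {V : Type} [NormedAddCommGroup V] [NormedSpace ℝ V] (k) {v : V}, ‖v‖ ^ 2 ≤ C →
      ‖G.F.D k K.τ z • v‖ ≤ A 0 * √C := fun k v hv =>
    have := Sob92.CB_zero.1 ((hA K k).2 0) z
    (norm_smul_le _ _).trans (mul_le_mul this (le_sqrt_of_sq_le hv) (norm_nonneg _)
      ((norm_nonneg _).trans this))
  exact add_le_add (div_le_div_of_nonneg_right ((PiLp.norm_sq_eq_of_L2 _ _).trans_le
    (Finset.sum_le_sum fun a _ => pow_le_pow_left₀ (norm_nonneg _) (norm_sum_le_of_le _ fun k _ =>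
      t k ((pow_le_pow_left₀ (norm_nonneg _) (PiLp.norm_apply_le _ _) 2).trans (b z).2.1)) 2))
    zero_le_four) (pow_le_pow_left₀ (norm_nonneg _) (norm_sum_le_of_le _ fun k _ =>
      t k ((real_inner_self_eq_norm_sq _).ge.trans ((b z).2.2 k))) 2)

/-- `Asol` only sees the gauge class on the windows -/
theorem asol_eq0 {τ γ k' Kc} {c c' : Cfg (Y × ℝ) (Option κ) lam r} {S : Set ℝ}
    {u : Y × ℝ → CL c.m.V c'.m.V} (e : Eq0 D.Z c c' (univ ×ˢ S) u)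
    (h : Dec35.Asol D β τ γ k' Kc c S) : Dec35.Asol D β τ γ k' Kc c' S :=
  fun k C a _ t R h1 h2 h3 h4 h5 =>
    h k C a _ t R h1 h2 h3 h4 (Cay24.cl_pre e h5 (prod_mono_right h2))

end Crest.Agent.X212.Sw88.Ub
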